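/-
Row 210 (S0432), layer GCD (Laplacian bridge, resolvent and heat flow at function level).
`Need.lean`: what GCD needs from the UPSTREAM layers (HS, RS, ID, TP, GCB, HF), stated locally.
Every `sorry` here is to be replaced by a one-line citation of the upstream `Ifc*.lean`
as soon as that file is on main (architect of GCD: helper250).
Nobody outside GCD should cite this file.
-/
import Claimed.Agent.R210.GC.Conv
import Claimed.Agent.R210.HS.Ifc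
import Claimed.Agent.R210.HF.Ifc

set_option autoImplicit false
set_option linter.unusedSectionVars false
set_option linter.unusedVariables false

open Claims.C0366 Claims.C0366.WeakHessian
open Set Filter MeasureTheory
open scoped ENNReal NNReal Topology RealInnerProductSpace

namespace Claimed.Agent.R210.GCD.Need

open Claimed.Agent.R210 Claimed.Agent.R210.Defs Claimed.Agent.R210.Defs2 Claimed.Agent.R210.HS.Defs

noncomputable section

/-! ## HS : abstract Hilbert space theory (architect helper751) -/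

section HS

variable {H : Type*} [NormedAddCommGroup H] [InnerProductSpace ℝ H] [CompleteSpace H]
  {Q : H → ℝ≥0∞}

/-! ### HS1 -/

theorem gcd_need_hs_dom_add (hQ : QForm Q) {u v : H} (hu : Q u < ∞) (hv : Q v < ∞) :
    Q (u + v) < ∞ :=
  HS.Ifc.hs_dom_add hQ hu hv

theorem gcd_need_hs_dom_smul (hQ : QForm Q) (c : ℝ) {u : H} (hu : Q u < ∞) :
    Q (c • u) < ∞ :=
  HS.Ifc.hs_dom_smul hQ c hu

theorem gcd_need_hs_bil_add_left (hQ : QForm Q) {u u' v : H} (hu : Q u < ∞) (hu' : Q u' < ∞)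
    (hv : Q v < ∞) : bil Q (u + u') v = bil Q u v + bil Q u' v :=
  HS.Ifc.hs_bil_add_left hQ hu hu' hv

theorem gcd_need_hs_bil_smul_left (hQ : QForm Q) (c : ℝ) {u v : H} (hu : Q u < ∞)
    (hv : Q v < ∞) : bil Q (c • u) v = c * bil Q u v :=
  HS.Ifc.hs_bil_smul_left hQ c hu hv

theorem gcd_need_hs_bil_comm (hQ : QForm Q) (u v : H) : bil Q u v = bil Q v u :=
  HS.Ifc.hs_bil_comm hQ u v

theorem gcd_need_hs_bil_self (hQ : QForm Q) {u : H} (hu : Q u < ∞) :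
    bil Q u u = 2 * (Q u).toReal :=
  HS.Ifc.hs_bil_self hQ u

theorem gcd_need_hs_bil_cs (hQ : QForm Q) {u v : H} (hu : Q u < ∞) (hv : Q v < ∞) :
    bil Q u v ^ 2 ≤ bil Q u u * bil Q v v :=
  HS.Ifc.hs_bil_sq_le hQ hu hv

/-! ### HS2 -/

theorem gcd_need_hs_prox_iff (hQ : QForm Q) {δ : ℝ} (hδ : 0 < δ) (f u : H) :
    u = prox Q δ f ↔ IsGen Q u (δ⁻¹ • (u - f)) :=
  HS.Ifc.hs_eq_prox_iff hQ hδ

theorem gcd_need_hs_prox_add (hQ : QForm Q) {δ : ℝ} (hδ : 0 < δ) (f g : H) :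
    prox Q δ (f + g) = prox Q δ f + prox Q δ g :=
  HS.Ifc.hs_prox_add hQ hδ f g

theorem gcd_need_hs_prox_smul (hQ : QForm Q) {δ : ℝ} (hδ : 0 < δ) (c : ℝ) (f : H) :
    prox Q δ (c • f) = c • prox Q δ f :=
  HS.Ifc.hs_prox_smul hQ hδ c f

theorem gcd_need_hs_prox_symm (hQ : QForm Q) {δ : ℝ} (hδ : 0 < δ) (f g : H) :
    ⟪prox Q δ f, g⟫ = ⟪f, prox Q δ g⟫ :=
  HS.Ifc.hs_prox_symm hQ hδ f g

theorem gcd_need_hs_prox_norm_le (hQ : QForm Q) {δ : ℝ} (hδ : 0 < δ) (f : H) :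
    ‖prox Q δ f‖ ≤ ‖f‖ :=
  HS.Ifc.hs_prox_norm_le hQ hδ f

theorem gcd_need_hs_prox_Q_le (hQ : QForm Q) {δ : ℝ} (hδ : 0 < δ) (f : H) :
    Q (prox Q δ f) ≤ Q f :=
  HS.Ifc.hs_Q_prox_le hQ hδ f

theorem gcd_need_hs_prox_tendsto (hQ : QForm Q) (f : H) :
    Tendsto (fun δ : ℝ => prox Q δ f) (𝓝[>] 0) (𝓝 f) :=
  HS.Ifc.hs_prox_tendsto hQ f

theorem gcd_need_hs_prox_tendsto_Q (hQ : QForm Q) {f : H} (hf : Q f < ∞) :
    Tendsto (fun δ : ℝ => Q (prox Q δ f - f)) (𝓝[>] 0) (𝓝 0) :=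
  HS.Ifc.hs_Q_prox_sub_tendsto hQ hf

theorem gcd_need_hs_prox_quot_le (hQ : QForm Q) {δ : ℝ} (hδ : 0 < δ) {f : H} (hf : Q f < ∞) :
    δ⁻¹ * ⟪f - prox Q δ f, f⟫ ≤ bil Q f f :=
  HS.Ifc.hs_yosida_le hQ hδ hf

theorem gcd_need_hs_prox_quot_tendsto (hQ : QForm Q) {f : H} (hf : Q f < ∞) :
    Tendsto (fun δ : ℝ => δ⁻¹ * ⟪f - prox Q δ f, f⟫) (𝓝[>] 0) (𝓝 (bil Q f f)) := by
  have h1 := HS.Ifc.hs_yosida_tendsto hQ f
  have h2 : (2 * Q f) ≠ ∞ := ENNReal.mul_ne_top (by simp) hf.ne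
  have h3 := (ENNReal.tendsto_toReal h2).comp h1
  have h4 : (2 * Q f).toReal = bil Q f f := by
    rw [HS.Ifc.hs_bil_self hQ f, ENNReal.toReal_mul]; simp
  rw [h4] at h3
  refine h3.congr' ?_
  filter_upwards [self_mem_nhdsWithin] with δ hδ
  simp only [Function.comp_def]
  exact ENNReal.toReal_ofReal (HS.Ifc.hs_yosida_nonneg hQ hδ f)

/-- form domain criterion. -/
theorem gcd_need_hs_prox_crit (hQ : QForm Q) {f : H} {C : ℝ}
    (h : ∀ᶠ δ : ℝ in 𝓝[>] 0, δ⁻¹ * ⟪f - prox Q δ f, f⟫ ≤ C) :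
    Q f ≤ ENNReal.ofReal (C / 2) := by
  have h1 := HS.Ifc.hs_yosida_tendsto hQ f
  have h2 : 2 * Q f ≤ ENNReal.ofReal C :=
    le_of_tendsto h1 (h.mono fun δ hδ => ENNReal.ofReal_le_ofReal hδ)
  have h3 : ENNReal.ofReal C = 2 * ENNReal.ofReal (C / 2) := by
    rw [show (2 : ℝ≥0∞) = ENNReal.ofReal 2 by simp, ← ENNReal.ofReal_mul (by norm_num)]
    congr 1; ring
  rw [h3] at h2
  exact (ENNReal.mul_le_mul_iff_right (by simp) (by simp)).1 h2

theorem gcd_need_hs_prox_comm (hQ : QForm Q) {δ δ' : ℝ} (hδ : 0 < δ) (hδ' : 0 < δ') (f : H) :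
    prox Q δ (prox Q δ' f) = prox Q δ' (prox Q δ f) :=
  HS.Ifc.hs_prox_comm hQ hδ hδ' f

theorem gcd_need_hs_prox_gen (hQ : QForm Q) {δ : ℝ} (hδ : 0 < δ) {u w : H} (h : IsGen Q u w) :
    IsGen Q (prox Q δ u) (prox Q δ w) :=
  HS.Ifc.hs_isGen_prox hQ hδ h

/-! ### HS3 -/

theorem gcd_need_hs_flow_add_time (hQ : QForm Q) {s t : ℝ} (hs : 0 ≤ s) (ht : 0 ≤ t) (f : H) :
    flow Q (s + t) f = flow Q s (flow Q t f) :=
  HS.Ifc.hs_flow_add hQ hs ht f

theorem gcd_need_hs_flow_add (hQ : QForm Q) (t : ℝ) (f g : H) :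
    flow Q t (f + g) = flow Q t f + flow Q t g :=
  HS.Ifc.hs_flow_map_add hQ t f g

theorem gcd_need_hs_flow_smul (hQ : QForm Q) (t : ℝ) (c : ℝ) (f : H) :
    flow Q t (c • f) = c • flow Q t f :=
  HS.Ifc.hs_flow_map_smul hQ t c f

theorem gcd_need_hs_flow_symm (hQ : QForm Q) (t : ℝ) (f g : H) :
    ⟪flow Q t f, g⟫ = ⟪f, flow Q t g⟫ :=
  HS.Ifc.hs_flow_symm hQ t f g

theorem gcd_need_hs_flow_norm_le (hQ : QForm Q) (t : ℝ) (f : H) :
    ‖flow Q t f‖ ≤ ‖f‖ :=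
  HS.Ifc.hs_flow_norm_le hQ t f

theorem gcd_need_hs_flow_continuous (hQ : QForm Q) (f : H) :
    Continuous (fun t : ℝ => flow Q t f) :=
  HS.Ifc.hs_flow_continuous hQ f

theorem gcd_need_hs_flow_gen (hQ : QForm Q) {t : ℝ} (ht : 0 < t) (f : H) :
    ∃ w : H, IsGen Q (flow Q t f) w ∧ HasDerivAt (fun s : ℝ => flow Q s f) w t ∧
      ‖w‖ ≤ ‖f‖ / t :=
  ⟨_, HS.Ifc.hs_isGen_flow_gen hQ ht f, HS.Ifc.hs_flow_hasDerivAt hQ ht f,
    HS.Ifc.hs_gen_flow_norm_le hQ ht f⟩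

theorem gcd_need_hs_flow_bil_le (hQ : QForm Q) {t : ℝ} (ht : 0 < t) (f : H) :
    bil Q (flow Q t f) (flow Q t f) ≤ ‖f‖ ^ 2 / t := by
  refine (HS.Ifc.hs_bil_flow_le hQ ht f).trans ?_
  apply div_le_div_of_nonneg_left (by positivity) ht (by linarith)

theorem gcd_need_hs_flow_Q_antitone (hQ : QForm Q) (f : H) :
    AntitoneOn (fun t : ℝ => Q (flow Q t f)) (Ici 0) :=
  (HS.Ifc.hs_Q_flow_anti hQ f).antitoneOn _

theorem gcd_need_hs_flow_Q_tendsto (hQ : QForm Q) (f : H) :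
    Tendsto (fun t : ℝ => Q (flow Q t f)) (𝓝[>] 0) (𝓝 (Q f)) :=
  (HS.Ifc.hs_Q_flow_tendsto hQ f).mono_left nhdsWithin_le_nhds

theorem gcd_need_hs_flow_tendsto_Q (hQ : QForm Q) {f : H} (hf : Q f < ∞) :
    Tendsto (fun t : ℝ => Q (flow Q t f - f)) (𝓝[>] 0) (𝓝 0) :=
  (HS.Ifc.hs_Q_flow_sub_tendsto hQ hf).mono_left nhdsWithin_le_nhds

theorem gcd_need_hs_flow_prox_comm (hQ : QForm Q) {δ : ℝ} (hδ : 0 < δ) (t : ℝ) (f : H) :
    flow Q t (prox Q δ f) = prox Q δ (flow Q t f) :=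
  HS.Ifc.hs_flow_prox_comm hQ t hδ f

theorem gcd_need_hs_flow_gen_comm (hQ : QForm Q) (t : ℝ) {u w : H} (h : IsGen Q u w) :
    IsGen Q (flow Q t u) (flow Q t w) :=
  HS.Ifc.hs_flow_isGen hQ t h

theorem gcd_need_hs_flow_norm_deriv (hQ : QForm Q) {t : ℝ} (ht : 0 < t) (f : H) :
    HasDerivAt (fun s : ℝ => ‖flow Q s f‖ ^ 2 / 2) (-(bil Q (flow Q t f) (flow Q t f))) t :=
  HS.Ifc.hs_norm_sq_flow_hasDerivAt hQ ht f

theorem gcd_need_hs_flow_quot (hQ : QForm Q) {f w : H} (h : IsGen Q f w) :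
    Tendsto (fun t : ℝ => t⁻¹ • (flow Q t f - f)) (𝓝[>] 0) (𝓝 w) := by
  have h1 := HS.Ifc.hs_flow_hasDerivWithinAt_zero hQ h
  rw [hasDerivWithinAt_iff_tendsto_slope] at h1
  have h2 : Ici (0 : ℝ) \ {0} = Ioi 0 := by
    ext x
    simp only [Set.mem_sdiff, mem_Ici, mem_singleton_iff, mem_Ioi]
    exact ⟨fun h => lt_of_le_of_ne h.1 (Ne.symm h.2), fun h => ⟨h.le, h.ne'⟩⟩
  rw [h2] at h1
  refine h1.congr fun t => ?_
  simp [slope, HS.Ifc.hs_flow_zero]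

theorem gcd_need_hs_flow_quot_Q (hQ : QForm Q) {f w : H} (h : IsGen Q f w) (hw : Q w < ∞) :
    Tendsto (fun t : ℝ => Q (t⁻¹ • (flow Q t f - f) - w)) (𝓝[>] 0) (𝓝 0) :=
  HS.Ifc.hs_Q_flow_quot_tendsto hQ h hw

/-! ### HS4 -/

theorem gcd_need_hs_laplace (hQ : QForm Q) {δ : ℝ} (hδ : 0 < δ) (f h : H) :
    ⟪prox Q δ f, h⟫ = ∫ t in Ioi (0 : ℝ), δ⁻¹ * Real.exp (-t / δ) * ⟪flow Q t f, h⟫ :=
  HS.Ifc.hs_laplace hQ hδ f h

end HS

variable {X : Type*} [MetricSpace X] [MeasurableSpace X] [BorelSpace X] [CompleteSpace X]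
  [TopologicalSpace.SeparableSpace X] [ProperSpace X] {m : Measure X} {K N : ℝ}

/-! ## RS (architect helper875), ID (architect helper226), TP (architect helper661) -/

/-- RS1. -/
theorem gcd_need_ch_congr {f g : X → ℝ} (h : f =ᵐ[m] g) :
    cheegerEnergy m f = cheegerEnergy m g := by
  have h1 : MemLp f 2 m ↔ MemLp g 2 m := memLp_congr_ae h
  have h2 : ∀ (fs : ℕ → X → ℝ) (n : ℕ),
      eLpNorm (fun x => fs n x - f x) 2 m = eLpNorm (fun x => fs n x - g x) 2 m := by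
    intro fs n
    apply eLpNorm_congr_ae
    filter_upwards [h] with x hx
    rw [hx]
  unfold cheegerEnergy
  simp only [h2]
  by_cases hf : MemLp f 2 m
  · rw [if_pos hf, if_pos (h1.mp hf)]
  · rw [if_neg hf, if_neg (fun hg => hf (h1.mpr hg))]

/-- RS6. -/
theorem gcd_need_qform (hS : Std m K N) : QForm (ChL2 m) :=
  GC.Bridge.gc_qform hS

/-- ID1. -/
theorem gcd_need_sobolev_iff (hS : Std m K N) {f : X → ℝ} :
    Sobolev m f ↔ MemLp f 2 m ∧ cheegerEnergy m f < ∞ :=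
  GC.Bridge.gc_sob_iff hS

/-- ID2 + RS2. -/
theorem gcd_need_ch_eq (hS : Std m K N) {f : X → ℝ} (hf : Sobolev m f) :
    cheegerEnergy m f = ENNReal.ofReal (energy m f / 2) :=
  GC.Bridge.gc_ch_eq hS hf

/-- TP2. -/
theorem gcd_need_wg_congr {f g : X → ℝ} (h : f =ᵐ[m] g) :
    weakGradient m f = weakGradient m g :=
  GC.WG.gc_wg_congr h

/-- TP2 (a minimal weak upper gradient is a.e. nonnegative). -/
theorem gcd_need_wg_nonneg (f : X → ℝ) : ∀ᵐ x ∂m, 0 ≤ weakGradient m f x := by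
  unfold weakGradient
  split_ifs with h
  · exact (Classical.choose_spec h).1.2.1
  · exact Filter.Eventually.of_forall (fun x => le_rfl)

/-- TP3. -/
theorem gcd_need_wg_add_le (hS : Std m K N) {f g : X → ℝ} (hf : LocalSobolev m f)
    (hg : LocalSobolev m g) :
    ∀ᵐ x ∂m, weakGradient m (fun y => f y + g y) x ≤ weakGradient m f x + weakGradient m g x :=
  GC.WG.gc_wg_add_le hS.finite hf hg

/-- TP3. -/
theorem gcd_need_wg_sub_le (hS : Std m K N) {f g : X → ℝ} (hf : LocalSobolev m f)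
    (hg : LocalSobolev m g) :
    ∀ᵐ x ∂m, weakGradient m (fun y => f y - g y) x ≤ weakGradient m f x + weakGradient m g x :=
  GC.WG.gc_wg_sub_le hS.finite hf hg

/-! ## GCB : Γ-calculus (architect helper469) -/

/-- GC-C. -/
theorem gcd_need_lipC_sobolev (hS : Std m K N) {v : X → ℝ} (hv : LipC v) : Sobolev m v :=
  GC.WG.gc_sob_of_lipC hS.finite hv

/-- GC-C. -/
theorem gcd_need_lipB_localSobolev (hS : Std m K N) {v : X → ℝ} (hv : LipB v) :
    LocalSobolev m v :=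
  GC.WG.gc_ls_of_lipLoc hS.finite (GC.WG.gc_lipLoc_of_lip hv.1)

/-- GC-C : `|Dv| ≤ Lip v`. -/
theorem gcd_need_lip_wg_le (hS : Std m K N) {v : X → ℝ} {L : ℝ≥0} (hv : LipschitzWith L v) :
    ∀ᵐ x ∂m, weakGradient m v x ≤ L :=
  GC.WG.gc_wg_le_lip hS.finite hv

/-- GC-C : density of `LipC` in `W^{1,2}`. -/
theorem gcd_need_lipC_dense (hS : Std m K N) {v : X → ℝ} (hv : Sobolev m v) :
    ∃ vs : ℕ → X → ℝ, (∀ n, LipC (vs n)) ∧
      Tendsto (fun n => eLpNorm (fun x => vs n x - v x) 2 m) atTop (𝓝 0) ∧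
      Tendsto (fun n => energy m (fun x => vs n x - v x)) atTop (𝓝 0) := by
  obtain ⟨vs, h1, h2, h3⟩ := GC.Conv.gc_lipC_dense hS hv
  exact ⟨vs, h1, h2, h3⟩

/-- GC-B. -/
theorem gcd_need_gamma_self (hS : Std m K N) {f : X → ℝ} (hf : LocalSobolev m f) :
    ∀ᵐ x ∂m, gamma m f f x = weakGradient m f x ^ 2 :=
  GC.Gam.gc_gamma_self hS.finite hf

/-- GC-B. -/
theorem gcd_need_gamma_abs_le (hS : Std m K N) {f g : X → ℝ} (hf : LocalSobolev m f)
    (hg : LocalSobolev m g) :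
    ∀ᵐ x ∂m, |gamma m f g x| ≤ weakGradient m f x * weakGradient m g x :=
  GC.Gam.gc_gamma_abs_le hS hf hg

/-- GC-B. -/
theorem gcd_need_gamma_comm (hS : Std m K N) {f g : X → ℝ} (hf : LocalSobolev m f)
    (hg : LocalSobolev m g) : ∀ᵐ x ∂m, gamma m f g x = gamma m g f x :=
  GC.Gam.gc_gamma_comm hS.finite hf hg

/-- GC-B. -/
theorem gcd_need_gamma_aesm (hS : Std m K N) {f g : X → ℝ} (hf : LocalSobolev m f)
    (hg : LocalSobolev m g) : AEStronglyMeasurable (gamma m f g) m :=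
  GC.Gam.gc_gamma_aesm f g

/-- GC-B : chain rule in the first slot for bounded `f` and `φ ∈ C¹`. -/
theorem gcd_need_gamma_chain_left (hS : Std m K N) {f g : X → ℝ} {B : ℝ} {φ : ℝ → ℝ}
    (hf : LocalSobolev m f) (hB : AEBdd m f B) (hφ : ContDiff ℝ 1 φ) (hg : LocalSobolev m g) :
    ∀ᵐ x ∂m, gamma m (fun y => φ (f y)) g x = deriv φ (f x) * gamma m f g x :=
  GC.Gam.gc_gamma_comp_left hS hφ hf
    (GC.WG.gc_ls_comp_C1 hS.finite hφ hf (GC.WG.gc_locBdd_of_aebdd hB)) hg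

/-- GC-B : chain rule in the second slot. -/
theorem gcd_need_gamma_chain_right (hS : Std m K N) {f g : X → ℝ} {B : ℝ} {φ : ℝ → ℝ}
    (hf : LocalSobolev m f) (hB : AEBdd m f B) (hφ : ContDiff ℝ 1 φ) (hg : LocalSobolev m g) :
    ∀ᵐ x ∂m, gamma m g (fun y => φ (f y)) x = deriv φ (f x) * gamma m g f x :=
  GC.Gam.gc_gamma_comp_right hS hφ hg hf
    (GC.WG.gc_ls_comp_C1 hS.finite hφ hf (GC.WG.gc_locBdd_of_aebdd hB))

/-- GC-B : Leibniz rule in the second slot for bounded factors. -/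
theorem gcd_need_gamma_leibniz_right (hS : Std m K N) {f g h : X → ℝ} {B B' : ℝ}
    (hf : LocalSobolev m f) (hfB : AEBdd m f B) (hg : LocalSobolev m g) (hgB : AEBdd m g B')
    (hh : LocalSobolev m h) :
    ∀ᵐ x ∂m, gamma m h (fun y => f y * g y) x = f x * gamma m h g x + g x * gamma m h f x :=
  GC.Gam.gc_gamma_mul_right hS hf hg
    (GC.WG.gc_ls_mul hS.finite hf hg (GC.WG.gc_locBdd_of_aebdd hfB) (GC.WG.gc_locBdd_of_aebdd hgB)) hh

/-- GC-C. -/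
theorem gcd_need_localSobolev_comp (hS : Std m K N) {f : X → ℝ} {B : ℝ} {φ : ℝ → ℝ}
    (hf : LocalSobolev m f) (hB : AEBdd m f B) (hφ : ContDiff ℝ 1 φ) :
    LocalSobolev m (fun x => φ (f x)) :=
  GC.WG.gc_ls_comp_C1 hS.finite hφ hf (GC.WG.gc_locBdd_of_aebdd hB)

/-- GC-C. -/
theorem gcd_need_sobolev_comp (hS : Std m K N) {f : X → ℝ} {B : ℝ} {φ : ℝ → ℝ}
    (hf : Sobolev m f) (hB : AEBdd m f B) (hφ : ContDiff ℝ 1 φ) (h0 : φ 0 = 0) :
    Sobolev m (fun x => φ (f x)) :=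
  GC.WG.gc_sob_comp_C1 hS.finite hφ h0 hf hB

/-- GC-C : `W^{1,2} ∩ L^∞` is an algebra. -/
theorem gcd_need_sobolev_mul (hS : Std m K N) {f g : X → ℝ} {B B' : ℝ}
    (hf : Sobolev m f) (hfB : AEBdd m f B) (hg : Sobolev m g) (hgB : AEBdd m g B') :
    Sobolev m (fun x => f x * g x) :=
  GC.WG.gc_sob_mul hS.finite hf hg hfB hgB

/-- GC-C : Lipschitz cut-off functions (`X` proper). -/
theorem gcd_need_cutoff (o : X) {R : ℝ} (hR : 0 < R) :
    ∃ χ : X → ℝ, LipC χ ∧ LipschitzWith (Real.toNNReal R⁻¹) χ ∧ (∀ x, 0 ≤ χ x ∧ χ x ≤ 1) ∧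
      ∀ x, dist x o ≤ R → χ x = 1 := by
  have hRi : 0 ≤ R⁻¹ := (inv_pos.mpr hR).le
  have hlip : LipschitzWith (Real.toNNReal R⁻¹)
      (fun x : X => max 0 (min 1 (2 - dist x o / R))) := by
    have h1 : LipschitzWith (Real.toNNReal R⁻¹) (fun x : X => 2 - dist x o / R) := by
      apply LipschitzWith.of_dist_le_mul
      intro x y
      rw [Real.dist_eq, Real.coe_toNNReal _ hRi]
      have e : (2 - dist x o / R) - (2 - dist y o / R) = R⁻¹ * (dist y o - dist x o) := by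
        field_simp
        ring
      rw [e, abs_mul, abs_of_nonneg hRi]
      apply mul_le_mul_of_nonneg_left _ hRi
      rw [dist_comm x y]
      exact abs_dist_sub_le y x o
    exact (h1.const_min 1).const_max 0
  refine ⟨fun x : X => max 0 (min 1 (2 - dist x o / R)), ⟨⟨_, hlip⟩, ?_⟩, hlip, ?_, ?_⟩
  · apply HasCompactSupport.intro (isCompact_closedBall o (2 * R))
    intro x hx
    rw [Metric.mem_closedBall, not_le] at hx
    have : 2 - dist x o / R ≤ 0 := by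
      rw [sub_nonpos, le_div_iff₀ hR]
      exact hx.le
    exact max_eq_left ((min_le_right _ _).trans this)
  · intro x
    exact ⟨le_max_left _ _, max_le zero_le_one (min_le_left _ _)⟩
  · intro x hx
    have : (1 : ℝ) ≤ 2 - dist x o / R := by
      have : dist x o / R ≤ 1 := by
        rw [div_le_one hR]; exact hx
      linarith
    show max 0 (min 1 (2 - dist x o / R)) = 1
    rw [min_eq_left this]
    exact max_eq_right zero_le_one

/-! ## HF : heat flow before the identification (architect helper897) -/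

/-- HF1. -/
theorem gcd_need_hf_res_le (hS : Std m K N) {δ C : ℝ} (hδ : 0 < δ) (hC : 0 ≤ C) {f : X → ℝ}
    (hf : MemLp f 2 m) (h : ∀ᵐ x ∂m, f x ≤ C) : ∀ᵐ x ∂m, resF m δ f x ≤ C :=
  HF.Ifc.hf1_res_le hS.finite hS.quad hδ hf hC h

theorem gcd_need_aux_L1 {g f : X → ℝ} (hg : AEStronglyMeasurable g m) (hf : Integrable f m)
    (h : ∫⁻ x, ENNReal.ofReal |g x| ∂m ≤ ∫⁻ x, ENNReal.ofReal |f x| ∂m) :
    Integrable g m ∧ ∫ x, |g x| ∂m ≤ ∫ x, |f x| ∂m := by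
  have hf' : ∫⁻ x, ENNReal.ofReal |f x| ∂m < ∞ := by
    have := hf.hasFiniteIntegral
    rw [hasFiniteIntegral_iff_norm] at this
    simpa [Real.norm_eq_abs] using this
  have hgi : Integrable g m := by
    refine ⟨hg, ?_⟩
    rw [hasFiniteIntegral_iff_norm]
    simpa [Real.norm_eq_abs] using h.trans_lt hf'
  refine ⟨hgi, ?_⟩
  rw [integral_eq_lintegral_of_nonneg_ae (Eventually.of_forall fun x => abs_nonneg _)
      hgi.abs.aestronglyMeasurable,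
    integral_eq_lintegral_of_nonneg_ae (Eventually.of_forall fun x => abs_nonneg _)
      hf.abs.aestronglyMeasurable]
  exact ENNReal.toReal_mono hf'.ne h

/-- HF1. -/
theorem gcd_need_hf_res_L1 (hS : Std m K N) {δ : ℝ} (hδ : 0 < δ) {f : X → ℝ}
    (hf : MemLp f 2 m) (hf1 : Integrable f m) :
    Integrable (resF m δ f) m ∧ ∫ x, |resF m δ f x| ∂m ≤ ∫ x, |f x| ∂m :=
  gcd_need_aux_L1 (HF.Ifc.hf0_resF_memLp m δ f).aestronglyMeasurable hf1
    (HF.Ifc.hf1_res_l1 hS.finite hS.quad hδ hf)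

/-- HF1. -/
theorem gcd_need_hf_heat_le (hS : Std m K N) {t C : ℝ} (hC : 0 ≤ C) {f : X → ℝ}
    (hf : MemLp f 2 m) (h : ∀ᵐ x ∂m, f x ≤ C) : ∀ᵐ x ∂m, heatF m t f x ≤ C :=
  HF.Ifc.hf1_heat_le hS.finite hS.quad t hf hC h

/-- HF1. -/
theorem gcd_need_hf_heat_L1 (hS : Std m K N) {t : ℝ} {f : X → ℝ}
    (hf : MemLp f 2 m) (hf1 : Integrable f m) :
    Integrable (heatF m t f) m ∧ ∫ x, |heatF m t f x| ∂m ≤ ∫ x, |f x| ∂m :=
  gcd_need_aux_L1 (HF.Ifc.hf0_heatF_memLp m t f).aestronglyMeasurable hf1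
    (HF.Ifc.hf1_heat_l1 hS.finite hS.quad t hf)

/-! the weighted norm `HF.Defs.hf_wn` (a `lintegral`) versus integrability + Bochner integral -/

theorem gcd_need_aux_wn_meas (o : X) (a : ℝ) {g : X → ℝ} (hg : AEStronglyMeasurable g m) :
    AEStronglyMeasurable (fun x => Real.exp (2 * a * dist x o) * g x ^ 2) m :=
  ((Real.continuous_exp.comp
    (continuous_const.mul (continuous_id.dist continuous_const))).aestronglyMeasurable).mul
      (hg.pow 2)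

theorem gcd_need_aux_wn_eq (o : X) (a : ℝ) {g : X → ℝ}
    (hg : Integrable (fun x => Real.exp (2 * a * dist x o) * g x ^ 2) m) :
    HF.Defs.hf_wn m o a g = ENNReal.ofReal (∫ x, Real.exp (2 * a * dist x o) * g x ^ 2 ∂m) := by
  unfold HF.Defs.hf_wn
  rw [ofReal_integral_eq_lintegral_ofReal hg (Eventually.of_forall fun x => by positivity)]

theorem gcd_need_aux_wn_lt_top (o : X) (a : ℝ) {g : X → ℝ}
    (hg : Integrable (fun x => Real.exp (2 * a * dist x o) * g x ^ 2) m) :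
    HF.Defs.hf_wn m o a g < ∞ := by
  rw [gcd_need_aux_wn_eq o a hg]; exact ENNReal.ofReal_lt_top

theorem gcd_need_aux_wn_int (o : X) (a : ℝ) {g : X → ℝ} (hg : AEStronglyMeasurable g m)
    (h : HF.Defs.hf_wn m o a g < ∞) :
    Integrable (fun x => Real.exp (2 * a * dist x o) * g x ^ 2) m := by
  refine ⟨gcd_need_aux_wn_meas o a hg, ?_⟩
  rw [hasFiniteIntegral_iff_ofReal (Eventually.of_forall fun x => by positivity)]
  exact h

theorem gcd_need_aux_wn_le (o : X) (a : ℝ) {g f : X → ℝ} {c : ℝ} (hc : 0 ≤ c)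
    (hg : AEStronglyMeasurable g m)
    (hf : Integrable (fun x => Real.exp (2 * a * dist x o) * f x ^ 2) m)
    (h : HF.Defs.hf_wn m o a g ≤ ENNReal.ofReal c * HF.Defs.hf_wn m o a f) :
    Integrable (fun x => Real.exp (2 * a * dist x o) * g x ^ 2) m ∧
      ∫ x, Real.exp (2 * a * dist x o) * g x ^ 2 ∂m ≤
        c * ∫ x, Real.exp (2 * a * dist x o) * f x ^ 2 ∂m := by
  rw [gcd_need_aux_wn_eq o a hf, ← ENNReal.ofReal_mul hc] at h
  have hi := gcd_need_aux_wn_int o a hg (h.trans_lt ENNReal.ofReal_lt_top)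
  refine ⟨hi, ?_⟩
  rw [gcd_need_aux_wn_eq o a hi] at h
  exact (ENNReal.ofReal_le_ofReal_iff
    (mul_nonneg hc (integral_nonneg fun x => by positivity))).1 h

/-- HF2 (constants of `HF/Ifc.lean`: `4 δ a² ≤ 1`, factor `e^{8 a² δ}`). -/
theorem gcd_need_hf_res_weight (hS : Std m K N) (o : X) {a δ : ℝ} (ha : 0 ≤ a) (hδ : 0 < δ)
    (hδa : 4 * δ * a ^ 2 ≤ 1) {f : X → ℝ} (hf : MemLp f 2 m)
    (hw : Integrable (fun x => Real.exp (2 * a * dist x o) * f x ^ 2) m) :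
    Integrable (fun x => Real.exp (2 * a * dist x o) * resF m δ f x ^ 2) m ∧
      ∫ x, Real.exp (2 * a * dist x o) * resF m δ f x ^ 2 ∂m ≤
        Real.exp (8 * a ^ 2 * δ) * ∫ x, Real.exp (2 * a * dist x o) * f x ^ 2 ∂m :=
  gcd_need_aux_wn_le o a (Real.exp_pos _).le (HF.Ifc.hf0_resF_memLp m δ f).aestronglyMeasurable hw
    (HF.Ifc.hf2_res_wn hS.finite hS.quad hδ ha hδa hf o)

/-- upstream: HF (helper897): the explicit instance behind `HF.Need.hf_rs_exists`. -/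
theorem gcd_need_hf_rs_inst (hS : Std m K N) :
    HF.Defs.hf_RS m (RS.Defs.rs_slope m) (RS.Defs.rs_IsRelaxed m) :=
  HF.Need.hf_rs_inst m hS.finite hS.quad

/-- HF2 (`HF.Weight.hf_res_wgrad`) + ID2. -/
theorem gcd_need_hf_res_weight_grad (hS : Std m K N) (o : X) {a δ : ℝ} (ha : 0 ≤ a)
    (hδ : 0 < δ) (hδa : 4 * δ * a ^ 2 ≤ 1) {f : X → ℝ} (hf : MemLp f 2 m)
    (hw : Integrable (fun x => Real.exp (2 * a * dist x o) * f x ^ 2) m) :
    Integrable (fun x => Real.exp (2 * a * dist x o) * weakGradient m (resF m δ f) x ^ 2) m ∧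
      δ * ∫ x, Real.exp (2 * a * dist x o) * weakGradient m (resF m δ f) x ^ 2 ∂m ≤
        4 * ∫ x, Real.exp (2 * a * dist x o) * f x ^ 2 ∂m := by
  have h1 := HF.Weight.hf_res_wgrad (gcd_need_hf_rs_inst hS) hδ ha hδa hf o
  have hsob : Sobolev m (resF m δ f) :=
    (GC.Bridge.gc_sob_iff hS).2 (HF.Ifc.hf0_res_dom hS.finite hS.quad hδ hf)
  have h2 := GC.Bridge.gc_need_id2 hS hsob
  have h3 : HF.Defs.hf_wn m o a (RS.Defs.rs_slope m (resF m δ f)) =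
      HF.Defs.hf_wn m o a (weakGradient m (resF m δ f)) := by
    unfold HF.Defs.hf_wn
    refine lintegral_congr_ae (h2.mono fun x hx => ?_)
    simp only [hx]
  rw [h3] at h1
  have h4 : HF.Defs.hf_wn m o a (weakGradient m (resF m δ f)) ≤
      ENNReal.ofReal (4 / δ) * HF.Defs.hf_wn m o a f := by
    rw [ENNReal.ofReal_div_of_pos hδ, ENNReal.div_eq_inv_mul, mul_assoc, ← ENNReal.div_eq_inv_mul]
    refine (ENNReal.le_div_iff_mul_le (Or.inl (by simpa using hδ)) (Or.inl (by simp))).2 ?_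
    rw [mul_comm]
    simpa using h1
  obtain ⟨h5, h6⟩ := gcd_need_aux_wn_le o a (by positivity) hsob.2.2.aestronglyMeasurable hw h4
  refine ⟨h5, ?_⟩
  have h7 := mul_le_mul_of_nonneg_left h6 hδ.le
  have h8 : δ * (4 / δ * ∫ x, Real.exp (2 * a * dist x o) * f x ^ 2 ∂m) =
      4 * ∫ x, Real.exp (2 * a * dist x o) * f x ^ 2 ∂m := by
    field_simp
  rwa [h8] at h7

/-- HF2 (factor `e^{8 a² t}`). -/
theorem gcd_need_hf_heat_weight (hS : Std m K N) (o : X) {a t : ℝ} (ha : 0 ≤ a) (ht : 0 ≤ t)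
    {f : X → ℝ} (hf : MemLp f 2 m)
    (hw : Integrable (fun x => Real.exp (2 * a * dist x o) * f x ^ 2) m) :
    Integrable (fun x => Real.exp (2 * a * dist x o) * heatF m t f x ^ 2) m ∧
      ∫ x, Real.exp (2 * a * dist x o) * heatF m t f x ^ 2 ∂m ≤
        Real.exp (8 * a ^ 2 * t) * ∫ x, Real.exp (2 * a * dist x o) * f x ^ 2 ∂m :=
  gcd_need_aux_wn_le o a (Real.exp_pos _).le (HF.Ifc.hf0_heatF_memLp m t f).aestronglyMeasurable hw
    (HF.Ifc.hf2_heat_wn hS.finite hS.quad ht ha hf o)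

/-- HF3. -/
theorem gcd_need_hf_res_mass (hS : Std m K N) (o : X) {a δ : ℝ} (ha : GoodExp m o a)
    (hδ : 0 < δ) (hδa : 4 * δ * a ^ 2 ≤ 1) {f : X → ℝ} (hf : MemLp f 2 m)
    (hw : Integrable (fun x => Real.exp (2 * a * dist x o) * f x ^ 2) m) :
    Integrable f m ∧ Integrable (resF m δ f) m ∧ ∫ x, resF m δ f x ∂m = ∫ x, f x ∂m :=
  ⟨HF.Ifc.hf3_integrable_of_wn ha hf.aestronglyMeasurable (gcd_need_aux_wn_lt_top o a hw),
    HF.Ifc.hf3_integrable_of_wn ha (HF.Ifc.hf0_resF_memLp m δ f).aestronglyMeasurable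
      (gcd_need_aux_wn_lt_top o a (gcd_need_hf_res_weight hS o ha.1.le hδ hδa hf hw).1),
    HF.Ifc.hf3_res_mass hS.finite hS.quad ha hδ hδa hf (gcd_need_aux_wn_lt_top o a hw)⟩

/-- HF3. -/
theorem gcd_need_hf_heat_mass (hS : Std m K N) (o : X) {a t : ℝ} (ha : GoodExp m o a)
    (ht : 0 ≤ t) {f : X → ℝ} (hf : MemLp f 2 m)
    (hw : Integrable (fun x => Real.exp (2 * a * dist x o) * f x ^ 2) m) :
    Integrable f m ∧ Integrable (heatF m t f) m ∧ ∫ x, heatF m t f x ∂m = ∫ x, f x ∂m :=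
  ⟨HF.Ifc.hf3_integrable_of_wn ha hf.aestronglyMeasurable (gcd_need_aux_wn_lt_top o a hw),
    HF.Ifc.hf3_integrable_of_wn ha (HF.Ifc.hf0_heatF_memLp m t f).aestronglyMeasurable
      (gcd_need_aux_wn_lt_top o a (gcd_need_hf_heat_weight hS o ha.1.le ht hf hw).1),
    HF.Ifc.hf3_heat_mass hS.finite hS.quad ha ht hf (gcd_need_aux_wn_lt_top o a hw)⟩

end

end Claimed.Agent.R210.GCD.Need
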