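/-
Row 210 (S0432), layer GCD.  `Dict.lean`: the dictionary between functions `X → ℝ` with the frozen
notions (`Sobolev`, `energy`, `form`, integrals) and the Hilbert space `Lp ℝ 2 m` with `ChL2 m`, `bil`, inner product.
Leaves (each `sorry` = one small task).  Consumers: cite `GCD/Ifc*.lean`, not this file.
-/
import Claimed.Agent.R210.GCD.Need

set_option autoImplicit false
set_option linter.unusedSectionVars false
set_option linter.unusedVariables false

open Claims.C0366 Claims.C0366.WeakHessian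
open Set Filter MeasureTheory
open scoped ENNReal NNReal Topology RealInnerProductSpace

namespace Claimed.Agent.R210.GCD.Dict

open Claimed.Agent.R210.Defs Claimed.Agent.R210.Defs2 Claimed.Agent.R210.HS.Defs
open Claimed.Agent.R210.GCD.Need

noncomputable section

variable {X : Type*} [MetricSpace X] [MeasurableSpace X] [BorelSpace X] [CompleteSpace X]
  [TopologicalSpace.SeparableSpace X] [ProperSpace X] {m : Measure X} {K N : ℝ}

/-! ### 0. `toLp` algebra for functions written as `fun x => ...` -/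

theorem gcd_l_memLp_add {f g : X → ℝ} (hf : MemLp f 2 m) (hg : MemLp g 2 m) :
    MemLp (fun x => f x + g x) 2 m := hf.add hg

theorem gcd_l_memLp_sub {f g : X → ℝ} (hf : MemLp f 2 m) (hg : MemLp g 2 m) :
    MemLp (fun x => f x - g x) 2 m := hf.sub hg

theorem gcd_l_memLp_smul (c : ℝ) {f : X → ℝ} (hf : MemLp f 2 m) :
    MemLp (fun x => c * f x) 2 m := hf.const_mul c

theorem gcd_l_memLp_div (c : ℝ) {f : X → ℝ} (hf : MemLp f 2 m) :
    MemLp (fun x => f x / c) 2 m := by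
  simpa [div_eq_inv_mul] using hf.const_mul c⁻¹

theorem gcd_l_toLp_add {f g : X → ℝ} (hf : MemLp f 2 m) (hg : MemLp g 2 m) :
    (gcd_l_memLp_add hf hg).toLp (fun x => f x + g x) = hf.toLp f + hg.toLp g :=
  MemLp.toLp_add hf hg

theorem gcd_l_toLp_sub {f g : X → ℝ} (hf : MemLp f 2 m) (hg : MemLp g 2 m) :
    (gcd_l_memLp_sub hf hg).toLp (fun x => f x - g x) = hf.toLp f - hg.toLp g :=
  MemLp.toLp_sub hf hg

theorem gcd_l_toLp_smul (c : ℝ) {f : X → ℝ} (hf : MemLp f 2 m) :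
    (gcd_l_memLp_smul c hf).toLp (fun x => c * f x) = c • hf.toLp f :=
  MemLp.toLp_const_smul c hf

theorem gcd_l_toLp_div (c : ℝ) {f : X → ℝ} (hf : MemLp f 2 m) :
    (gcd_l_memLp_div c hf).toLp (fun x => f x / c) = c⁻¹ • hf.toLp f := by
  rw [← MemLp.toLp_const_smul c⁻¹ hf]
  congr 1
  funext x
  simp [div_eq_inv_mul]

theorem gcd_l_toLp_eq_iff {f g : X → ℝ} (hf : MemLp f 2 m) (hg : MemLp g 2 m) :
    hf.toLp f = hg.toLp g ↔ f =ᵐ[m] g := MemLp.toLp_eq_toLp_iff hf hg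

theorem gcd_l_toLp_coe (u : Lp ℝ 2 m) (h : MemLp (u : X → ℝ) 2 m) : h.toLp (u : X → ℝ) = u :=
  Lp.toLp_coeFn u h

theorem gcd_l_coe_toLp {f : X → ℝ} (hf : MemLp f 2 m) : ((hf.toLp f : Lp ℝ 2 m) : X → ℝ) =ᵐ[m] f :=
  hf.coeFn_toLp

theorem gcd_l_sigmaFinite (hS : Std m K N) : SigmaFinite m := by
  rcases isEmpty_or_nonempty X with hX | ⟨⟨o⟩⟩
  · have : m = 0 := Measure.eq_zero_of_isEmpty m
    rw [this]; infer_instance
  · refine ⟨⟨⟨fun n : ℕ => Metric.ball o n, fun _ => trivial, fun n => ?_, ?_⟩⟩⟩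
    · exact hS.finite _ Metric.isBounded_ball
    · exact Metric.iUnion_ball_nat o

/-! ### A. `L²` : inner product, norm, convergence -/

theorem gcd_l_inner_coe (u v : Lp ℝ 2 m) : ⟪u, v⟫ = ∫ x, u x * v x ∂m := by
  rw [L2.inner_def]
  refine integral_congr_ae (Eventually.of_forall fun x => ?_)
  simp [mul_comm]

theorem gcd_l_inner_toLp {f g : X → ℝ} (hf : MemLp f 2 m) (hg : MemLp g 2 m) :
    ⟪hf.toLp f, hg.toLp g⟫ = ∫ x, f x * g x ∂m := by
  rw [gcd_l_inner_coe]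
  refine integral_congr_ae ?_
  filter_upwards [hf.coeFn_toLp, hg.coeFn_toLp] with x h1 h2
  rw [h1, h2]

theorem gcd_l_norm_sq_toLp {f : X → ℝ} (hf : MemLp f 2 m) :
    ‖hf.toLp f‖ ^ 2 = ∫ x, f x ^ 2 ∂m := by
  rw [← real_inner_self_eq_norm_sq, gcd_l_inner_toLp]
  simp only [pow_two]

theorem gcd_l_integrable_mul {f g : X → ℝ} (hf : MemLp f 2 m) (hg : MemLp g 2 m) :
    Integrable (fun x => f x * g x) m := hf.integrable_mul hg

theorem gcd_l_integrable_sq {f : X → ℝ} (hf : MemLp f 2 m) :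
    Integrable (fun x => f x ^ 2) m := hf.integrable_sq

theorem gcd_l_aux_eLpNorm_eq {f : X → ℝ} (hf : MemLp f 2 m) :
    eLpNorm f 2 m = ENNReal.ofReal ‖hf.toLp f‖ := by
  rw [Lp.norm_toLp, ENNReal.ofReal_toReal hf.2.ne]

/-- `L²` convergence to `0`: `eLpNorm` form versus real integral form. -/
theorem gcd_l_tendsto_L2_iff {ι : Type*} {l : Filter ι} {F : ι → X → ℝ}
    (hF : ∀ i, MemLp (F i) 2 m) :
    Tendsto (fun i => eLpNorm (F i) 2 m) l (𝓝 0) ↔
      Tendsto (fun i => ∫ x, F i x ^ 2 ∂m) l (𝓝 0) := by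
  have h1 : (fun i => eLpNorm (F i) 2 m) = fun i => ENNReal.ofReal ‖(hF i).toLp (F i)‖ :=
    funext fun i => gcd_l_aux_eLpNorm_eq (hF i)
  have h2 : (fun i => ∫ x, F i x ^ 2 ∂m) = fun i => ‖(hF i).toLp (F i)‖ ^ 2 :=
    funext fun i => (gcd_l_norm_sq_toLp (hF i)).symm
  rw [h1, h2]
  constructor
  · intro h
    have h3 : Tendsto (fun i => ‖(hF i).toLp (F i)‖) l (𝓝 0) := by
      have := (ENNReal.tendsto_toReal ENNReal.zero_ne_top).comp h
      simpa [Function.comp_def, ENNReal.toReal_ofReal] using this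
    simpa using h3.pow 2
  · intro h
    have h3 : Tendsto (fun i => ‖(hF i).toLp (F i)‖) l (𝓝 0) := by
      have := h.sqrt
      simpa [Real.sqrt_sq] using this
    simpa using ENNReal.tendsto_ofReal h3

/-- convergence in the Hilbert space `Lp ℝ 2 m` versus `eLpNorm` of the difference. -/
theorem gcd_l_tendsto_toLp_iff {ι : Type*} {l : Filter ι} {F : ι → X → ℝ} {f : X → ℝ}
    (hF : ∀ i, MemLp (F i) 2 m) (hf : MemLp f 2 m) :
    Tendsto (fun i => (hF i).toLp (F i)) l (𝓝 (hf.toLp f)) ↔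
      Tendsto (fun i => eLpNorm (fun x => F i x - f x) 2 m) l (𝓝 0) := by
  have h1 : (fun i => eLpNorm (fun x => F i x - f x) 2 m) =
      fun i => ENNReal.ofReal ‖(hF i).toLp (F i) - hf.toLp f‖ := by
    funext i
    rw [← MemLp.toLp_sub (hF i) hf]
    exact gcd_l_aux_eLpNorm_eq ((hF i).sub hf)
  rw [h1, tendsto_iff_norm_sub_tendsto_zero]
  constructor
  · intro h
    simpa using ENNReal.tendsto_ofReal h
  · intro h
    have := (ENNReal.tendsto_toReal ENNReal.zero_ne_top).comp h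
    simpa [Function.comp_def, ENNReal.toReal_ofReal] using this

/-- `L²` convergence implies convergence of the pairings. -/
theorem gcd_l_tendsto_integral_mul {ι : Type*} {l : Filter ι} {F : ι → X → ℝ} {f g : X → ℝ}
    (hF : ∀ i, MemLp (F i) 2 m) (hf : MemLp f 2 m) (hg : MemLp g 2 m)
    (h : Tendsto (fun i => eLpNorm (fun x => F i x - f x) 2 m) l (𝓝 0)) :
    Tendsto (fun i => ∫ x, F i x * g x ∂m) l (𝓝 (∫ x, f x * g x ∂m)) := by
  have h1 := (gcd_l_tendsto_toLp_iff hF hf).2 h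
  have h2 : Tendsto (fun i => ⟪(hF i).toLp (F i), hg.toLp g⟫) l (𝓝 ⟪hf.toLp f, hg.toLp g⟫) :=
    h1.inner tendsto_const_nhds
  simpa only [gcd_l_inner_toLp] using h2

/-! ### B. congruence under a.e. equality -/

theorem gcd_l_ChL2_toLp {f : X → ℝ} (hf : MemLp f 2 m) :
    ChL2 m (hf.toLp f) = cheegerEnergy m f :=
  gcd_need_ch_congr hf.coeFn_toLp

theorem gcd_l_energy_congr {f g : X → ℝ} (h : f =ᵐ[m] g) : energy m f = energy m g := by
  unfold energy; rw [gcd_need_wg_congr h]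

theorem gcd_l_gamma_congr {f f' g g' : X → ℝ} (hf : f =ᵐ[m] f') (hg : g =ᵐ[m] g') :
    gamma m f g = gamma m f' g' := by
  funext x
  unfold gamma
  have h1 : (fun y => f y + g y) =ᵐ[m] (fun y => f' y + g' y) := hf.add hg
  have h2 : (fun y => f y - g y) =ᵐ[m] (fun y => f' y - g' y) := hf.sub hg
  rw [gcd_need_wg_congr h1, gcd_need_wg_congr h2]

theorem gcd_l_form_congr {f f' g g' : X → ℝ} (hf : f =ᵐ[m] f') (hg : g =ᵐ[m] g') :
    form m f g = form m f' g' := by
  unfold form; rw [gcd_l_gamma_congr hf hg]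

theorem gcd_l_sobolev_congr (hS : Std m K N) {f g : X → ℝ} (h : f =ᵐ[m] g) :
    Sobolev m f ↔ Sobolev m g := by
  rw [gcd_need_sobolev_iff hS, gcd_need_sobolev_iff hS, memLp_congr_ae h, gcd_need_ch_congr h]

theorem gcd_l_energy_nonneg (f : X → ℝ) : 0 ≤ energy m f :=
  integral_nonneg fun _ => sq_nonneg _

/-! ### C. Sobolev space = form domain, energy, form -/

theorem gcd_l_sobolev_iff_ChL2 (hS : Std m K N) {f : X → ℝ} (hf : MemLp f 2 m) :
    Sobolev m f ↔ ChL2 m (hf.toLp f) < ∞ := by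
  rw [gcd_need_sobolev_iff hS, gcd_l_ChL2_toLp hf]
  exact ⟨fun h => h.2, fun h => ⟨hf, h⟩⟩

theorem gcd_l_sobolev_coe (hS : Std m K N) (u : Lp ℝ 2 m) :
    Sobolev m (u : X → ℝ) ↔ ChL2 m u < ∞ := by
  rw [gcd_need_sobolev_iff hS]
  exact ⟨fun h => h.2, fun h => ⟨Lp.memLp u, h⟩⟩

theorem gcd_l_ChL2_eq (hS : Std m K N) {f : X → ℝ} (hf : Sobolev m f) :
    ChL2 m (hf.1.toLp f) = ENNReal.ofReal (energy m f / 2) := by
  rw [gcd_l_ChL2_toLp hf.1, gcd_need_ch_eq hS hf]

theorem gcd_l_ChL2_toReal (hS : Std m K N) {f : X → ℝ} (hf : Sobolev m f) :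
    (ChL2 m (hf.1.toLp f)).toReal = energy m f / 2 := by
  rw [gcd_l_ChL2_eq hS hf, ENNReal.toReal_ofReal (div_nonneg (gcd_l_energy_nonneg f) (by norm_num))]

theorem gcd_l_sobolev_zero (hS : Std m K N) : Sobolev m (fun _ : X => (0 : ℝ)) := by
  have h0 : MemLp (fun _ : X => (0 : ℝ)) 2 m := MemLp.zero
  rw [gcd_l_sobolev_iff_ChL2 hS h0]
  have e : h0.toLp (fun _ : X => (0 : ℝ)) = 0 := MemLp.toLp_zero h0
  rw [e, (gcd_need_qform hS).zero]
  exact ENNReal.zero_lt_top

theorem gcd_l_sobolev_add (hS : Std m K N) {u v : X → ℝ} (hu : Sobolev m u) (hv : Sobolev m v) :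
    Sobolev m (fun x => u x + v x) := by
  rw [gcd_l_sobolev_iff_ChL2 hS (gcd_l_memLp_add hu.1 hv.1), gcd_l_toLp_add hu.1 hv.1]
  exact gcd_need_hs_dom_add (gcd_need_qform hS) ((gcd_l_sobolev_iff_ChL2 hS hu.1).1 hu)
    ((gcd_l_sobolev_iff_ChL2 hS hv.1).1 hv)

theorem gcd_l_sobolev_sub (hS : Std m K N) {u v : X → ℝ} (hu : Sobolev m u) (hv : Sobolev m v) :
    Sobolev m (fun x => u x - v x) := by
  rw [gcd_l_sobolev_iff_ChL2 hS (gcd_l_memLp_sub hu.1 hv.1), gcd_l_toLp_sub hu.1 hv.1]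
  have e : hu.1.toLp u - hv.1.toLp v = hu.1.toLp u + (-1 : ℝ) • hv.1.toLp v := by
    rw [neg_one_smul, sub_eq_add_neg]
  rw [e]
  exact gcd_need_hs_dom_add (gcd_need_qform hS) ((gcd_l_sobolev_iff_ChL2 hS hu.1).1 hu)
    (gcd_need_hs_dom_smul (gcd_need_qform hS) (-1) ((gcd_l_sobolev_iff_ChL2 hS hv.1).1 hv))

theorem gcd_l_sobolev_smul (hS : Std m K N) (c : ℝ) {u : X → ℝ} (hu : Sobolev m u) :
    Sobolev m (fun x => c * u x) := by
  rw [gcd_l_sobolev_iff_ChL2 hS (gcd_l_memLp_smul c hu.1), gcd_l_toLp_smul c hu.1]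
  exact gcd_need_hs_dom_smul (gcd_need_qform hS) c ((gcd_l_sobolev_iff_ChL2 hS hu.1).1 hu)

theorem gcd_l_gamma_integrable (hS : Std m K N) {u v : X → ℝ} (hu : Sobolev m u)
    (hv : Sobolev m v) : Integrable (gamma m u v) m := by
  have h1 : Integrable (fun x => weakGradient m (fun y => u y + v y) x ^ 2) m :=
    (gcd_l_sobolev_add hS hu hv).2.2.integrable_sq
  have h2 : Integrable (fun x => weakGradient m (fun y => u y - v y) x ^ 2) m :=
    (gcd_l_sobolev_sub hS hu hv).2.2.integrable_sq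
  exact (h1.sub h2).div_const 4

theorem gcd_l_form_eq_bil (hS : Std m K N) {u v : X → ℝ} (hu : Sobolev m u) (hv : Sobolev m v) :
    form m u v = bil (ChL2 m) (hu.1.toLp u) (hv.1.toLp v) := by
  have ha : Sobolev m (fun x => u x + v x) := gcd_l_sobolev_add hS hu hv
  have hb : Sobolev m (fun x => u x - v x) := gcd_l_sobolev_sub hS hu hv
  have ia : Integrable (fun x => weakGradient m (fun y => u y + v y) x ^ 2) m := gcd_l_integrable_sq ha.2.2
  have ib : Integrable (fun x => weakGradient m (fun y => u y - v y) x ^ 2) m := gcd_l_integrable_sq hb.2.2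
  have e1 := gcd_l_ChL2_toReal hS ha
  have e2 := gcd_l_ChL2_toReal hS hb
  have t1 : ha.1.toLp (fun x => u x + v x) = hu.1.toLp u + hv.1.toLp v := gcd_l_toLp_add hu.1 hv.1
  have t2 : hb.1.toLp (fun x => u x - v x) = hu.1.toLp u - hv.1.toLp v := gcd_l_toLp_sub hu.1 hv.1
  rw [t1] at e1
  rw [t2] at e2
  unfold form bil
  rw [e1, e2]
  unfold gamma energy
  rw [integral_div, integral_sub ia ib]
  ring

theorem gcd_l_energy_eq_bil (hS : Std m K N) {u : X → ℝ} (hu : Sobolev m u) :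
    energy m u = bil (ChL2 m) (hu.1.toLp u) (hu.1.toLp u) := by
  rw [gcd_need_hs_bil_self (gcd_need_qform hS) ((gcd_l_sobolev_iff_ChL2 hS hu.1).1 hu), gcd_l_ChL2_toReal hS hu]
  ring

theorem gcd_l_form_self (hS : Std m K N) {u : X → ℝ} (hu : Sobolev m u) :
    form m u u = energy m u := by
  rw [gcd_l_form_eq_bil hS hu hu, gcd_l_energy_eq_bil hS hu]

theorem gcd_l_form_comm (hS : Std m K N) {u v : X → ℝ} (hu : Sobolev m u) (hv : Sobolev m v) :
    form m u v = form m v u := by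
  rw [gcd_l_form_eq_bil hS hu hv, gcd_l_form_eq_bil hS hv hu]
  exact gcd_need_hs_bil_comm (gcd_need_qform hS) _ _

theorem gcd_l_form_add_left (hS : Std m K N) {u u' v : X → ℝ} (hu : Sobolev m u)
    (hu' : Sobolev m u') (hv : Sobolev m v) :
    form m (fun x => u x + u' x) v = form m u v + form m u' v := by
  have ha : Sobolev m (fun x => u x + u' x) := gcd_l_sobolev_add hS hu hu'
  have t1 : ha.1.toLp (fun x => u x + u' x) = hu.1.toLp u + hu'.1.toLp u' := gcd_l_toLp_add hu.1 hu'.1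
  rw [gcd_l_form_eq_bil hS ha hv, gcd_l_form_eq_bil hS hu hv, gcd_l_form_eq_bil hS hu' hv, t1]
  exact gcd_need_hs_bil_add_left (gcd_need_qform hS) ((gcd_l_sobolev_iff_ChL2 hS hu.1).1 hu)
    ((gcd_l_sobolev_iff_ChL2 hS hu'.1).1 hu') ((gcd_l_sobolev_iff_ChL2 hS hv.1).1 hv)

theorem gcd_l_form_smul_left (hS : Std m K N) (c : ℝ) {u v : X → ℝ} (hu : Sobolev m u)
    (hv : Sobolev m v) : form m (fun x => c * u x) v = c * form m u v := by
  have ha : Sobolev m (fun x => c * u x) := gcd_l_sobolev_smul hS c hu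
  have t1 : ha.1.toLp (fun x => c * u x) = c • hu.1.toLp u := gcd_l_toLp_smul c hu.1
  rw [gcd_l_form_eq_bil hS ha hv, gcd_l_form_eq_bil hS hu hv, t1]
  exact gcd_need_hs_bil_smul_left (gcd_need_qform hS) c ((gcd_l_sobolev_iff_ChL2 hS hu.1).1 hu)
    ((gcd_l_sobolev_iff_ChL2 hS hv.1).1 hv)

theorem gcd_l_form_cs (hS : Std m K N) {u v : X → ℝ} (hu : Sobolev m u) (hv : Sobolev m v) :
    form m u v ^ 2 ≤ energy m u * energy m v := by
  rw [gcd_l_form_eq_bil hS hu hv, gcd_l_energy_eq_bil hS hu, gcd_l_energy_eq_bil hS hv]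
  exact gcd_need_hs_bil_cs (gcd_need_qform hS) ((gcd_l_sobolev_iff_ChL2 hS hu.1).1 hu)
    ((gcd_l_sobolev_iff_ChL2 hS hv.1).1 hv)

/-- convergence to `0` in energy: `ChL2` form versus `energy` form. -/
theorem gcd_l_tendsto_energy_iff (hS : Std m K N) {ι : Type*} {l : Filter ι} {F : ι → X → ℝ}
    (hF : ∀ i, MemLp (F i) 2 m) (hF' : ∀ᶠ i in l, Sobolev m (F i)) :
    Tendsto (fun i => ChL2 m ((hF i).toLp (F i))) l (𝓝 0) ↔
      Tendsto (fun i => energy m (F i)) l (𝓝 0) := by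
  have hev : (fun i => ChL2 m ((hF i).toLp (F i))) =ᶠ[l] fun i => ENNReal.ofReal (energy m (F i) / 2) := by
    filter_upwards [hF'] with i hi
    exact gcd_l_ChL2_eq hS hi
  rw [tendsto_congr' hev]
  constructor
  · intro h
    have h1 : Tendsto (fun i => (ENNReal.ofReal (energy m (F i) / 2)).toReal) l (𝓝 (0 : ℝ≥0∞).toReal) :=
      (ENNReal.tendsto_toReal ENNReal.zero_ne_top).comp h
    have h2 : Tendsto (fun i => 2 * (ENNReal.ofReal (energy m (F i) / 2)).toReal) l (𝓝 (2 * (0 : ℝ≥0∞).toReal)) :=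
      h1.const_mul 2
    have e : (fun i => 2 * (ENNReal.ofReal (energy m (F i) / 2)).toReal) = fun i => energy m (F i) := by
      funext i
      rw [ENNReal.toReal_ofReal (div_nonneg (gcd_l_energy_nonneg _) (by norm_num))]
      ring
    rw [e] at h2
    simpa using h2
  · intro h
    have h1 : Tendsto (fun i => energy m (F i) / 2) l (𝓝 (0 / 2)) := h.div_const 2
    have h2 := (ENNReal.tendsto_ofReal h1)
    simpa using h2

/-- `v ↦ form m u v` is continuous for convergence in energy. -/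
theorem gcd_l_tendsto_form (hS : Std m K N) {ι : Type*} {l : Filter ι} {F : ι → X → ℝ}
    {u v : X → ℝ} (hu : Sobolev m u) (hF : ∀ᶠ i in l, Sobolev m (F i)) (hv : Sobolev m v)
    (h : Tendsto (fun i => energy m (fun x => F i x - v x)) l (𝓝 0)) :
    Tendsto (fun i => form m u (F i)) l (𝓝 (form m u v)) := by
  have hkey : ∀ᶠ i in l, |form m u (F i) - form m u v|
      ≤ Real.sqrt (energy m u * energy m (fun x => F i x - v x)) := by
    filter_upwards [hF] with i hi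
    have hw : Sobolev m (fun x => F i x - v x) := gcd_l_sobolev_sub hS hi hv
    have hadd : form m (fun x => (F i x - v x) + v x) u = form m (fun x => F i x - v x) u + form m v u :=
      gcd_l_form_add_left hS hw hv hu
    have e0 : (fun x => (F i x - v x) + v x) = F i := by
      funext x
      ring
    rw [e0] at hadd
    have e1 : form m u (F i) - form m u v = form m u (fun x => F i x - v x) := by
      rw [gcd_l_form_comm hS hu hi, gcd_l_form_comm hS hu hv, gcd_l_form_comm hS hu hw, hadd]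
      ring
    rw [e1]
    exact Real.abs_le_sqrt (gcd_l_form_cs hS hu hw)
  have hlim : Tendsto (fun i => Real.sqrt (energy m u * energy m (fun x => F i x - v x))) l (𝓝 0) := by
    have h1 : Tendsto (fun i => energy m u * energy m (fun x => F i x - v x)) l (𝓝 (energy m u * 0)) :=
      h.const_mul _
    have h2 := (Real.continuous_sqrt.tendsto _).comp h1
    simpa [Function.comp_def] using h2
  rw [tendsto_iff_dist_tendsto_zero]
  refine squeeze_zero' (Filter.Eventually.of_forall fun i => dist_nonneg) ?_ hlim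
  filter_upwards [hkey] with i hi
  rw [Real.dist_eq]
  exact hi

/-! ### D. `resF`, `heatF` as elements of `Lp ℝ 2 m` -/

theorem gcd_l_resF_eq {f : X → ℝ} (hf : MemLp f 2 m) (δ : ℝ) :
    resF m δ f = ((prox (ChL2 m) δ (hf.toLp f) : Lp ℝ 2 m) : X → ℝ) := by
  unfold resF; rw [dif_pos hf]

theorem gcd_l_heatF_eq {f : X → ℝ} (hf : MemLp f 2 m) (t : ℝ) :
    heatF m t f = ((flow (ChL2 m) t (hf.toLp f) : Lp ℝ 2 m) : X → ℝ) := by
  unfold heatF; rw [dif_pos hf]

theorem gcd_l_resF_memLp (δ : ℝ) (f : X → ℝ) : MemLp (resF m δ f) 2 m := by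
  unfold resF
  split_ifs with h
  · exact Lp.memLp _
  · exact MemLp.zero

theorem gcd_l_heatF_memLp (t : ℝ) (f : X → ℝ) : MemLp (heatF m t f) 2 m := by
  unfold heatF
  split_ifs with h
  · exact Lp.memLp _
  · exact MemLp.zero

theorem gcd_l_resF_toLp {f : X → ℝ} (hf : MemLp f 2 m) (δ : ℝ) :
    (gcd_l_resF_memLp δ f).toLp (resF m δ f) = prox (ChL2 m) δ (hf.toLp f) := by
  rw [← gcd_l_toLp_coe (prox (ChL2 m) δ (hf.toLp f)) (Lp.memLp _), gcd_l_toLp_eq_iff]
  exact EventuallyEq.of_eq (gcd_l_resF_eq hf δ)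

theorem gcd_l_heatF_toLp {f : X → ℝ} (hf : MemLp f 2 m) (t : ℝ) :
    (gcd_l_heatF_memLp t f).toLp (heatF m t f) = flow (ChL2 m) t (hf.toLp f) := by
  rw [← gcd_l_toLp_coe (flow (ChL2 m) t (hf.toLp f)) (Lp.memLp _), gcd_l_toLp_eq_iff]
  exact EventuallyEq.of_eq (gcd_l_heatF_eq hf t)

theorem gcd_l_resF_congr {f g : X → ℝ} (h : f =ᵐ[m] g) (δ : ℝ) : resF m δ f = resF m δ g := by
  by_cases hf : MemLp f 2 m
  · have hg : MemLp g 2 m := (memLp_congr_ae h).mp hf
    rw [gcd_l_resF_eq hf, gcd_l_resF_eq hg, (gcd_l_toLp_eq_iff hf hg).mpr h]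
  · have hg : ¬ MemLp g 2 m := fun hg => hf ((memLp_congr_ae h).mpr hg)
    unfold resF
    rw [dif_neg hf, dif_neg hg]

theorem gcd_l_heatF_congr {f g : X → ℝ} (h : f =ᵐ[m] g) (t : ℝ) :
    heatF m t f = heatF m t g := by
  by_cases hf : MemLp f 2 m
  · have hg : MemLp g 2 m := (memLp_congr_ae h).mp hf
    rw [gcd_l_heatF_eq hf, gcd_l_heatF_eq hg, (gcd_l_toLp_eq_iff hf hg).mpr h]
  · have hg : ¬ MemLp g 2 m := fun hg => hf ((memLp_congr_ae h).mpr hg)
    unfold heatF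
    rw [dif_neg hf, dif_neg hg]

end

end Claimed.Agent.R210.GCD.Dict
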