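/-
Row 210 (S0432), layer GCD.  `Lap.lean`: the frozen `IsLaplacian` / `laplacian` versus `HS.IsGen (ChL2 m)`;
uniqueness, spec, linearity, symmetry, closedness, integration by parts.
Leaves (each `sorry` = one small task).  Consumers: cite `GCD/Ifc*.lean`, not this file.
-/
import Claimed.Agent.R210.GCD.Dict

set_option autoImplicit false
set_option linter.unusedSectionVars false
set_option linter.unusedVariables false

open Claims.C0366 Claims.C0366.WeakHessian
open Set Filter MeasureTheory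
open scoped ENNReal NNReal Topology RealInnerProductSpace

namespace Claimed.Agent.R210.GCD.Lap

open Claimed.Agent.R210.Defs Claimed.Agent.R210.Defs2 Claimed.Agent.R210.HS.Defs
open Claimed.Agent.R210.GCD.Need Claimed.Agent.R210.GCD.Dict

noncomputable section

variable {X : Type*} [MetricSpace X] [MeasurableSpace X] [BorelSpace X] [CompleteSpace X]
  [TopologicalSpace.SeparableSpace X] [ProperSpace X] {m : Measure X} {K N : ℝ}

/-! ### A. the bridge -/

theorem gcd_l_isLaplacian_iff_isGen (hS : Std m K N) {u L : X → ℝ} (hu : MemLp u 2 m)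
    (hL : MemLp L 2 m) :
    IsLaplacian m u L ↔ IsGen (ChL2 m) (hu.toLp u) (hL.toLp L) := by
  unfold IsLaplacian IsGen
  constructor
  · rintro ⟨hs, -, h⟩
    refine ⟨(gcd_l_sobolev_iff_ChL2 hS hu).1 hs, fun v hv => ?_⟩
    have hvs : Sobolev m (v : X → ℝ) := (gcd_l_sobolev_coe hS v).2 hv
    have h1 := h _ hvs
    have h2 := gcd_l_form_eq_bil hS hs hvs
    rw [gcd_l_toLp_coe v hvs.1] at h2
    have h3 := gcd_l_inner_toLp hL hvs.1
    rw [gcd_l_toLp_coe v hvs.1] at h3
    rw [h3, ← h1, ← h2]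
    rfl
  · rintro ⟨hq, h⟩
    have hs : Sobolev m u := (gcd_l_sobolev_iff_ChL2 hS hu).2 hq
    refine ⟨hs, hL, fun v hvs => ?_⟩
    have hv : ChL2 m (hvs.1.toLp v) < ∞ := (gcd_l_sobolev_iff_ChL2 hS hvs.1).1 hvs
    have h1 := h _ hv
    have h2 := gcd_l_form_eq_bil hS hs hvs
    have h3 := gcd_l_inner_toLp hL hvs.1
    rw [← h3, ← h1, ← h2]
    rfl

theorem gcd_l_isLaplacian_coe (hS : Std m K N) (u w : Lp ℝ 2 m) :
    IsLaplacian m (u : X → ℝ) (w : X → ℝ) ↔ IsGen (ChL2 m) u w := by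
  have h := gcd_l_isLaplacian_iff_isGen hS (Lp.memLp u) (Lp.memLp w)
  rw [gcd_l_toLp_coe, gcd_l_toLp_coe] at h
  exact h

theorem gcd_l_isLaplacian_congr (hS : Std m K N) {u u' L L' : X → ℝ} (hu : u =ᵐ[m] u')
    (hL : L =ᵐ[m] L') (h : IsLaplacian m u L) : IsLaplacian m u' L' := by
  have hu1 : MemLp u 2 m := h.1.1
  have hL1 : MemLp L 2 m := h.2.1
  have hu2 : MemLp u' 2 m := (memLp_congr_ae hu).1 hu1
  have hL2 : MemLp L' 2 m := (memLp_congr_ae hL).1 hL1
  rw [gcd_l_isLaplacian_iff_isGen hS hu2 hL2]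
  rw [gcd_l_isLaplacian_iff_isGen hS hu1 hL1] at h
  rw [← (gcd_l_toLp_eq_iff hu1 hu2).2 hu, ← (gcd_l_toLp_eq_iff hL1 hL2).2 hL]
  exact h

theorem gcd_l_isLaplacian_unique (hS : Std m K N) {u L L' : X → ℝ} (h : IsLaplacian m u L)
    (h' : IsLaplacian m u L') : L =ᵐ[m] L' := by
  have hu1 : MemLp u 2 m := h.1.1
  have hL1 : MemLp L 2 m := h.2.1
  have hL2 : MemLp L' 2 m := h'.2.1
  rw [gcd_l_isLaplacian_iff_isGen hS hu1 hL1] at h
  rw [gcd_l_isLaplacian_iff_isGen hS hu1 hL2] at h'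
  rw [← gcd_l_toLp_eq_iff hL1 hL2]
  set w := hL1.toLp L with hw
  set w' := hL2.toLp L' with hw'
  have hz : ∀ v, ChL2 m v < ∞ → ⟪w - w', v⟫ = 0 := by
    intro v hv
    have h1 := h.2 v hv
    have h2 := h'.2 v hv
    rw [inner_sub_left]
    linarith
  have hcl : IsClosed {v : Lp ℝ 2 m | ⟪w - w', v⟫ = 0} :=
    isClosed_eq (continuous_const.inner continuous_id) continuous_const
  have hall : ∀ v : Lp ℝ 2 m, ⟪w - w', v⟫ = 0 := by
    intro v
    have hd := (gcd_need_qform hS).dense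
    have : closure {v : Lp ℝ 2 m | ChL2 m v < ∞} ⊆ {v : Lp ℝ 2 m | ⟪w - w', v⟫ = 0} :=
      closure_minimal (fun v hv => hz v hv) hcl
    exact this (hd v)
  have h0 := hall (w - w')
  rw [inner_self_eq_zero] at h0
  exact sub_eq_zero.1 h0

/-! ### B. `laplacian` -/

theorem gcd_l_laplacian_spec {u : X → ℝ} (hu : InLaplacianDomain m u) :
    IsLaplacian m u (laplacian m u) := by
  have hu' : ∃ L, IsLaplacian m u L := hu
  unfold laplacian
  rw [dif_pos hu']
  exact Classical.choose_spec hu'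

theorem gcd_l_laplacian_eq (hS : Std m K N) {u L : X → ℝ} (h : IsLaplacian m u L) :
    laplacian m u =ᵐ[m] L := by
  exact gcd_l_isLaplacian_unique hS (gcd_l_laplacian_spec ⟨L, h⟩) h

theorem gcd_l_laplacian_congr (hS : Std m K N) {u u' : X → ℝ} (hu : u =ᵐ[m] u') :
    laplacian m u = laplacian m u' := by
  have hp : IsLaplacian m u = IsLaplacian m u' := by
    funext L
    exact propext ⟨fun h => gcd_l_isLaplacian_congr hS hu (Filter.EventuallyEq.refl _ _) h,
      fun h => gcd_l_isLaplacian_congr hS hu.symm (Filter.EventuallyEq.refl _ _) h⟩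
  have key : ∀ P Q : (X → ℝ) → Prop, P = Q →
      (@dite _ (∃ L, P L) (Classical.propDecidable _) (fun h => Classical.choose h)
          (fun _ => (0 : X → ℝ))) =
        (@dite _ (∃ L, Q L) (Classical.propDecidable _) (fun h => Classical.choose h)
          (fun _ => (0 : X → ℝ))) := by
    intro P Q hPQ
    subst hPQ
    rfl
  exact key _ _ hp

theorem gcd_l_laplacian_memLp (u : X → ℝ) : MemLp (laplacian m u) 2 m := by
  by_cases h : InLaplacianDomain m u
  · exact (gcd_l_laplacian_spec h).2.1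
  · have h' : ¬ ∃ L, IsLaplacian m u L := h
    unfold laplacian
    rw [dif_neg h']
    exact MemLp.zero

theorem gcd_l_ibp {u v : X → ℝ} (hu : InLaplacianDomain m u) (hv : Sobolev m v) :
    ∫ x, gamma m u v x ∂m = -∫ x, laplacian m u x * v x ∂m := by
  exact (gcd_l_laplacian_spec hu).2.2 v hv

/-! ### C. linearity -/

theorem gcd_l_isLaplacian_zero (hS : Std m K N) :
    IsLaplacian m (fun _ : X => (0 : ℝ)) (fun _ => 0) := by
  refine ⟨gcd_l_sobolev_zero hS, MemLp.zero', fun w hw => ?_⟩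
  have h1 : (∫ x, gamma m (fun x => (0 : ℝ) * (fun _ : X => (0 : ℝ)) x) w x ∂m)
      = 0 * ∫ x, gamma m (fun _ : X => (0 : ℝ)) w x ∂m :=
    gcd_l_form_smul_left hS 0 (gcd_l_sobolev_zero hS) hw
  simp only [zero_mul] at h1
  rw [h1]
  simp

theorem gcd_l_isLaplacian_add (hS : Std m K N) {u v L M : X → ℝ} (hu : IsLaplacian m u L)
    (hv : IsLaplacian m v M) :
    IsLaplacian m (fun x => u x + v x) (fun x => L x + M x) := by
  refine ⟨gcd_l_sobolev_add hS hu.1 hv.1, gcd_l_memLp_add hu.2.1 hv.2.1, fun w hw => ?_⟩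
  have h1 : (∫ x, gamma m (fun x => u x + v x) w x ∂m)
      = (∫ x, gamma m u w x ∂m) + ∫ x, gamma m v w x ∂m :=
    gcd_l_form_add_left hS hu.1 hv.1 hw
  rw [h1, hu.2.2 w hw, hv.2.2 w hw]
  have h2 : (∫ x, (L x + M x) * w x ∂m) = (∫ x, L x * w x ∂m) + ∫ x, M x * w x ∂m := by
    rw [← integral_add (gcd_l_integrable_mul hu.2.1 hw.1) (gcd_l_integrable_mul hv.2.1 hw.1)]
    congr 1
    funext x
    ring
  rw [h2]
  ring

theorem gcd_l_aux_isLaplacian_smul (hS : Std m K N) (c : ℝ) {u L : X → ℝ} (hu : IsLaplacian m u L) :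
    IsLaplacian m (fun x => c * u x) (fun x => c * L x) := by
  refine ⟨gcd_l_sobolev_smul hS c hu.1, gcd_l_memLp_smul c hu.2.1, fun w hw => ?_⟩
  have h1 : (∫ x, gamma m (fun x => c * u x) w x ∂m) = c * ∫ x, gamma m u w x ∂m :=
    gcd_l_form_smul_left hS c hu.1 hw
  rw [h1, hu.2.2 w hw]
  have h2 : (∫ x, c * L x * w x ∂m) = c * ∫ x, L x * w x ∂m := by
    rw [← integral_const_mul]
    congr 1
    funext x
    ring
  rw [h2]
  ring

theorem gcd_l_isLaplacian_sub (hS : Std m K N) {u v L M : X → ℝ} (hu : IsLaplacian m u L)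
    (hv : IsLaplacian m v M) :
    IsLaplacian m (fun x => u x - v x) (fun x => L x - M x) := by
  have h := gcd_l_isLaplacian_add hS hu (gcd_l_aux_isLaplacian_smul hS (-1) hv)
  have e1 : (fun x => u x + -1 * v x) = fun x => u x - v x := by
    funext x; ring
  have e2 : (fun x => L x + -1 * M x) = fun x => L x - M x := by
    funext x; ring
  rwa [e1, e2] at h

theorem gcd_l_isLaplacian_smul (hS : Std m K N) (c : ℝ) {u L : X → ℝ} (hu : IsLaplacian m u L) :
    IsLaplacian m (fun x => c * u x) (fun x => c * L x) := by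
  exact gcd_l_aux_isLaplacian_smul hS c hu

theorem gcd_l_laplacian_add (hS : Std m K N) {u v : X → ℝ} (hu : InLaplacianDomain m u)
    (hv : InLaplacianDomain m v) :
    laplacian m (fun x => u x + v x) =ᵐ[m] fun x => laplacian m u x + laplacian m v x :=
  gcd_l_laplacian_eq hS (gcd_l_isLaplacian_add hS (gcd_l_laplacian_spec hu) (gcd_l_laplacian_spec hv))

theorem gcd_l_laplacian_sub (hS : Std m K N) {u v : X → ℝ} (hu : InLaplacianDomain m u)
    (hv : InLaplacianDomain m v) :
    laplacian m (fun x => u x - v x) =ᵐ[m] fun x => laplacian m u x - laplacian m v x :=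
  gcd_l_laplacian_eq hS (gcd_l_isLaplacian_sub hS (gcd_l_laplacian_spec hu) (gcd_l_laplacian_spec hv))

theorem gcd_l_laplacian_smul (hS : Std m K N) (c : ℝ) {u : X → ℝ} (hu : InLaplacianDomain m u) :
    laplacian m (fun x => c * u x) =ᵐ[m] fun x => c * laplacian m u x :=
  gcd_l_laplacian_eq hS (gcd_l_isLaplacian_smul hS c (gcd_l_laplacian_spec hu))

/-! ### D. symmetry, energy identity, closedness, reduced classes of test functions -/

theorem gcd_l_lap_symm (hS : Std m K N) {u v L M : X → ℝ} (hu : IsLaplacian m u L)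
    (hv : IsLaplacian m v M) : ∫ x, L x * v x ∂m = ∫ x, u x * M x ∂m := by
  have h1 : form m u v = -∫ x, L x * v x ∂m := hu.2.2 v hv.1
  have h2 : form m v u = -∫ x, M x * u x ∂m := hv.2.2 u hu.1
  have h3 := gcd_l_form_comm hS hu.1 hv.1
  have h4 : ∫ x, M x * u x ∂m = ∫ x, u x * M x ∂m := by
    congr 1
    funext x
    exact mul_comm _ _
  rw [← h4]
  linarith

theorem gcd_l_lap_energy (hS : Std m K N) {u L : X → ℝ} (hu : IsLaplacian m u L) :
    energy m u = -∫ x, L x * u x ∂m := by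
  have h1 : form m u u = -∫ x, L x * u x ∂m := hu.2.2 u hu.1
  rw [← gcd_l_form_self hS hu.1, h1]

/-- it is enough to test with Lipschitz functions with compact support. -/
theorem gcd_l_isLaplacian_of_lipC (hS : Std m K N) {u L : X → ℝ} (hu : Sobolev m u)
    (hL : MemLp L 2 m)
    (h : ∀ v : X → ℝ, LipC v → ∫ x, gamma m u v x ∂m = -∫ x, L x * v x ∂m) :
    IsLaplacian m u L := by
  refine ⟨hu, hL, fun v hv => ?_⟩
  obtain ⟨vs, hvs, hl2, hen⟩ := gcd_need_lipC_dense hS hv
  have hsob : ∀ n, Sobolev m (vs n) := fun n => gcd_need_lipC_sobolev hS (hvs n)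
  have t1 : Tendsto (fun n => form m u (vs n)) atTop (𝓝 (form m u v)) :=
    gcd_l_tendsto_form hS hu (Eventually.of_forall hsob) hv hen
  have t2 : Tendsto (fun n => ∫ x, vs n x * L x ∂m) atTop (𝓝 (∫ x, v x * L x ∂m)) :=
    gcd_l_tendsto_integral_mul (fun n => (hsob n).1) hv.1 hL hl2
  have e1 : ∀ n, form m u (vs n) = -∫ x, vs n x * L x ∂m := by
    intro n
    have := h (vs n) (hvs n)
    have e : ∫ x, L x * vs n x ∂m = ∫ x, vs n x * L x ∂m := by
      congr 1
      funext x
      exact mul_comm _ _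
    rw [e] at this
    exact this
  have t3 : Tendsto (fun n => form m u (vs n)) atTop (𝓝 (-∫ x, v x * L x ∂m)) :=
    t2.neg.congr fun n => (e1 n).symm
  have h5 := tendsto_nhds_unique t1 t3
  have e2 : ∫ x, L x * v x ∂m = ∫ x, v x * L x ∂m := by
    congr 1
    funext x
    exact mul_comm _ _
  rw [e2]
  exact h5

/-- (aux) `IsGen Q u w ↔ u = prox Q 1 (u - w)`. -/
theorem gcd_l_aux_isGen_iff_prox {H : Type*} [NormedAddCommGroup H] [InnerProductSpace ℝ H]
    [CompleteSpace H] {Q : H → ℝ≥0∞} (hQ : QForm Q) (u w : H) :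
    IsGen Q u w ↔ u = prox Q 1 (u - w) := by
  rw [gcd_need_hs_prox_iff hQ one_pos (u - w) u]
  simp

/-- (aux) `prox Q 1` is continuous. -/
theorem gcd_l_aux_prox_continuous {H : Type*} [NormedAddCommGroup H] [InnerProductSpace ℝ H]
    [CompleteSpace H] {Q : H → ℝ≥0∞} (hQ : QForm Q) : Continuous (prox Q 1) := by
  have hlip : LipschitzWith 1 (prox Q 1) := by
    apply LipschitzWith.of_dist_le_mul
    intro f g
    have h1 : prox Q 1 f - prox Q 1 g = prox Q 1 (f - g) := by
      have e : f - g = f + (-1 : ℝ) • g := by simp [sub_eq_add_neg]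
      rw [e, gcd_need_hs_prox_add hQ one_pos, gcd_need_hs_prox_smul hQ one_pos]
      simp [sub_eq_add_neg]
    rw [dist_eq_norm, dist_eq_norm, h1]
    simpa using gcd_need_hs_prox_norm_le hQ one_pos (f - g)
  exact hlip.continuous

/-- the Laplacian is a closed operator. -/
theorem gcd_l_isLaplacian_closed (hS : Std m K N) {ι : Type*} {l : Filter ι} [l.NeBot]
    {u L : ι → X → ℝ} {u' L' : X → ℝ} (h : ∀ᶠ i in l, IsLaplacian m (u i) (L i))
    (hu' : MemLp u' 2 m) (hL' : MemLp L' 2 m)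
    (hu : Tendsto (fun i => eLpNorm (fun x => u i x - u' x) 2 m) l (𝓝 0))
    (hL : Tendsto (fun i => eLpNorm (fun x => L i x - L' x) 2 m) l (𝓝 0)) :
    IsLaplacian m u' L' := by
  classical
  have hQ : QForm (ChL2 m) := gcd_need_qform hS
  -- modified families, in `L²` for every index
  set U : ι → X → ℝ := fun i => if IsLaplacian m (u i) (L i) then u i else u' with hUdef
  set W : ι → X → ℝ := fun i => if IsLaplacian m (u i) (L i) then L i else L' with hWdef
  have hUm : ∀ i, MemLp (U i) 2 m := by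
    intro i
    by_cases hi : IsLaplacian m (u i) (L i)
    · simp only [hUdef, if_pos hi]; exact hi.1.1
    · simp only [hUdef, if_neg hi]; exact hu'
  have hWm : ∀ i, MemLp (W i) 2 m := by
    intro i
    by_cases hi : IsLaplacian m (u i) (L i)
    · simp only [hWdef, if_pos hi]; exact hi.2.1
    · simp only [hWdef, if_neg hi]; exact hL'
  have hUt : Tendsto (fun i => eLpNorm (fun x => U i x - u' x) 2 m) l (𝓝 0) := by
    refine hu.congr' ?_
    filter_upwards [h] with i hi
    simp only [hUdef, if_pos hi]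
  have hWt : Tendsto (fun i => eLpNorm (fun x => W i x - L' x) 2 m) l (𝓝 0) := by
    refine hL.congr' ?_
    filter_upwards [h] with i hi
    simp only [hWdef, if_pos hi]
  have hU2 : Tendsto (fun i => (hUm i).toLp (U i)) l (𝓝 (hu'.toLp u')) :=
    (gcd_l_tendsto_toLp_iff hUm hu').2 hUt
  have hW2 : Tendsto (fun i => (hWm i).toLp (W i)) l (𝓝 (hL'.toLp L')) :=
    (gcd_l_tendsto_toLp_iff hWm hL').2 hWt
  have hfix : ∀ᶠ i in l, (hUm i).toLp (U i)
      = prox (ChL2 m) 1 ((hUm i).toLp (U i) - (hWm i).toLp (W i)) := by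
    filter_upwards [h] with i hi
    have hi' : IsLaplacian m (U i) (W i) := by
      simp only [hUdef, hWdef, if_pos hi]; exact hi
    exact (gcd_l_aux_isGen_iff_prox hQ _ _).1
      ((gcd_l_isLaplacian_iff_isGen hS (hUm i) (hWm i)).1 hi')
  have hlim : Tendsto (fun i => prox (ChL2 m) 1 ((hUm i).toLp (U i) - (hWm i).toLp (W i))) l
      (𝓝 (prox (ChL2 m) 1 (hu'.toLp u' - hL'.toLp L'))) :=
    ((gcd_l_aux_prox_continuous hQ).tendsto _).comp (hU2.sub hW2)
  have hlim2 : Tendsto (fun i => (hUm i).toLp (U i)) l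
      (𝓝 (prox (ChL2 m) 1 (hu'.toLp u' - hL'.toLp L'))) :=
    hlim.congr' (hfix.mono fun i hi => hi.symm)
  have heq : hu'.toLp u' = prox (ChL2 m) 1 (hu'.toLp u' - hL'.toLp L') :=
    tendsto_nhds_unique hU2 hlim2
  exact (gcd_l_isLaplacian_iff_isGen hS hu' hL').2 ((gcd_l_aux_isGen_iff_prox hQ _ _).2 heq)

/-- graph convergence implies convergence in energy. -/
theorem gcd_l_isLaplacian_tendsto_energy (hS : Std m K N) {ι : Type*} {l : Filter ι}
    {u L : ι → X → ℝ} {u' L' : X → ℝ} (h : ∀ᶠ i in l, IsLaplacian m (u i) (L i))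
    (h' : IsLaplacian m u' L')
    (hu : Tendsto (fun i => eLpNorm (fun x => u i x - u' x) 2 m) l (𝓝 0))
    (hL : Tendsto (fun i => eLpNorm (fun x => L i x - L' x) 2 m) l (𝓝 0)) :
    Tendsto (fun i => energy m (fun x => u i x - u' x)) l (𝓝 0) := by
  have hb : Tendsto (fun i => (eLpNorm (fun x => L i x - L' x) 2 m).toReal
      * (eLpNorm (fun x => u i x - u' x) 2 m).toReal) l (𝓝 0) := by
    have h1 := (ENNReal.tendsto_toReal ENNReal.zero_ne_top).comp hL
    have h2 := (ENNReal.tendsto_toReal ENNReal.zero_ne_top).comp hu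
    simpa using h1.mul h2
  refine tendsto_of_tendsto_of_tendsto_of_le_of_le' tendsto_const_nhds hb
    (Eventually.of_forall fun i => gcd_l_energy_nonneg _) ?_
  filter_upwards [h] with i hi
  have hd : IsLaplacian m (fun x => u i x - u' x) (fun x => L i x - L' x) :=
    gcd_l_isLaplacian_sub hS hi h'
  have ha : MemLp (fun x => L i x - L' x) 2 m := hd.2.1
  have hbm : MemLp (fun x => u i x - u' x) 2 m := hd.1.1
  rw [gcd_l_lap_energy hS hd, ← gcd_l_inner_toLp ha hbm]
  calc -⟪ha.toLp _, hbm.toLp _⟫ ≤ |⟪ha.toLp _, hbm.toLp _⟫| := neg_le_abs _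
    _ ≤ ‖ha.toLp _‖ * ‖hbm.toLp _‖ := abs_real_inner_le_norm _ _
    _ = _ := by rw [Lp.norm_toLp, Lp.norm_toLp]

/-- Product of two bounded Lipschitz functions. -/
theorem gcd_l_aux_lip_mul {f g : X → ℝ} (hf : GloballyLipschitz f) (hfb : BoundedFunction f)
    (hg : GloballyLipschitz g) (hgb : BoundedFunction g) :
    GloballyLipschitz (fun x => f x * g x) := by
  obtain ⟨Lf, hLf⟩ := hf
  obtain ⟨Lg, hLg⟩ := hg
  obtain ⟨Bf, hBf⟩ := hfb
  obtain ⟨Bg, hBg⟩ := hgb
  refine ⟨Real.toNNReal (|Bg| * Lf + |Bf| * Lg), LipschitzWith.of_dist_le_mul fun x y => ?_⟩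
  have hnn : 0 ≤ |Bg| * Lf + |Bf| * Lg := by positivity
  rw [Real.coe_toNNReal _ hnn, Real.dist_eq]
  have h1 : |f x - f y| ≤ Lf * dist x y := by rw [← Real.dist_eq]; exact hLf.dist_le_mul x y
  have h2 : |g x - g y| ≤ Lg * dist x y := by rw [← Real.dist_eq]; exact hLg.dist_le_mul x y
  have h3 : f x * g x - f y * g y = g x * (f x - f y) + f y * (g x - g y) := by ring
  rw [h3]
  calc |g x * (f x - f y) + f y * (g x - g y)|
      ≤ |g x * (f x - f y)| + |f y * (g x - g y)| := abs_add_le _ _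
    _ = |g x| * |f x - f y| + |f y| * |g x - g y| := by rw [abs_mul, abs_mul]
    _ ≤ |Bg| * (Lf * dist x y) + |Bf| * (Lg * dist x y) := by
        apply add_le_add
        · exact mul_le_mul ((hBg x).trans (le_abs_self _)) h1 (abs_nonneg _) (abs_nonneg _)
        · exact mul_le_mul ((hBf y).trans (le_abs_self _)) h2 (abs_nonneg _) (abs_nonneg _)
    _ = (|Bg| * Lf + |Bf| * Lg) * dist x y := by ring

/-- integration by parts against a bounded Lipschitz function (not in `L²`), when `|Du|` and `Δu` are integrable. -/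
theorem gcd_l_ibp_lipB (hS : Std m K N) {u L v : X → ℝ} (hu : IsLaplacian m u L)
    (hD1 : Integrable (weakGradient m u) m) (hL1 : Integrable L m) (hv : LipB v) :
    Integrable (gamma m u v) m ∧ ∫ x, gamma m u v x ∂m = -∫ x, L x * v x ∂m := by
  obtain ⟨⟨hu2, huloc, hDu2⟩, hL2, hibp⟩ := hu
  have hvloc : LocalSobolev m v := gcd_need_lipB_localSobolev hS hv
  obtain ⟨⟨Lv, hLv⟩, ⟨Bv, hBv⟩⟩ := id hv
  have hvc : Continuous v := hLv.continuous
  have hwg0 : ∀ᵐ x ∂m, 0 ≤ weakGradient m u x := gcd_need_wg_nonneg u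
  -- general bound for `gamma u w`, `w` Lipschitz
  have hgb : ∀ {w : X → ℝ} {Lw : ℝ≥0}, LocalSobolev m w → LipschitzWith Lw w →
      ∀ᵐ x ∂m, |gamma m u w x| ≤ Lw * weakGradient m u x := by
    intro w Lw hw hLw
    filter_upwards [gcd_need_gamma_abs_le hS huloc hw, gcd_need_lip_wg_le hS hLw, hwg0]
      with x h1 h2 h3
    calc |gamma m u w x| ≤ weakGradient m u x * weakGradient m w x := h1
      _ ≤ weakGradient m u x * Lw := by gcongr
      _ = Lw * weakGradient m u x := mul_comm _ _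
  have hgi : Integrable (gamma m u v) m := by
    refine (hD1.const_mul (Lv : ℝ)).mono' (gcd_need_gamma_aesm hS huloc hvloc) ?_
    filter_upwards [hgb hvloc hLv] with x hx
    rwa [Real.norm_eq_abs]
  refine ⟨hgi, ?_⟩
  rcases isEmpty_or_nonempty X with hX | ⟨⟨o⟩⟩
  · simp [Measure.eq_zero_of_isEmpty m]
  -- cut-offs
  have hex : ∀ n : ℕ, ∃ χ : X → ℝ, LipC χ ∧ LipschitzWith (Real.toNNReal ((n : ℝ) + 1)⁻¹) χ ∧
      (∀ x, 0 ≤ χ x ∧ χ x ≤ 1) ∧ ∀ x, dist x o ≤ (n : ℝ) + 1 → χ x = 1 :=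
    fun n => gcd_need_cutoff o (by positivity)
  choose χ hχC hχL hχ01 hχ1 using hex
  have hχc : ∀ n, Continuous (χ n) := fun n => (hχL n).continuous
  have hχb : ∀ n, BoundedFunction (χ n) := fun n =>
    ⟨1, fun x => abs_le.2 ⟨by linarith [(hχ01 n x).1], (hχ01 n x).2⟩⟩
  have hχabs : ∀ n x, |χ n x| ≤ 1 := fun n x =>
    abs_le.2 ⟨by linarith [(hχ01 n x).1], (hχ01 n x).2⟩
  have hχloc : ∀ n, LocalSobolev m (χ n) := fun n =>
    gcd_need_lipB_localSobolev hS ⟨(hχC n).1, hχb n⟩
  have hχlim : ∀ x, Tendsto (fun n => χ n x) atTop (𝓝 1) := by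
    intro x
    refine tendsto_const_nhds.congr' ?_
    obtain ⟨k, hk⟩ := exists_nat_ge (dist x o)
    filter_upwards [eventually_ge_atTop k] with n hn
    refine (hχ1 n x ?_).symm
    have : (k : ℝ) ≤ n := by exact_mod_cast hn
    linarith
  -- the product is `LipC`
  have hwC : ∀ n, LipC (fun x => v x * χ n x) := fun n =>
    ⟨gcd_l_aux_lip_mul hv.1 hv.2 (hχC n).1 (hχb n), (hχC n).2.mul_left⟩
  have hid : ∀ n, ∫ x, gamma m u (fun y => v y * χ n y) x ∂m = -∫ x, L x * (v x * χ n x) ∂m :=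
    fun n => hibp _ (gcd_need_lipC_sobolev hS (hwC n))
  -- integrability of the two pieces
  have hgχi : ∀ n, Integrable (gamma m u (χ n)) m := by
    intro n
    refine (hD1.const_mul ((Real.toNNReal ((n : ℝ) + 1)⁻¹ : ℝ≥0) : ℝ)).mono'
      (gcd_need_gamma_aesm hS huloc (hχloc n)) ?_
    filter_upwards [hgb (hχloc n) (hχL n)] with x hx
    rwa [Real.norm_eq_abs]
  have hp1 : ∀ n, Integrable (fun x => v x * gamma m u (χ n) x) m := by
    intro n
    refine (hgχi n).bdd_mul (c := Bv) hvc.aestronglyMeasurable ?_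
    exact Eventually.of_forall (fun x => (Real.norm_eq_abs _).le.trans (hBv x))
  have hp2 : ∀ n, Integrable (fun x => χ n x * gamma m u v x) m := by
    intro n
    refine hgi.bdd_mul (c := 1) (hχc n).aestronglyMeasurable ?_
    exact Eventually.of_forall (fun x => (Real.norm_eq_abs _).le.trans (hχabs n x))
  have hsplit : ∀ n, ∫ x, gamma m u (fun y => v y * χ n y) x ∂m =
      (∫ x, v x * gamma m u (χ n) x ∂m) + ∫ x, χ n x * gamma m u v x ∂m := by
    intro n
    rw [← integral_add (hp1 n) (hp2 n)]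
    refine integral_congr_ae ?_
    exact gcd_need_gamma_leibniz_right hS hvloc (Eventually.of_forall hBv) (hχloc n)
      (Eventually.of_forall (hχabs n)) huloc
  -- limits
  set I : ℝ := ∫ x, weakGradient m u x ∂m with hI
  have hl1 : Tendsto (fun n => ∫ x, v x * gamma m u (χ n) x ∂m) atTop (𝓝 0) := by
    have hle : ∀ n : ℕ, ‖∫ x, v x * gamma m u (χ n) x ∂m‖ ≤ |Bv| * I * ((n : ℝ) + 1)⁻¹ := by
      intro n
      have hb : ∀ᵐ x ∂m, ‖v x * gamma m u (χ n) x‖ ≤
          |Bv| * ((n : ℝ) + 1)⁻¹ * weakGradient m u x := by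
        filter_upwards [hgb (hχloc n) (hχL n), hwg0] with x hx h0
        rw [Real.coe_toNNReal _ (by positivity)] at hx
        rw [norm_mul, Real.norm_eq_abs, Real.norm_eq_abs]
        calc |v x| * |gamma m u (χ n) x| ≤ |Bv| * (((n : ℝ) + 1)⁻¹ * weakGradient m u x) := by
              refine mul_le_mul ((hBv x).trans (le_abs_self _)) hx (abs_nonneg _) (abs_nonneg _)
          _ = |Bv| * ((n : ℝ) + 1)⁻¹ * weakGradient m u x := by ring
      refine (norm_integral_le_of_norm_le (hD1.const_mul _) hb).trans (le_of_eq ?_)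
      rw [integral_const_mul]; ring
    have hz : Tendsto (fun n : ℕ => |Bv| * I * ((n : ℝ) + 1)⁻¹) atTop (𝓝 0) := by
      have : Tendsto (fun n : ℕ => ((n : ℝ) + 1)⁻¹) atTop (𝓝 0) := by
        simpa [one_div] using tendsto_one_div_add_atTop_nhds_zero_nat (𝕜 := ℝ)
      simpa using this.const_mul (|Bv| * I)
    exact squeeze_zero_norm hle hz
  have hl2 : Tendsto (fun n => ∫ x, χ n x * gamma m u v x ∂m) atTop
      (𝓝 (∫ x, gamma m u v x ∂m)) := by
    refine tendsto_integral_of_dominated_convergence (fun x => |gamma m u v x|)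
      (fun n => (hp2 n).1) hgi.abs (fun n => Eventually.of_forall (fun x => ?_))
      (Eventually.of_forall (fun x => ?_))
    · rw [norm_mul, Real.norm_eq_abs, Real.norm_eq_abs]
      calc |χ n x| * |gamma m u v x| ≤ 1 * |gamma m u v x| := by
            gcongr; exact hχabs n x
        _ = |gamma m u v x| := one_mul _
    · simpa using (hχlim x).mul_const (gamma m u v x)
  have hLv : Integrable (fun x => L x * v x) m := by
    refine hL1.mul_bdd (c := Bv) hvc.aestronglyMeasurable ?_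
    exact Eventually.of_forall (fun x => (Real.norm_eq_abs _).le.trans (hBv x))
  have hl3 : Tendsto (fun n => ∫ x, L x * (v x * χ n x) ∂m) atTop
      (𝓝 (∫ x, L x * v x ∂m)) := by
    refine tendsto_integral_of_dominated_convergence (fun x => |L x * v x|)
      (fun n => ?_) hLv.abs (fun n => Eventually.of_forall (fun x => ?_))
      (Eventually.of_forall (fun x => ?_))
    · exact hL1.1.mul (hvc.aestronglyMeasurable.mul (hχc n).aestronglyMeasurable)
    · rw [← mul_assoc, norm_mul, Real.norm_eq_abs, Real.norm_eq_abs]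
      calc |L x * v x| * |χ n x| ≤ |L x * v x| * 1 := by
            gcongr; exact hχabs n x
        _ = |L x * v x| := mul_one _
    · have := ((hχlim x).const_mul (v x)).const_mul (L x)
      simpa using this
  have hA : Tendsto (fun n => ∫ x, gamma m u (fun y => v y * χ n y) x ∂m) atTop
      (𝓝 (0 + ∫ x, gamma m u v x ∂m)) := by
    simp_rw [hsplit]
    exact hl1.add hl2
  have hB : Tendsto (fun n => ∫ x, gamma m u (fun y => v y * χ n y) x ∂m) atTop
      (𝓝 (-∫ x, L x * v x ∂m)) := by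
    simp_rw [hid]
    exact hl3.neg
  have := tendsto_nhds_unique hA hB
  rwa [zero_add] at this

end

end Claimed.Agent.R210.GCD.Lap
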