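/-
Row 210 (S0432), layer GCD.  `Chain.lean`: chain rule and Leibniz rule for the frozen Laplacian.
Leaves (each `sorry` = one small task).  Consumers: cite `GCD/Ifc*.lean`, not this file.
-/
import Claimed.Agent.R210.GCD.Lap

set_option autoImplicit false
set_option linter.unusedSectionVars false
set_option linter.unusedVariables false

open Claims.C0366 Claims.C0366.WeakHessian
open Set Filter MeasureTheory
open scoped ENNReal NNReal Topology RealInnerProductSpace

namespace Claimed.Agent.R210.GCD.Chain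

open Claimed.Agent.R210.Defs Claimed.Agent.R210.Defs2 Claimed.Agent.R210.HS.Defs
open Claimed.Agent.R210.GCD.Need Claimed.Agent.R210.GCD.Dict

noncomputable section

variable {X : Type*} [MetricSpace X] [MeasurableSpace X] [BorelSpace X] [CompleteSpace X]
  [TopologicalSpace.SeparableSpace X] [ProperSpace X] {m : Measure X} {K N : ℝ}

open Claimed.Agent.R210.GCD.Lap

/-- a continuous function of an essentially bounded function is essentially bounded. -/
theorem gcd_l_aux_comp_bdd {u : X → ℝ} {B : ℝ} {ψ : ℝ → ℝ} (hψ : Continuous ψ)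
    (hB : AEBdd m u B) : ∃ C : ℝ, AEBdd m (fun x => ψ (u x)) C := by
  obtain ⟨C, hC⟩ := (isCompact_Icc (a := -B) (b := B)).exists_bound_of_continuousOn
    hψ.continuousOn
  refine ⟨C, ?_⟩
  filter_upwards [hB] with x hx
  have := hC (u x) (abs_le.1 hx)
  simpa [Real.norm_eq_abs] using this

/-- a Lipschitz function with compact support is bounded. -/
theorem gcd_l_aux_lipC_bdd {v : X → ℝ} (hv : LipC v) : ∃ C : ℝ, AEBdd m v C := by
  obtain ⟨L, hL⟩ := hv.1
  obtain ⟨C, hC⟩ := hv.2.exists_bound_of_continuous hL.continuous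
  exact ⟨C, Eventually.of_forall fun x => by simpa [Real.norm_eq_abs] using hC x⟩

/-- `φ'(u) v` is an admissible test function. -/
theorem gcd_l_chain_test (hS : Std m K N) {u v : X → ℝ} {B : ℝ} {ψ : ℝ → ℝ}
    (hu : Sobolev m u) (hB : AEBdd m u B) (hψ : ContDiff ℝ 1 ψ) (hv : LipC v) :
    Sobolev m (fun x => ψ (u x) * v x) := by
  obtain ⟨C, hC⟩ := gcd_l_aux_comp_bdd (m := m) (ψ := fun z => ψ z - ψ 0)
    (hψ.continuous.sub continuous_const) hB
  obtain ⟨C', hC'⟩ := gcd_l_aux_lipC_bdd (m := m) hv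
  have h1 : Sobolev m (fun x => ψ (u x) - ψ 0) :=
    gcd_need_sobolev_comp hS (φ := fun z => ψ z - ψ 0) hu hB (hψ.sub contDiff_const) (by simp)
  have hvS : Sobolev m v := gcd_need_lipC_sobolev hS hv
  have h2 := gcd_need_sobolev_mul hS h1 hC hvS hC'
  have h3 := gcd_l_sobolev_smul hS (ψ 0) hvS
  have h4 := gcd_l_sobolev_add hS h2 h3
  have h5 : (fun x => ψ (u x) * v x) = fun x => (ψ (u x) - ψ 0) * v x + ψ 0 * v x := by
    funext x; ring
  rw [h5]
  exact h4

/-- `Γ(u, ψ(u) v) = ψ(u) Γ(u,v) + v ψ'(u) Γ(u,u)`. -/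
theorem gcd_l_chain_gamma (hS : Std m K N) {u v : X → ℝ} {B : ℝ} {ψ : ℝ → ℝ}
    (hu : Sobolev m u) (hB : AEBdd m u B) (hψ : ContDiff ℝ 1 ψ) (hv : LipC v) :
    ∀ᵐ x ∂m, gamma m u (fun y => ψ (u y) * v y) x =
      ψ (u x) * gamma m u v x + v x * (deriv ψ (u x) * gamma m u u x) := by
  obtain ⟨C, hC⟩ := gcd_l_aux_comp_bdd (m := m) (ψ := ψ) hψ.continuous hB
  obtain ⟨C', hC'⟩ := gcd_l_aux_lipC_bdd (m := m) hv
  have hvS : Sobolev m v := gcd_need_lipC_sobolev hS hv
  have h1 := gcd_need_gamma_leibniz_right hS (f := fun y => ψ (u y)) (g := v) (h := u)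
    (gcd_need_localSobolev_comp hS hu.2.1 hB hψ) hC hvS.2.1 hC' hu.2.1
  have h2 := gcd_need_gamma_chain_right hS (f := u) (g := u) hu.2.1 hB hψ hu.2.1
  filter_upwards [h1, h2] with x hx1 hx2
  rw [hx1, hx2]

/-- the candidate Laplacian is in `L²`. -/
theorem gcd_l_chain_memLp (hS : Std m K N) {u L : X → ℝ} {B B' : ℝ} {φ : ℝ → ℝ}
    (hu : IsLaplacian m u L) (hB : AEBdd m u B) (hB' : AEBdd m (weakGradient m u) B')
    (hφ : ContDiff ℝ 2 φ) :
    MemLp (fun x => deriv φ (u x) * L x + deriv (deriv φ) (u x) * gamma m u u x) 2 m := by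
  have hc1 : Continuous (deriv φ) := hφ.continuous_deriv (by norm_num)
  have hd1 : ContDiff ℝ 1 (deriv φ) := by
    have h2 : ContDiff ℝ (1 + 1) φ := by
      rw [one_add_one_eq_two]; exact hφ
    exact ((contDiff_succ_iff_deriv (n := 1)).1 h2).2.2
  have hc2 : Continuous (deriv (deriv φ)) := hd1.continuous_deriv le_rfl
  obtain ⟨C1, hC1⟩ := gcd_l_aux_comp_bdd (m := m) hc1 hB
  obtain ⟨C2, hC2⟩ := gcd_l_aux_comp_bdd (m := m) hc2 hB
  have hum : AEStronglyMeasurable u m := hu.1.1.aestronglyMeasurable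
  have hA : MemLp (fun x => deriv φ (u x) * L x) 2 m := by
    refine MemLp.of_le_mul (c := C1) hu.2.1
      ((hc1.comp_aestronglyMeasurable hum).mul hu.2.1.aestronglyMeasurable) ?_
    filter_upwards [hC1] with x hx
    rw [norm_mul, Real.norm_eq_abs]
    exact mul_le_mul_of_nonneg_right hx (norm_nonneg _)
  have hG : MemLp (fun x => deriv (deriv φ) (u x) * gamma m u u x) 2 m := by
    refine MemLp.of_le_mul (c := C2 * B') hu.1.2.2
      ((hc2.comp_aestronglyMeasurable hum).mul (gcd_need_gamma_aesm hS hu.1.2.1 hu.1.2.1)) ?_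
    filter_upwards [hC2, hB', gcd_need_gamma_self hS hu.1.2.1] with x hx2 hxB hxg
    rw [norm_mul, hxg, Real.norm_eq_abs, Real.norm_eq_abs, Real.norm_eq_abs, abs_pow, sq,
      ← mul_assoc]
    have h0 : 0 ≤ C2 := (abs_nonneg _).trans hx2
    exact mul_le_mul_of_nonneg_right (mul_le_mul hx2 hxB (abs_nonneg _) h0) (abs_nonneg _)
  exact hA.add hG

/-- chain rule for the Laplacian. -/
theorem gcd_l_lap_chain (hS : Std m K N) {u L : X → ℝ} {B B' : ℝ} {φ : ℝ → ℝ}
    (hu : IsLaplacian m u L) (hB : AEBdd m u B) (hB' : AEBdd m (weakGradient m u) B')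
    (hφ : ContDiff ℝ 2 φ) (h0 : φ 0 = 0) :
    IsLaplacian m (fun x => φ (u x))
      (fun x => deriv φ (u x) * L x + deriv (deriv φ) (u x) * gamma m u u x) := by
  have hφ1 : ContDiff ℝ 1 φ := hφ.of_le (by norm_num)
  have hψ : ContDiff ℝ 1 (deriv φ) := by
    have h2 : ContDiff ℝ (1 + 1) φ := by
      rw [one_add_one_eq_two]
      exact hφ
    exact (contDiff_succ_iff_deriv.1 h2).2.2
  have hS1 : Sobolev m (fun x => φ (u x)) := gcd_need_sobolev_comp hS hu.1 hB hφ1 h0
  have hM : MemLp (fun x => deriv φ (u x) * L x + deriv (deriv φ) (u x) * gamma m u u x) 2 m :=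
    gcd_l_chain_memLp hS hu hB hB' hφ
  refine gcd_l_isLaplacian_of_lipC hS hS1 hM (fun v hv => ?_)
  have hvS : Sobolev m v := gcd_need_lipC_sobolev hS hv
  have e1 := gcd_need_gamma_chain_left hS hu.1.2.1 hB hφ1 hvS.2.1
  have e2 := gcd_l_chain_gamma hS hu.1 hB hψ hv
  have hT : Sobolev m (fun x => deriv φ (u x) * v x) := gcd_l_chain_test hS hu.1 hB hψ hv
  have e3 := hu.2.2 _ hT
  have I1 : Integrable (gamma m u (fun y => deriv φ (u y) * v y)) m :=
    gcd_l_gamma_integrable hS hu.1 hT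
  have I0 : Integrable (gamma m (fun y => φ (u y)) v) m := gcd_l_gamma_integrable hS hS1 hvS
  have I2 : Integrable (fun x => v x * (deriv (deriv φ) (u x) * gamma m u u x)) m := by
    refine (I1.sub I0).congr ?_
    filter_upwards [e1, e2] with x h1 h2
    rw [Pi.sub_apply, h1, h2]
    ring
  have I3 : Integrable (fun x => L x * (deriv φ (u x) * v x)) m :=
    gcd_l_integrable_mul hu.2.1 hT.1
  have s1 : ∫ x, gamma m (fun y => φ (u y)) v x ∂m
      = ∫ x, (gamma m u (fun y => deriv φ (u y) * v y) x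
          - v x * (deriv (deriv φ) (u x) * gamma m u u x)) ∂m := by
    refine integral_congr_ae ?_
    filter_upwards [e1, e2] with x h1 h2
    rw [h1, h2]
    ring
  have s2 : ∫ x, (deriv φ (u x) * L x + deriv (deriv φ) (u x) * gamma m u u x) * v x ∂m
      = ∫ x, (L x * (deriv φ (u x) * v x)
          + v x * (deriv (deriv φ) (u x) * gamma m u u x)) ∂m := by
    refine integral_congr_ae (Eventually.of_forall fun x => ?_)
    show (deriv φ (u x) * L x + deriv (deriv φ) (u x) * gamma m u u x) * v x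
      = L x * (deriv φ (u x) * v x) + v x * (deriv (deriv φ) (u x) * gamma m u u x)
    ring
  rw [s1, s2, integral_sub I1 I2, integral_add I3 I2, e3]
  ring

/-- `Δ(u²) = 2uΔu + 2Γ(u)`. -/
theorem gcd_l_lap_sq (hS : Std m K N) {u L : X → ℝ} {B B' : ℝ}
    (hu : IsLaplacian m u L) (hB : AEBdd m u B) (hB' : AEBdd m (weakGradient m u) B') :
    IsLaplacian m (fun x => u x ^ 2) (fun x => 2 * u x * L x + 2 * gamma m u u x) := by
  have hφ : ContDiff ℝ 2 (fun z : ℝ => z ^ 2) := contDiff_id.pow 2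
  have h := gcd_l_lap_chain hS hu hB hB' hφ (by norm_num)
  have hd : deriv (fun z : ℝ => z ^ 2) = fun z => 2 * z := by
    funext z
    simp
  have hdd : deriv (fun z : ℝ => 2 * z) = fun _ => 2 := by
    funext z
    simp
  simp only [hd, hdd] at h
  exact h

/-- Leibniz rule for the Laplacian. -/
theorem gcd_l_lap_mul (hS : Std m K N) {u v L M : X → ℝ} {B B' : ℝ}
    (hu : IsLaplacian m u L) (hv : IsLaplacian m v M) (hBu : AEBdd m u B) (hBv : AEBdd m v B)
    (hBu' : AEBdd m (weakGradient m u) B') (hBv' : AEBdd m (weakGradient m v) B') :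
    IsLaplacian m (fun x => u x * v x)
      (fun x => u x * M x + v x * L x + 2 * gamma m u v x) := by
  have hlu : LocalSobolev m u := hu.1.2.1
  have hlv : LocalSobolev m v := hv.1.2.1
  have hs := gcd_l_isLaplacian_add hS hu hv
  have hd := gcd_l_isLaplacian_sub hS hu hv
  have hBs : AEBdd m (fun x => u x + v x) (2 * B) := by
    filter_upwards [hBu, hBv] with x h1 h2
    have := abs_add_le (u x) (v x)
    linarith
  have hBd : AEBdd m (fun x => u x - v x) (2 * B) := by
    filter_upwards [hBu, hBv] with x h1 h2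
    have := abs_sub (u x) (v x)
    linarith
  have hBs' : AEBdd m (weakGradient m (fun x => u x + v x)) (2 * B') := by
    filter_upwards [hBu', hBv', gcd_need_wg_add_le hS hlu hlv,
      gcd_need_wg_nonneg (m := m) (fun x => u x + v x)] with x h1 h2 h3 h4
    rw [abs_of_nonneg h4]
    have := le_abs_self (weakGradient m u x)
    have := le_abs_self (weakGradient m v x)
    linarith
  have hBd' : AEBdd m (weakGradient m (fun x => u x - v x)) (2 * B') := by
    filter_upwards [hBu', hBv', gcd_need_wg_sub_le hS hlu hlv,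
      gcd_need_wg_nonneg (m := m) (fun x => u x - v x)] with x h1 h2 h3 h4
    rw [abs_of_nonneg h4]
    have := le_abs_self (weakGradient m u x)
    have := le_abs_self (weakGradient m v x)
    linarith
  have hsq_s := gcd_l_lap_sq hS hs hBs hBs'
  have hsq_d := gcd_l_lap_sq hS hd hBd hBd'
  have hfin := gcd_l_isLaplacian_smul hS (1 / 4) (gcd_l_isLaplacian_sub hS hsq_s hsq_d)
  refine gcd_l_isLaplacian_congr hS ?_ ?_ hfin
  · exact Filter.Eventually.of_forall (fun x => by
      show 1 / 4 * ((u x + v x) ^ 2 - (u x - v x) ^ 2) = u x * v x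
      ring)
  · filter_upwards [gcd_need_gamma_self hS hs.1.2.1, gcd_need_gamma_self hS hd.1.2.1]
      with x h1 h2
    show 1 / 4 * (2 * (u x + v x) * (L x + M x) +
        2 * gamma m (fun x => u x + v x) (fun x => u x + v x) x -
      (2 * (u x - v x) * (L x - M x) +
        2 * gamma m (fun x => u x - v x) (fun x => u x - v x) x)) =
      u x * M x + v x * L x + 2 * gamma m u v x
    rw [h1, h2]
    simp only [gamma]
    ring

end

end Claimed.Agent.R210.GCD.Chain
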