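/-
Row 210 (S0432), layer GCD.  `Res.lean`: the resolvent `Defs2.resF m δ f = (1 - δΔ)⁻¹ f` at function level.
Leaves (each `sorry` = one small task).  Consumers: cite `GCD/Ifc*.lean`, not this file.
-/
import Claimed.Agent.R210.GCD.Lap

set_option autoImplicit false
set_option linter.unusedSectionVars false
set_option linter.unusedVariables false

open Claims.C0366 Claims.C0366.WeakHessian
open Set Filter MeasureTheory
open scoped ENNReal NNReal Topology RealInnerProductSpace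

namespace Claimed.Agent.R210.GCD.Res

open Claimed.Agent.R210.Defs Claimed.Agent.R210.Defs2 Claimed.Agent.R210.HS.Defs
open Claimed.Agent.R210.GCD.Need Claimed.Agent.R210.GCD.Dict

noncomputable section

variable {X : Type*} [MetricSpace X] [MeasurableSpace X] [BorelSpace X] [CompleteSpace X]
  [TopologicalSpace.SeparableSpace X] [ProperSpace X] {m : Measure X} {K N : ℝ}

open Claimed.Agent.R210.GCD.Lap

/-! ### A. spec and uniqueness -/

theorem gcd_l_resF_spec (hS : Std m K N) {δ : ℝ} (hδ : 0 < δ) {f : X → ℝ} (hf : MemLp f 2 m) :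
    IsLaplacian m (resF m δ f) (fun x => (resF m δ f x - f x) / δ) := by
  have hu : MemLp (resF m δ f) 2 m := gcd_l_resF_memLp δ f
  have hL : MemLp (fun x => (resF m δ f x - f x) / δ) 2 m := gcd_l_memLp_div δ (gcd_l_memLp_sub hu hf)
  rw [gcd_l_isLaplacian_iff_isGen hS hu hL]
  have e : hL.toLp (fun x => (resF m δ f x - f x) / δ) = δ⁻¹ • (hu.toLp (resF m δ f) - hf.toLp f) := by
    rw [← gcd_l_toLp_sub hu hf]
    exact gcd_l_toLp_div δ (gcd_l_memLp_sub hu hf)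
  rw [e, gcd_l_resF_toLp hf δ]
  exact (gcd_need_hs_prox_iff (gcd_need_qform hS) hδ (hf.toLp f) _).1 rfl

theorem gcd_l_resF_sobolev (hS : Std m K N) {δ : ℝ} (hδ : 0 < δ) {f : X → ℝ}
    (hf : MemLp f 2 m) : Sobolev m (resF m δ f) :=
  (gcd_l_resF_spec hS hδ hf).1

theorem gcd_l_resF_laplacian (hS : Std m K N) {δ : ℝ} (hδ : 0 < δ) {f : X → ℝ}
    (hf : MemLp f 2 m) :
    laplacian m (resF m δ f) =ᵐ[m] fun x => (resF m δ f x - f x) / δ :=
  gcd_l_laplacian_eq hS (gcd_l_resF_spec hS hδ hf)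

/-- weak formulation of `u - δΔu = f`. -/
theorem gcd_l_resF_weak (hS : Std m K N) {δ : ℝ} (hδ : 0 < δ) {f v : X → ℝ} (hf : MemLp f 2 m)
    (hv : Sobolev m v) :
    ∫ x, resF m δ f x * v x ∂m + δ * form m (resF m δ f) v = ∫ x, f x * v x ∂m := by
  have hu : MemLp (resF m δ f) 2 m := gcd_l_resF_memLp δ f
  have h := (gcd_l_resF_spec hS hδ hf).2.2 v hv
  have h1 : ∫ x, (resF m δ f x - f x) / δ * v x ∂m
      = δ⁻¹ * (∫ x, resF m δ f x * v x ∂m - ∫ x, f x * v x ∂m) := by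
    rw [← integral_sub (gcd_l_integrable_mul hu hv.1) (gcd_l_integrable_mul hf hv.1), ← integral_const_mul]
    refine integral_congr_ae (Eventually.of_forall fun x => ?_)
    simp only
    ring
  unfold form
  rw [h, h1]
  field_simp
  ring

theorem gcd_l_resF_unique (hS : Std m K N) {δ : ℝ} (hδ : 0 < δ) {f u L : X → ℝ}
    (h : IsLaplacian m u L) (he : ∀ᵐ x ∂m, u x - δ * L x = f x) : u =ᵐ[m] resF m δ f := by
  have hu : MemLp u 2 m := h.1.1
  have hL : MemLp L 2 m := h.2.1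
  have hg : MemLp (fun x => u x - δ * L x) 2 m := gcd_l_memLp_sub hu (gcd_l_memLp_smul δ hL)
  have hf : MemLp f 2 m := (memLp_congr_ae he).1 hg
  have h1 := (gcd_l_isLaplacian_iff_isGen hS hu hL).1 h
  have e1 : hf.toLp f = hu.toLp u - δ • hL.toLp L := by
    rw [← gcd_l_toLp_smul δ hL, ← gcd_l_toLp_sub hu (gcd_l_memLp_smul δ hL)]
    exact (gcd_l_toLp_eq_iff hf _).2 (he.mono fun x hx => hx.symm)
  have e2 : hL.toLp L = δ⁻¹ • (hu.toLp u - hf.toLp f) := by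
    rw [e1, sub_sub_cancel, smul_smul, inv_mul_cancel₀ hδ.ne', one_smul]
  rw [e2] at h1
  have h2 := (gcd_need_hs_prox_iff (gcd_need_qform hS) hδ (hf.toLp f) _).2 h1
  rw [← gcd_l_resF_toLp hf δ] at h2
  exact (gcd_l_toLp_eq_iff hu _).1 h2

/-- uniqueness from the weak formulation, tested with `LipC` only. -/
theorem gcd_l_resF_unique_weak (hS : Std m K N) {δ : ℝ} (hδ : 0 < δ) {f u : X → ℝ}
    (hf : MemLp f 2 m) (hu : Sobolev m u)
    (h : ∀ v : X → ℝ, LipC v → ∫ x, u x * v x ∂m + δ * form m u v = ∫ x, f x * v x ∂m) :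
    u =ᵐ[m] resF m δ f := by
  have hL : MemLp (fun x => (u x - f x) / δ) 2 m := gcd_l_memLp_div δ (gcd_l_memLp_sub hu.1 hf)
  have hlap : IsLaplacian m u (fun x => (u x - f x) / δ) := by
    refine gcd_l_isLaplacian_of_lipC hS hu hL fun v hv => ?_
    have hv2 : MemLp v 2 m := (gcd_need_lipC_sobolev hS hv).1
    have h1 : ∫ x, (u x - f x) / δ * v x ∂m = δ⁻¹ * (∫ x, u x * v x ∂m - ∫ x, f x * v x ∂m) := by
      rw [← integral_sub (gcd_l_integrable_mul hu.1 hv2) (gcd_l_integrable_mul hf hv2), ← integral_const_mul]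
      refine integral_congr_ae (Eventually.of_forall fun x => ?_)
      simp only
      ring
    have h2 := h v hv
    unfold form at h2
    rw [h1, ← h2]
    field_simp
    ring
  refine gcd_l_resF_unique hS hδ hlap (Eventually.of_forall fun x => ?_)
  field_simp
  ring

/-! ### B. linearity, symmetry, contraction -/

theorem gcd_l_resF_add (hS : Std m K N) {δ : ℝ} (hδ : 0 < δ) {f g : X → ℝ} (hf : MemLp f 2 m)
    (hg : MemLp g 2 m) :
    resF m δ (fun x => f x + g x) =ᵐ[m] fun x => resF m δ f x + resF m δ g x := by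
  have hQ := gcd_need_qform hS
  rw [← gcd_l_toLp_eq_iff (gcd_l_resF_memLp δ _)
    (gcd_l_memLp_add (gcd_l_resF_memLp δ f) (gcd_l_resF_memLp δ g)),
    gcd_l_toLp_add (gcd_l_resF_memLp δ f) (gcd_l_resF_memLp δ g),
    gcd_l_resF_toLp (gcd_l_memLp_add hf hg), gcd_l_resF_toLp hf, gcd_l_resF_toLp hg,
    gcd_l_toLp_add hf hg, gcd_need_hs_prox_add hQ hδ]

theorem gcd_l_resF_sub (hS : Std m K N) {δ : ℝ} (hδ : 0 < δ) {f g : X → ℝ} (hf : MemLp f 2 m)
    (hg : MemLp g 2 m) :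
    resF m δ (fun x => f x - g x) =ᵐ[m] fun x => resF m δ f x - resF m δ g x := by
  have hQ := gcd_need_qform hS
  rw [← gcd_l_toLp_eq_iff (gcd_l_resF_memLp δ _)
    (gcd_l_memLp_sub (gcd_l_resF_memLp δ f) (gcd_l_resF_memLp δ g)),
    gcd_l_toLp_sub (gcd_l_resF_memLp δ f) (gcd_l_resF_memLp δ g),
    gcd_l_resF_toLp (gcd_l_memLp_sub hf hg), gcd_l_resF_toLp hf, gcd_l_resF_toLp hg,
    gcd_l_toLp_sub hf hg, sub_eq_add_neg (hf.toLp f), gcd_need_hs_prox_add hQ hδ,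
    ← neg_one_smul ℝ (hg.toLp g), gcd_need_hs_prox_smul hQ hδ, neg_one_smul, ← sub_eq_add_neg]

theorem gcd_l_resF_smul (hS : Std m K N) {δ : ℝ} (hδ : 0 < δ) (c : ℝ) {f : X → ℝ}
    (hf : MemLp f 2 m) :
    resF m δ (fun x => c * f x) =ᵐ[m] fun x => c * resF m δ f x := by
  have hQ := gcd_need_qform hS
  rw [← gcd_l_toLp_eq_iff (gcd_l_resF_memLp δ _) (gcd_l_memLp_smul c (gcd_l_resF_memLp δ f)),
    gcd_l_toLp_smul c (gcd_l_resF_memLp δ f), gcd_l_resF_toLp (gcd_l_memLp_smul c hf),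
    gcd_l_resF_toLp hf, gcd_l_toLp_smul c hf, gcd_need_hs_prox_smul hQ hδ]

theorem gcd_l_resF_symm (hS : Std m K N) {δ : ℝ} (hδ : 0 < δ) {f g : X → ℝ} (hf : MemLp f 2 m)
    (hg : MemLp g 2 m) : ∫ x, resF m δ f x * g x ∂m = ∫ x, f x * resF m δ g x ∂m := by
  have hQ := gcd_need_qform hS
  rw [← gcd_l_inner_toLp (gcd_l_resF_memLp δ f) hg, ← gcd_l_inner_toLp hf (gcd_l_resF_memLp δ g),
    gcd_l_resF_toLp hf, gcd_l_resF_toLp hg, gcd_need_hs_prox_symm hQ hδ]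

theorem gcd_l_resF_eLpNorm_le (hS : Std m K N) {δ : ℝ} (hδ : 0 < δ) {f : X → ℝ}
    (hf : MemLp f 2 m) : eLpNorm (resF m δ f) 2 m ≤ eLpNorm f 2 m := by
  have hQ := gcd_need_qform hS
  have h := gcd_need_hs_prox_norm_le hQ hδ (hf.toLp f)
  rw [← gcd_l_resF_toLp hf, Lp.norm_toLp, Lp.norm_toLp] at h
  exact (ENNReal.toReal_le_toReal (gcd_l_resF_memLp δ f).2.ne hf.2.ne).1 h

theorem gcd_l_resF_sq_le (hS : Std m K N) {δ : ℝ} (hδ : 0 < δ) {f : X → ℝ}
    (hf : MemLp f 2 m) : ∫ x, resF m δ f x ^ 2 ∂m ≤ ∫ x, f x ^ 2 ∂m := by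
  have hQ := gcd_need_qform hS
  have h := gcd_need_hs_prox_norm_le hQ hδ (hf.toLp f)
  rw [← gcd_l_resF_toLp hf] at h
  rw [← gcd_l_norm_sq_toLp (gcd_l_resF_memLp δ f), ← gcd_l_norm_sq_toLp hf]
  exact pow_le_pow_left₀ (norm_nonneg _) h 2

/-- `∫u² + δ E(u) = ∫ f u`, hence `δ E(u) ≤ ∫ f²`. -/
theorem gcd_l_resF_energy_bound (hS : Std m K N) {δ : ℝ} (hδ : 0 < δ) {f : X → ℝ}
    (hf : MemLp f 2 m) : δ * energy m (resF m δ f) ≤ ∫ x, f x ^ 2 ∂m := by
  have hQ := gcd_need_qform hS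
  have hu := gcd_l_resF_sobolev hS hδ hf
  have hw := gcd_l_resF_weak hS hδ hf hu
  rw [gcd_l_form_self hS hu] at hw
  have h0 : 0 ≤ ∫ x, resF m δ f x * resF m δ f x ∂m := integral_nonneg fun x => mul_self_nonneg _
  have hn := gcd_need_hs_prox_norm_le hQ hδ (hf.toLp f)
  rw [← gcd_l_resF_toLp hf] at hn
  have h1 : ∫ x, f x * resF m δ f x ∂m ≤ ∫ x, f x ^ 2 ∂m := by
    rw [← gcd_l_inner_toLp hf (gcd_l_resF_memLp δ f), ← gcd_l_norm_sq_toLp hf]
    calc ⟪hf.toLp f, (gcd_l_resF_memLp δ f).toLp (resF m δ f)⟫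
        ≤ ‖hf.toLp f‖ * ‖(gcd_l_resF_memLp δ f).toLp (resF m δ f)‖ := real_inner_le_norm _ _
      _ ≤ ‖hf.toLp f‖ * ‖hf.toLp f‖ := mul_le_mul_of_nonneg_left hn (norm_nonneg _)
      _ = ‖hf.toLp f‖ ^ 2 := (sq _).symm
  linarith

theorem gcd_l_resF_energy_le (hS : Std m K N) {δ : ℝ} (hδ : 0 < δ) {f : X → ℝ}
    (hf : Sobolev m f) : energy m (resF m δ f) ≤ energy m f := by
  have hQ := gcd_need_qform hS
  have hu := gcd_l_resF_sobolev hS hδ hf.1
  have h := gcd_need_hs_prox_Q_le hQ hδ (hf.1.toLp f)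
  rw [← gcd_l_resF_toLp hf.1, gcd_l_ChL2_eq hS hf] at h
  have h2 := gcd_l_ChL2_eq hS hu
  rw [h2] at h
  have h3 : 0 ≤ energy m f / 2 := div_nonneg (gcd_l_energy_nonneg f) (by norm_num)
  have h4 := (ENNReal.ofReal_le_ofReal_iff h3).1 h
  linarith

/-! ### C. convergence as `δ → 0`, form domain criterion -/

theorem gcd_l_resF_tendsto_L2 (hS : Std m K N) {f : X → ℝ} (hf : MemLp f 2 m) :
    Tendsto (fun δ : ℝ => eLpNorm (fun x => resF m δ f x - f x) 2 m) (𝓝[>] 0) (𝓝 0) := by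
  rw [← gcd_l_tendsto_toLp_iff (F := fun δ : ℝ => resF m δ f) (fun δ => gcd_l_resF_memLp δ f) hf]
  have h := gcd_need_hs_prox_tendsto (gcd_need_qform hS) (hf.toLp f)
  refine h.congr fun δ => ?_
  exact (gcd_l_resF_toLp hf δ).symm

theorem gcd_l_resF_tendsto_energy (hS : Std m K N) {f : X → ℝ} (hf : Sobolev m f) :
    Tendsto (fun δ : ℝ => energy m (fun x => resF m δ f x - f x)) (𝓝[>] 0) (𝓝 0) := by
  have hF : ∀ δ : ℝ, MemLp (fun x => resF m δ f x - f x) 2 m :=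
    fun δ => gcd_l_memLp_sub (gcd_l_resF_memLp δ f) hf.1
  have hF' : ∀ᶠ δ : ℝ in 𝓝[>] 0, Sobolev m (fun x => resF m δ f x - f x) := by
    filter_upwards [self_mem_nhdsWithin] with δ hδ
    exact gcd_l_sobolev_sub hS (gcd_l_resF_sobolev hS hδ hf.1) hf
  rw [← gcd_l_tendsto_energy_iff hS (F := fun δ : ℝ => fun x => resF m δ f x - f x) hF hF']
  have h := gcd_need_hs_prox_tendsto_Q (gcd_need_qform hS) ((gcd_l_sobolev_iff_ChL2 hS hf.1).1 hf)
  refine h.congr fun δ => ?_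
  have e : (hF δ).toLp (fun x => resF m δ f x - f x)
      = (gcd_l_resF_memLp δ f).toLp (resF m δ f) - hf.1.toLp f :=
    gcd_l_toLp_sub (gcd_l_resF_memLp δ f) hf.1
  rw [e, gcd_l_resF_toLp hf.1 δ]

theorem gcd_l_aux_inner_res {f : X → ℝ} (hf : MemLp f 2 m) (δ : ℝ) :
    ⟪hf.toLp f - prox (ChL2 m) δ (hf.toLp f), hf.toLp f⟫ = ∫ x, (f x - resF m δ f x) * f x ∂m := by
  rw [← gcd_l_resF_toLp hf δ, ← gcd_l_toLp_sub hf (gcd_l_resF_memLp δ f), gcd_l_inner_toLp]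

theorem gcd_l_resF_quot_le (hS : Std m K N) {δ : ℝ} (hδ : 0 < δ) {f : X → ℝ}
    (hf : Sobolev m f) : δ⁻¹ * ∫ x, (f x - resF m δ f x) * f x ∂m ≤ energy m f := by
  have h := gcd_need_hs_prox_quot_le (gcd_need_qform hS) hδ ((gcd_l_sobolev_iff_ChL2 hS hf.1).1 hf)
  rw [← gcd_l_energy_eq_bil hS hf, gcd_l_aux_inner_res hf.1 δ] at h
  exact h

theorem gcd_l_resF_quot_tendsto (hS : Std m K N) {f : X → ℝ} (hf : Sobolev m f) :
    Tendsto (fun δ : ℝ => δ⁻¹ * ∫ x, (f x - resF m δ f x) * f x ∂m) (𝓝[>] 0)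
      (𝓝 (energy m f)) := by
  have h := gcd_need_hs_prox_quot_tendsto (gcd_need_qform hS) ((gcd_l_sobolev_iff_ChL2 hS hf.1).1 hf)
  rw [← gcd_l_energy_eq_bil hS hf] at h
  refine h.congr fun δ => ?_
  rw [gcd_l_aux_inner_res hf.1 δ]

/-- form domain criterion. -/
theorem gcd_l_resF_crit (hS : Std m K N) {f : X → ℝ} (hf : MemLp f 2 m) {C : ℝ}
    (h : ∀ᶠ δ : ℝ in 𝓝[>] 0, δ⁻¹ * ∫ x, (f x - resF m δ f x) * f x ∂m ≤ C) :
    Sobolev m f ∧ energy m f ≤ C := by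
  have h' : ∀ᶠ δ : ℝ in 𝓝[>] 0,
      δ⁻¹ * ⟪hf.toLp f - prox (ChL2 m) δ (hf.toLp f), hf.toLp f⟫ ≤ C := by
    filter_upwards [h] with δ hδ
    rw [gcd_l_aux_inner_res hf δ]
    exact hδ
  have h1 := gcd_need_hs_prox_crit (gcd_need_qform hS) h'
  have hs : Sobolev m f :=
    (gcd_l_sobolev_iff_ChL2 hS hf).2 (lt_of_le_of_lt h1 ENNReal.ofReal_lt_top)
  exact ⟨hs, le_of_tendsto (gcd_l_resF_quot_tendsto hS hs) h⟩

/-! ### D. commutation -/

theorem gcd_l_resF_comm (hS : Std m K N) {δ δ' : ℝ} (hδ : 0 < δ) (hδ' : 0 < δ') {f : X → ℝ}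
    (hf : MemLp f 2 m) : resF m δ (resF m δ' f) = resF m δ' (resF m δ f) := by
  rw [gcd_l_resF_eq (gcd_l_resF_memLp δ' f) δ, gcd_l_resF_eq (gcd_l_resF_memLp δ f) δ',
    gcd_l_resF_toLp hf δ', gcd_l_resF_toLp hf δ, gcd_need_hs_prox_comm (gcd_need_qform hS) hδ hδ']

theorem gcd_l_resF_lap (hS : Std m K N) {δ : ℝ} (hδ : 0 < δ) {u L : X → ℝ}
    (h : IsLaplacian m u L) : IsLaplacian m (resF m δ u) (resF m δ L) := by
  have hu : MemLp u 2 m := h.1.1
  have hL : MemLp L 2 m := h.2.1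
  have h1 := (gcd_l_isLaplacian_iff_isGen hS hu hL).1 h
  have h2 := gcd_need_hs_prox_gen (gcd_need_qform hS) hδ h1
  rw [gcd_l_isLaplacian_iff_isGen hS (gcd_l_resF_memLp δ u) (gcd_l_resF_memLp δ L),
    gcd_l_resF_toLp hu, gcd_l_resF_toLp hL]
  exact h2

/-! ### E. sub-Markov property (from HF1) -/

theorem gcd_l_resF_le (hS : Std m K N) {δ C : ℝ} (hδ : 0 < δ) (hC : 0 ≤ C) {f : X → ℝ}
    (hf : MemLp f 2 m) (h : ∀ᵐ x ∂m, f x ≤ C) : ∀ᵐ x ∂m, resF m δ f x ≤ C :=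
  gcd_need_hf_res_le hS hδ hC hf h

theorem gcd_l_resF_L1 (hS : Std m K N) {δ : ℝ} (hδ : 0 < δ) {f : X → ℝ}
    (hf : MemLp f 2 m) (hf1 : Integrable f m) :
    Integrable (resF m δ f) m ∧ ∫ x, |resF m δ f x| ∂m ≤ ∫ x, |f x| ∂m :=
  gcd_need_hf_res_L1 hS hδ hf hf1

theorem gcd_l_resF_nonneg (hS : Std m K N) {δ : ℝ} (hδ : 0 < δ) {f : X → ℝ}
    (hf : MemLp f 2 m) (h : ∀ᵐ x ∂m, 0 ≤ f x) : ∀ᵐ x ∂m, 0 ≤ resF m δ f x := by
  have h1 : ∀ᵐ x ∂m, resF m δ (fun x => (-1 : ℝ) * f x) x ≤ 0 :=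
    gcd_l_resF_le hS hδ le_rfl (hf.const_mul (-1)) (by filter_upwards [h] with x hx; linarith)
  filter_upwards [h1, gcd_l_resF_smul hS hδ (-1) hf] with x hx hx2
  rw [hx2] at hx
  linarith

theorem gcd_l_resF_mono (hS : Std m K N) {δ : ℝ} (hδ : 0 < δ) {f g : X → ℝ}
    (hf : MemLp f 2 m) (hg : MemLp g 2 m) (h : ∀ᵐ x ∂m, f x ≤ g x) :
    ∀ᵐ x ∂m, resF m δ f x ≤ resF m δ g x := by
  have h1 : ∀ᵐ x ∂m, 0 ≤ resF m δ (fun x => g x - f x) x :=
    gcd_l_resF_nonneg hS hδ (hg.sub hf) (by filter_upwards [h] with x hx; linarith)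
  filter_upwards [h1, gcd_l_resF_sub hS hδ hg hf] with x hx hx2
  rw [hx2] at hx
  linarith

theorem gcd_l_resF_aebdd (hS : Std m K N) {δ B : ℝ} (hδ : 0 < δ) {f : X → ℝ}
    (hf : MemLp f 2 m) (h : AEBdd m f B) : AEBdd m (resF m δ f) B := by
  unfold AEBdd at h ⊢
  rcases lt_or_ge B 0 with hB | hB
  · filter_upwards [h] with x hx
    exact absurd (lt_of_le_of_lt hx hB) (not_lt.2 (abs_nonneg _))
  · have h1 : ∀ᵐ x ∂m, resF m δ f x ≤ B :=
      gcd_l_resF_le hS hδ hB hf (by filter_upwards [h] with x hx using (abs_le.1 hx).2)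
    have h2 : ∀ᵐ x ∂m, resF m δ (fun x => (-1 : ℝ) * f x) x ≤ B :=
      gcd_l_resF_le hS hδ hB (hf.const_mul (-1))
        (by filter_upwards [h] with x hx; linarith [(abs_le.1 hx).1])
    filter_upwards [h1, h2, gcd_l_resF_smul hS hδ (-1) hf] with x hx1 hx2 hx3
    rw [hx3] at hx2
    exact abs_le.2 ⟨by linarith, hx1⟩

/-! ### F. weighted bounds, mass, nice densities (from HF1, HF2, HF3) -/

theorem gcd_l_resF_weight (hS : Std m K N) (o : X) {a δ : ℝ} (ha : 0 ≤ a) (hδ : 0 < δ)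
    (hδa : 4 * δ * a ^ 2 ≤ 1) {f : X → ℝ} (hf : MemLp f 2 m)
    (hw : Integrable (fun x => Real.exp (2 * a * dist x o) * f x ^ 2) m) :
    Integrable (fun x => Real.exp (2 * a * dist x o) * resF m δ f x ^ 2) m ∧
      ∫ x, Real.exp (2 * a * dist x o) * resF m δ f x ^ 2 ∂m ≤
        Real.exp (8 * a ^ 2 * δ) * ∫ x, Real.exp (2 * a * dist x o) * f x ^ 2 ∂m :=
  gcd_need_hf_res_weight hS o ha hδ hδa hf hw

theorem gcd_l_resF_weight_grad (hS : Std m K N) (o : X) {a δ : ℝ} (ha : 0 ≤ a)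
    (hδ : 0 < δ) (hδa : 4 * δ * a ^ 2 ≤ 1) {f : X → ℝ} (hf : MemLp f 2 m)
    (hw : Integrable (fun x => Real.exp (2 * a * dist x o) * f x ^ 2) m) :
    Integrable (fun x => Real.exp (2 * a * dist x o) * weakGradient m (resF m δ f) x ^ 2) m ∧
      δ * ∫ x, Real.exp (2 * a * dist x o) * weakGradient m (resF m δ f) x ^ 2 ∂m ≤
        4 * ∫ x, Real.exp (2 * a * dist x o) * f x ^ 2 ∂m :=
  gcd_need_hf_res_weight_grad hS o ha hδ hδa hf hw

theorem gcd_l_resF_mass (hS : Std m K N) (o : X) {a δ : ℝ} (ha : GoodExp m o a)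
    (hδ : 0 < δ) (hδa : 4 * δ * a ^ 2 ≤ 1) {f : X → ℝ} (hf : MemLp f 2 m)
    (hw : Integrable (fun x => Real.exp (2 * a * dist x o) * f x ^ 2) m) :
    Integrable f m ∧ Integrable (resF m δ f) m ∧ ∫ x, resF m δ f x ∂m = ∫ x, f x ∂m :=
  gcd_need_hf_res_mass hS o ha hδ hδa hf hw

theorem gcd_l_niceDens_memLp {o : X} {a B : ℝ} {ρ : X → ℝ} (hρ : NiceDens m o a B ρ) :
    MemLp ρ 2 m := by
  rw [memLp_two_iff_integrable_sq hρ.meas]
  refine Integrable.mono' (hρ.int.const_mul B) (hρ.meas.pow 2) ?_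
  filter_upwards [hρ.nonneg, hρ.le] with x h0 hB
  rw [Real.norm_eq_abs, abs_of_nonneg (by positivity), pow_two]
  exact mul_le_mul_of_nonneg_right hB h0

theorem gcd_l_aux_niceDens_B_nonneg {o : X} {a B : ℝ} {ρ : X → ℝ}
    (hρ : NiceDens m o a B ρ) : 0 ≤ B := by
  by_contra hB
  rw [not_le] at hB
  have h0 : ρ =ᵐ[m] 0 := by
    filter_upwards [hρ.nonneg, hρ.le] with x h0 h1
    exact absurd (h0.trans h1) (not_le.2 hB)
  have h1 := hρ.mass
  rw [integral_congr_ae h0] at h1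
  simp at h1

theorem gcd_l_resF_niceDens (hS : Std m K N) (o : X) {a δ B : ℝ} (ha : GoodExp m o a)
    (hδ : 0 < δ) (hδa : 4 * δ * a ^ 2 ≤ 1) {ρ : X → ℝ} (hρ : NiceDens m o a B ρ) :
    NiceDens m o a B (resF m δ ρ) := by
  have h2 : MemLp ρ 2 m := gcd_l_niceDens_memLp hρ
  have hm := gcd_l_resF_mass hS o ha hδ hδa h2 hρ.tail
  exact
    { meas := (gcd_l_resF_memLp δ ρ).1
      nonneg := gcd_l_resF_nonneg hS hδ h2 hρ.nonneg
      le := gcd_l_resF_le hS hδ (gcd_l_aux_niceDens_B_nonneg hρ) h2 hρ.le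
      int := hm.2.1
      mass := hm.2.2.trans hρ.mass
      tail := (gcd_l_resF_weight hS o ha.1.le hδ hδa h2 hρ.tail).1 }

/-! ### G. continuity in the datum; integration by parts against bounded Lipschitz functions -/

theorem gcd_l_resF_tendsto_datum (hS : Std m K N) {δ : ℝ} (hδ : 0 < δ) {ι : Type*}
    {l : Filter ι} {F : ι → X → ℝ} {f : X → ℝ} (hF : ∀ i, MemLp (F i) 2 m) (hf : MemLp f 2 m)
    (h : Tendsto (fun i => eLpNorm (fun x => F i x - f x) 2 m) l (𝓝 0)) :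
    Tendsto (fun i => eLpNorm (fun x => resF m δ (F i) x - resF m δ f x) 2 m) l (𝓝 0) := by
  refine tendsto_of_tendsto_of_tendsto_of_le_of_le tendsto_const_nhds h (fun _ => bot_le) ?_
  intro i
  have hd : MemLp (fun x => F i x - f x) 2 m := (hF i).sub hf
  have e := gcd_l_resF_sub hS hδ (hF i) hf
  show eLpNorm (fun x => resF m δ (F i) x - resF m δ f x) 2 m ≤ eLpNorm (fun x => F i x - f x) 2 m
  rw [← eLpNorm_congr_ae e]
  exact gcd_l_resF_eLpNorm_le hS hδ hd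

theorem gcd_l_resF_tendsto_datum_energy (hS : Std m K N) {δ : ℝ} (hδ : 0 < δ) {ι : Type*}
    {l : Filter ι} {F : ι → X → ℝ} {f : X → ℝ} (hF : ∀ i, MemLp (F i) 2 m) (hf : MemLp f 2 m)
    (h : Tendsto (fun i => eLpNorm (fun x => F i x - f x) 2 m) l (𝓝 0)) :
    Tendsto (fun i => energy m (fun x => resF m δ (F i) x - resF m δ f x)) l (𝓝 0) := by
  have hd : ∀ i, MemLp (fun x => F i x - f x) 2 m := fun i => (hF i).sub hf
  have h2 : Tendsto (fun i => ∫ x, (F i x - f x) ^ 2 ∂m) l (𝓝 0) := (gcd_l_tendsto_L2_iff hd).1 h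
  have h3 : Tendsto (fun i => (∫ x, (F i x - f x) ^ 2 ∂m) / δ) l (𝓝 0) := by
    simpa using h2.div_const δ
  refine tendsto_of_tendsto_of_tendsto_of_le_of_le tendsto_const_nhds h3
    (fun _ => gcd_l_energy_nonneg _) ?_
  intro i
  show energy m (fun x => resF m δ (F i) x - resF m δ f x) ≤ (∫ x, (F i x - f x) ^ 2 ∂m) / δ
  rw [← gcd_l_energy_congr (gcd_l_resF_sub hS hδ (hF i) hf), le_div_iff₀ hδ, mul_comm]
  exact gcd_l_resF_energy_bound hS hδ (hd i)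

theorem gcd_l_aux_exp_neg_integrable (o : X) {a : ℝ} (ha : GoodExp m o a) :
    Integrable (fun x => Real.exp (-(2 * a * dist x o))) m := by
  refine Integrable.mono' ha.2 ?_ ?_
  · exact (Real.continuous_exp.comp
      ((continuous_const.mul (continuous_id.dist continuous_const)).neg)).aestronglyMeasurable
  · refine Filter.Eventually.of_forall fun x => ?_
    rw [Real.norm_eq_abs, abs_of_pos (Real.exp_pos _)]
    apply Real.exp_le_exp.2
    have h1 : 0 ≤ dist x o := dist_nonneg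
    have h2 := ha.1
    nlinarith

theorem gcd_l_resF_grad_L1 (hS : Std m K N) (o : X) {a δ : ℝ} (ha : GoodExp m o a)
    (hδ : 0 < δ) (hδa : 4 * δ * a ^ 2 ≤ 1) {f : X → ℝ} (hf : MemLp f 2 m)
    (hw : Integrable (fun x => Real.exp (2 * a * dist x o) * f x ^ 2) m) :
    Integrable (weakGradient m (resF m δ f)) m := by
  have h1 := (gcd_l_resF_weight_grad hS o ha.1.le hδ hδa hf hw).1
  have h2 := gcd_l_aux_exp_neg_integrable (m := m) o ha
  have hmeas : AEStronglyMeasurable (weakGradient m (resF m δ f)) m :=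
    (gcd_l_resF_sobolev hS hδ hf).2.2.aestronglyMeasurable
  refine Integrable.mono' ((h1.add h2).div_const 2) hmeas ?_
  filter_upwards [gcd_need_wg_nonneg (m := m) (resF m δ f)] with x hx
  rw [Real.norm_eq_abs, abs_of_nonneg hx]
  set G := weakGradient m (resF m δ f) x with hG
  set d := a * dist x o with hd
  have e1 : Real.exp (2 * a * dist x o) = Real.exp d * Real.exp d := by
    rw [← Real.exp_add]; congr 1; rw [hd]; ring
  have e2 : Real.exp (-(2 * a * dist x o)) = Real.exp (-d) * Real.exp (-d) := by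
    rw [← Real.exp_add]; congr 1; rw [hd]; ring
  have e3 : Real.exp d * Real.exp (-d) = 1 := by rw [← Real.exp_add]; simp
  show G ≤ (Real.exp (2 * a * dist x o) * G ^ 2 + Real.exp (-(2 * a * dist x o))) / 2
  rw [e1, e2]
  have key : 0 ≤ (Real.exp d * G - Real.exp (-d)) ^ 2 := sq_nonneg _
  have e4 : (Real.exp d * G - Real.exp (-d)) ^ 2
      = Real.exp d * Real.exp d * G ^ 2 + Real.exp (-d) * Real.exp (-d)
        - 2 * (Real.exp d * Real.exp (-d)) * G := by ring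
  rw [e4, e3] at key
  linarith

/-- weak formulation of `u - δΔu = f` tested with a bounded Lipschitz function. -/
theorem gcd_l_resF_weak_lipB (hS : Std m K N) (o : X) {a δ : ℝ} (ha : GoodExp m o a)
    (hδ : 0 < δ) (hδa : 4 * δ * a ^ 2 ≤ 1) {f v : X → ℝ} (hf : MemLp f 2 m)
    (hw : Integrable (fun x => Real.exp (2 * a * dist x o) * f x ^ 2) m) (hv : LipB v) :
    Integrable (gamma m (resF m δ f) v) m ∧
      ∫ x, resF m δ f x * v x ∂m + δ * ∫ x, gamma m (resF m δ f) v x ∂m =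
        ∫ x, f x * v x ∂m := by
  obtain ⟨hf1, hu1, -⟩ := gcd_l_resF_mass hS o ha hδ hδa hf hw
  have hL1 : Integrable (fun x => (resF m δ f x - f x) / δ) m := (hu1.sub hf1).div_const δ
  obtain ⟨hi, he⟩ := gcd_l_ibp_lipB hS (gcd_l_resF_spec hS hδ hf)
    (gcd_l_resF_grad_L1 hS o ha hδ hδa hf hw) hL1 hv
  refine ⟨hi, ?_⟩
  obtain ⟨⟨Lv, hLv⟩, ⟨B, hB⟩⟩ := hv
  have hvm : AEStronglyMeasurable v m := hLv.continuous.aestronglyMeasurable
  have hvb : ∀ᵐ x ∂m, ‖v x‖ ≤ B := Filter.Eventually.of_forall fun x => by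
    rw [Real.norm_eq_abs]; exact hB x
  have huv : Integrable (fun x => resF m δ f x * v x) m := hu1.mul_bdd hvm hvb
  have hfv : Integrable (fun x => f x * v x) m := hf1.mul_bdd hvm hvb
  rw [he]
  have e1 : ∫ x, (resF m δ f x - f x) / δ * v x ∂m
      = (∫ x, resF m δ f x * v x ∂m - ∫ x, f x * v x ∂m) / δ := by
    rw [← integral_sub huv hfv, ← integral_div]
    congr 1
    funext x
    ring
  rw [e1]
  field_simp
  ring

end

end Claimed.Agent.R210.GCD.Res
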