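/-
Row 210 (S0432), layer GCD.  `Heat.lean`: the heat flow `Defs2.heatF m t f = e^{tΔ} f` at function level
(`heatF m t f = f` a.e. for `t ≤ 0`).
Leaves (each `sorry` = one small task).  Consumers: cite `GCD/Ifc*.lean`, not this file.
-/
import Claimed.Agent.R210.GCD.Res

set_option autoImplicit false
set_option linter.unusedSectionVars false
set_option linter.unusedVariables false

open Claims.C0366 Claims.C0366.WeakHessian
open Set Filter MeasureTheory
open scoped ENNReal NNReal Topology RealInnerProductSpace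

namespace Claimed.Agent.R210.GCD.Heat

open Claimed.Agent.R210.Defs Claimed.Agent.R210.Defs2 Claimed.Agent.R210.HS.Defs
open Claimed.Agent.R210.GCD.Need Claimed.Agent.R210.GCD.Dict

noncomputable section

variable {X : Type*} [MetricSpace X] [MeasurableSpace X] [BorelSpace X] [CompleteSpace X]
  [TopologicalSpace.SeparableSpace X] [ProperSpace X] {m : Measure X} {K N : ℝ}

open Claimed.Agent.R210.GCD.Lap Claimed.Agent.R210.GCD.Res

/-! ### A. semigroup, linearity, symmetry, contraction, continuity -/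

theorem gcd_l_heatF_of_nonpos {t : ℝ} (ht : t ≤ 0) {f : X → ℝ} (hf : MemLp f 2 m) :
    heatF m t f =ᵐ[m] f := by
  rw [gcd_l_heatF_eq hf t]
  have h : flow (ChL2 m) t (hf.toLp f) = hf.toLp f := by
    unfold flow
    rw [if_pos ht]
  rw [h]
  exact gcd_l_coe_toLp hf

theorem gcd_l_heatF_add_time (hS : Std m K N) {s t : ℝ} (hs : 0 ≤ s) (ht : 0 ≤ t) {f : X → ℝ}
    (hf : MemLp f 2 m) : heatF m (s + t) f = heatF m s (heatF m t f) := by
  rw [gcd_l_heatF_eq hf (s + t), gcd_l_heatF_eq (gcd_l_heatF_memLp t f) s, gcd_l_heatF_toLp hf t,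
    gcd_need_hs_flow_add_time (gcd_need_qform hS) hs ht]

theorem gcd_l_heatF_add (hS : Std m K N) (t : ℝ) {f g : X → ℝ} (hf : MemLp f 2 m)
    (hg : MemLp g 2 m) :
    heatF m t (fun x => f x + g x) =ᵐ[m] fun x => heatF m t f x + heatF m t g x := by
  rw [← gcd_l_toLp_eq_iff (gcd_l_heatF_memLp t _)
    (gcd_l_memLp_add (gcd_l_heatF_memLp t f) (gcd_l_heatF_memLp t g)),
    gcd_l_heatF_toLp (gcd_l_memLp_add hf hg) t, gcd_l_toLp_add hf hg,
    gcd_l_toLp_add (gcd_l_heatF_memLp t f) (gcd_l_heatF_memLp t g), gcd_l_heatF_toLp hf t, gcd_l_heatF_toLp hg t, gcd_need_hs_flow_add (gcd_need_qform hS)]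

theorem gcd_l_heatF_sub (hS : Std m K N) (t : ℝ) {f g : X → ℝ} (hf : MemLp f 2 m)
    (hg : MemLp g 2 m) :
    heatF m t (fun x => f x - g x) =ᵐ[m] fun x => heatF m t f x - heatF m t g x := by
  rw [← gcd_l_toLp_eq_iff (gcd_l_heatF_memLp t _)
    (gcd_l_memLp_sub (gcd_l_heatF_memLp t f) (gcd_l_heatF_memLp t g)),
    gcd_l_heatF_toLp (gcd_l_memLp_sub hf hg) t, gcd_l_toLp_sub hf hg,
    gcd_l_toLp_sub (gcd_l_heatF_memLp t f) (gcd_l_heatF_memLp t g), gcd_l_heatF_toLp hf t, gcd_l_heatF_toLp hg t]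
  have h1 : hf.toLp f - hg.toLp g = hf.toLp f + (-1 : ℝ) • hg.toLp g := by
    rw [neg_one_smul, sub_eq_add_neg]
  rw [h1, gcd_need_hs_flow_add (gcd_need_qform hS), gcd_need_hs_flow_smul (gcd_need_qform hS),
    neg_one_smul, sub_eq_add_neg]

theorem gcd_l_heatF_smul (hS : Std m K N) (t : ℝ) (c : ℝ) {f : X → ℝ} (hf : MemLp f 2 m) :
    heatF m t (fun x => c * f x) =ᵐ[m] fun x => c * heatF m t f x := by
  rw [← gcd_l_toLp_eq_iff (gcd_l_heatF_memLp t _)
    (gcd_l_memLp_smul c (gcd_l_heatF_memLp t f)),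
    gcd_l_heatF_toLp (gcd_l_memLp_smul c hf) t, gcd_l_toLp_smul c hf,
    gcd_l_toLp_smul c (gcd_l_heatF_memLp t f), gcd_l_heatF_toLp hf t, gcd_need_hs_flow_smul (gcd_need_qform hS)]

theorem gcd_l_heatF_symm (hS : Std m K N) (t : ℝ) {f g : X → ℝ} (hf : MemLp f 2 m)
    (hg : MemLp g 2 m) : ∫ x, heatF m t f x * g x ∂m = ∫ x, f x * heatF m t g x ∂m := by
  rw [← gcd_l_inner_toLp (gcd_l_heatF_memLp t f) hg, ← gcd_l_inner_toLp hf (gcd_l_heatF_memLp t g),
    gcd_l_heatF_toLp hf t, gcd_l_heatF_toLp hg t, gcd_need_hs_flow_symm (gcd_need_qform hS)]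

theorem gcd_l_heatF_eLpNorm_le (hS : Std m K N) (t : ℝ) {f : X → ℝ} (hf : MemLp f 2 m) :
    eLpNorm (heatF m t f) 2 m ≤ eLpNorm f 2 m := by
  have h := gcd_need_hs_flow_norm_le (gcd_need_qform hS) t (hf.toLp f)
  rw [← gcd_l_heatF_toLp hf t, Lp.norm_toLp, Lp.norm_toLp] at h
  exact (ENNReal.toReal_le_toReal (gcd_l_heatF_memLp t f).eLpNorm_ne_top hf.eLpNorm_ne_top).mp h

theorem gcd_l_heatF_sq_le (hS : Std m K N) (t : ℝ) {f : X → ℝ} (hf : MemLp f 2 m) :
    ∫ x, heatF m t f x ^ 2 ∂m ≤ ∫ x, f x ^ 2 ∂m := by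
  rw [← gcd_l_norm_sq_toLp (gcd_l_heatF_memLp t f), ← gcd_l_norm_sq_toLp hf, gcd_l_heatF_toLp hf t]
  exact pow_le_pow_left₀ (norm_nonneg _) (gcd_need_hs_flow_norm_le (gcd_need_qform hS) t _) 2

/-- strong continuity in `L²` at every time. -/
theorem gcd_l_heatF_continuous (hS : Std m K N) {f : X → ℝ} (hf : MemLp f 2 m) (t₀ : ℝ) :
    Tendsto (fun t : ℝ => eLpNorm (fun x => heatF m t f x - heatF m t₀ f x) 2 m) (𝓝 t₀)
      (𝓝 0) := by
  have h1 := (gcd_need_hs_flow_continuous (gcd_need_qform hS) (hf.toLp f)).tendsto t₀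
  refine (gcd_l_tendsto_toLp_iff (F := fun t : ℝ => heatF m t f)
    (fun t => gcd_l_heatF_memLp t f) (gcd_l_heatF_memLp t₀ f)).1 ?_
  simp only [gcd_l_heatF_toLp hf]
  exact h1

theorem gcd_l_heatF_tendsto_zero (hS : Std m K N) {f : X → ℝ} (hf : MemLp f 2 m) :
    Tendsto (fun t : ℝ => eLpNorm (fun x => heatF m t f x - f x) 2 m) (𝓝 0) (𝓝 0) := by
  have h1 := gcd_l_heatF_continuous hS hf 0
  have h2 : ∀ t : ℝ, eLpNorm (fun x => heatF m t f x - heatF m 0 f x) 2 m =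
      eLpNorm (fun x => heatF m t f x - f x) 2 m := by
    intro t
    apply eLpNorm_congr_ae
    filter_upwards [gcd_l_heatF_of_nonpos (m := m) (le_refl (0 : ℝ)) hf] with x hx
    rw [hx]
  simpa only [h2] using h1

/-- weak continuity: `t ↦ ∫ H_t f · h` is continuous. -/
theorem gcd_l_heatF_continuous_inner (hS : Std m K N) {f h : X → ℝ} (hf : MemLp f 2 m)
    (hh : MemLp h 2 m) : Continuous (fun t : ℝ => ∫ x, heatF m t f x * h x ∂m) := by
  have h1 : (fun t : ℝ => ∫ x, heatF m t f x * h x ∂m) =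
      fun t : ℝ => ⟪flow (ChL2 m) t (hf.toLp f), hh.toLp h⟫ := by
    funext t
    rw [← gcd_l_heatF_toLp hf t, gcd_l_inner_toLp]
  rw [h1]
  exact (gcd_need_hs_flow_continuous (gcd_need_qform hS) (hf.toLp f)).inner continuous_const

/-! ### B. regularisation and time derivative -/

theorem gcd_l_heatF_inDomain (hS : Std m K N) {t : ℝ} (ht : 0 < t) {f : X → ℝ}
    (hf : MemLp f 2 m) : InLaplacianDomain m (heatF m t f) := by
  obtain ⟨w, hw, -, -⟩ := gcd_need_hs_flow_gen (gcd_need_qform hS) ht (hf.toLp f)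
  refine ⟨(w : X → ℝ), ?_⟩
  rw [gcd_l_heatF_eq hf t]
  exact (gcd_l_isLaplacian_coe hS _ w).2 hw

theorem gcd_l_heatF_sobolev (hS : Std m K N) {t : ℝ} (ht : 0 < t) {f : X → ℝ}
    (hf : MemLp f 2 m) : Sobolev m (heatF m t f) := by
  obtain ⟨L, hL⟩ := gcd_l_heatF_inDomain hS ht hf
  exact hL.1

theorem gcd_l_heatF_sobolev_of_sobolev (hS : Std m K N) (t : ℝ) {f : X → ℝ}
    (hf : Sobolev m f) : Sobolev m (heatF m t f) := by
  rcases le_or_gt t 0 with ht | ht
  · exact (gcd_l_sobolev_congr hS (gcd_l_heatF_of_nonpos ht hf.1)).2 hf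
  · exact gcd_l_heatF_sobolev hS ht hf.1

/-- derivative in the Hilbert space `Lp ℝ 2 m`. -/
theorem gcd_l_heatF_hasDerivAt_Lp (hS : Std m K N) {t : ℝ} (ht : 0 < t) {f : X → ℝ}
    (hf : MemLp f 2 m) :
    HasDerivAt (fun s : ℝ => flow (ChL2 m) s (hf.toLp f))
      ((gcd_l_laplacian_memLp (heatF m t f)).toLp (laplacian m (heatF m t f))) t := by
  obtain ⟨w, hw, hd, -⟩ := gcd_need_hs_flow_gen (gcd_need_qform hS) ht (hf.toLp f)
  have h1 : IsLaplacian m (heatF m t f) (w : X → ℝ) := by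
    rw [gcd_l_heatF_eq hf t]
    exact (gcd_l_isLaplacian_coe hS _ w).2 hw
  have h2 : (gcd_l_laplacian_memLp (heatF m t f)).toLp (laplacian m (heatF m t f)) = w := by
    rw [← gcd_l_toLp_coe w (Lp.memLp w)]
    exact (gcd_l_toLp_eq_iff _ _).2 (gcd_l_laplacian_eq hS h1)
  rw [h2]
  exact hd

/-- strong `L²` derivative, function level. -/
theorem gcd_l_heatF_deriv_L2 (hS : Std m K N) {t : ℝ} (ht : 0 < t) {f : X → ℝ}
    (hf : MemLp f 2 m) :
    Tendsto (fun s : ℝ => eLpNorm (fun x => (heatF m (t + s) f x - heatF m t f x) / s -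
      laplacian m (heatF m t f) x) 2 m) (𝓝[≠] 0) (𝓝 0) := by
  have h1 := hasDerivAt_iff_tendsto_slope_zero.1 (gcd_l_heatF_hasDerivAt_Lp hS ht hf)
  have hF : ∀ s : ℝ, MemLp (fun x => (heatF m (t + s) f x - heatF m t f x) / s) 2 m := fun s =>
    gcd_l_memLp_div s (gcd_l_memLp_sub (gcd_l_heatF_memLp (t + s) f) (gcd_l_heatF_memLp t f))
  refine (gcd_l_tendsto_toLp_iff
    (F := fun s : ℝ => fun x => (heatF m (t + s) f x - heatF m t f x) / s)
    hF (gcd_l_laplacian_memLp (heatF m t f))).1 ?_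
  have h2 : ∀ s : ℝ, (hF s).toLp (fun x => (heatF m (t + s) f x - heatF m t f x) / s) =
      s⁻¹ • (flow (ChL2 m) (t + s) (hf.toLp f) - flow (ChL2 m) t (hf.toLp f)) := by
    intro s
    rw [← gcd_l_heatF_toLp hf (t + s), ← gcd_l_heatF_toLp hf t, ← gcd_l_toLp_sub,
      ← gcd_l_toLp_div]
  simp only [h2]
  exact h1

/-- weak derivative. -/
theorem gcd_l_heatF_hasDerivAt_inner (hS : Std m K N) {t : ℝ} (ht : 0 < t) {f h : X → ℝ}
    (hf : MemLp f 2 m) (hh : MemLp h 2 m) :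
    HasDerivAt (fun s : ℝ => ∫ x, heatF m s f x * h x ∂m)
      (∫ x, laplacian m (heatF m t f) x * h x ∂m) t := by
  have h1 : (fun s : ℝ => ∫ x, heatF m s f x * h x ∂m) =
      fun s : ℝ => ⟪flow (ChL2 m) s (hf.toLp f), hh.toLp h⟫ := by
    funext s
    rw [← gcd_l_heatF_toLp hf s, gcd_l_inner_toLp]
  rw [h1, ← gcd_l_inner_toLp (gcd_l_laplacian_memLp (heatF m t f)) hh]
  have h2 := (gcd_l_heatF_hasDerivAt_Lp hS ht hf).inner ℝ (hasDerivAt_const t (hh.toLp h))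
  simpa using h2

/-- weak derivative, tested with a Sobolev function. -/
theorem gcd_l_heatF_hasDerivAt_form (hS : Std m K N) {t : ℝ} (ht : 0 < t) {f h : X → ℝ}
    (hf : MemLp f 2 m) (hh : Sobolev m h) :
    HasDerivAt (fun s : ℝ => ∫ x, heatF m s f x * h x ∂m) (-form m (heatF m t f) h) t := by
  have h1 := gcd_l_heatF_hasDerivAt_inner hS ht hf hh.1
  have h2 : form m (heatF m t f) h = -∫ x, laplacian m (heatF m t f) x * h x ∂m :=
    gcd_l_ibp (gcd_l_heatF_inDomain hS ht hf) hh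
  rw [h2, neg_neg]
  exact h1

theorem gcd_l_heatF_norm_deriv (hS : Std m K N) {t : ℝ} (ht : 0 < t) {f : X → ℝ}
    (hf : MemLp f 2 m) :
    HasDerivAt (fun s : ℝ => (∫ x, heatF m s f x ^ 2 ∂m) / 2) (-energy m (heatF m t f)) t := by
  have h1 := gcd_need_hs_flow_norm_deriv (gcd_need_qform hS) ht (hf.toLp f)
  have h2 : (fun s : ℝ => (∫ x, heatF m s f x ^ 2 ∂m) / 2) =
      fun s : ℝ => ‖flow (ChL2 m) s (hf.toLp f)‖ ^ 2 / 2 := by
    funext s
    rw [← gcd_l_heatF_toLp hf s, gcd_l_norm_sq_toLp]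
  rw [h2, gcd_l_energy_eq_bil hS (gcd_l_heatF_sobolev hS ht hf), gcd_l_heatF_toLp hf t]
  exact h1

theorem gcd_l_heatF_lap_sq_le (hS : Std m K N) {t : ℝ} (ht : 0 < t) {f : X → ℝ}
    (hf : MemLp f 2 m) :
    ∫ x, laplacian m (heatF m t f) x ^ 2 ∂m ≤ (∫ x, f x ^ 2 ∂m) / t ^ 2 := by
  obtain ⟨w, hw, -, hn⟩ := gcd_need_hs_flow_gen (gcd_need_qform hS) ht (hf.toLp f)
  have h1 : IsLaplacian m (heatF m t f) (w : X → ℝ) := by
    rw [gcd_l_heatF_eq hf t]
    exact (gcd_l_isLaplacian_coe hS _ w).2 hw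
  have h2 : (gcd_l_laplacian_memLp (heatF m t f)).toLp (laplacian m (heatF m t f)) = w := by
    rw [← gcd_l_toLp_coe w (Lp.memLp w)]
    exact (gcd_l_toLp_eq_iff _ _).2 (gcd_l_laplacian_eq hS h1)
  rw [← gcd_l_norm_sq_toLp (gcd_l_laplacian_memLp (heatF m t f)), h2, ← gcd_l_norm_sq_toLp hf,
    ← div_pow]
  exact pow_le_pow_left₀ (norm_nonneg _) hn 2

theorem gcd_l_heatF_energy_bound (hS : Std m K N) {t : ℝ} (ht : 0 < t) {f : X → ℝ}
    (hf : MemLp f 2 m) : energy m (heatF m t f) ≤ (∫ x, f x ^ 2 ∂m) / t := by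
  have h1 := gcd_need_hs_flow_bil_le (gcd_need_qform hS) ht (hf.toLp f)
  rw [gcd_l_energy_eq_bil hS (gcd_l_heatF_sobolev hS ht hf), gcd_l_heatF_toLp hf t,
    ← gcd_l_norm_sq_toLp hf]
  exact h1

/-! ### C. energy along the flow -/

theorem gcd_l_aux_Q_flow_eq (hS : Std m K N) {t : ℝ} {f : X → ℝ} (hf : MemLp f 2 m)
    (hs : Sobolev m (heatF m t f)) :
    ChL2 m (flow (ChL2 m) t (hf.toLp f)) = ENNReal.ofReal (energy m (heatF m t f) / 2) := by
  rw [← gcd_l_heatF_toLp hf t]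
  exact gcd_l_ChL2_eq hS hs

theorem gcd_l_aux_flow_zero {f : X → ℝ} (hf : MemLp f 2 m) :
    flow (ChL2 m) 0 (hf.toLp f) = hf.toLp f := by
  unfold flow
  rw [if_pos le_rfl]

theorem gcd_l_heatF_energy_antitone (hS : Std m K N) {f : X → ℝ} (hf : MemLp f 2 m) :
    AntitoneOn (fun t : ℝ => energy m (heatF m t f)) (Ioi 0) := by
  intro s hs t ht hst
  have hs' : (0 : ℝ) < s := hs
  have ht' : (0 : ℝ) < t := ht
  have h1 := gcd_need_hs_flow_Q_antitone (gcd_need_qform hS) (hf.toLp f)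
    (Set.mem_Ici.2 hs'.le) (Set.mem_Ici.2 ht'.le) hst
  have h2 : ChL2 m (flow (ChL2 m) t (hf.toLp f)) ≤ ChL2 m (flow (ChL2 m) s (hf.toLp f)) := h1
  rw [gcd_l_aux_Q_flow_eq hS hf (gcd_l_heatF_sobolev hS ht' hf),
    gcd_l_aux_Q_flow_eq hS hf (gcd_l_heatF_sobolev hS hs' hf),
    ENNReal.ofReal_le_ofReal_iff (by have := gcd_l_energy_nonneg (m := m) (heatF m s f); linarith)]
    at h2
  show energy m (heatF m t f) ≤ energy m (heatF m s f)
  linarith

theorem gcd_l_heatF_energy_le (hS : Std m K N) (t : ℝ) {f : X → ℝ} (hf : Sobolev m f) :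
    energy m (heatF m t f) ≤ energy m f := by
  rcases le_or_gt t 0 with ht | ht
  · exact (gcd_l_energy_congr (gcd_l_heatF_of_nonpos ht hf.1)).le
  · have h1 := gcd_need_hs_flow_Q_antitone (gcd_need_qform hS) (hf.1.toLp f)
      (Set.mem_Ici.2 le_rfl) (Set.mem_Ici.2 ht.le) ht.le
    have h2 : ChL2 m (flow (ChL2 m) t (hf.1.toLp f)) ≤ ChL2 m (flow (ChL2 m) 0 (hf.1.toLp f)) := h1
    rw [gcd_l_aux_flow_zero hf.1, gcd_l_aux_Q_flow_eq hS hf.1 (gcd_l_heatF_sobolev hS ht hf.1),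
      gcd_l_ChL2_eq hS hf,
      ENNReal.ofReal_le_ofReal_iff (by have := gcd_l_energy_nonneg (m := m) f; linarith)] at h2
    linarith

theorem gcd_l_heatF_energy_tendsto (hS : Std m K N) {f : X → ℝ} (hf : Sobolev m f) :
    Tendsto (fun t : ℝ => energy m (heatF m t f)) (𝓝[>] 0) (𝓝 (energy m f)) := by
  have h1 := gcd_need_hs_flow_Q_tendsto (gcd_need_qform hS) (hf.1.toLp f)
  have hfin : ChL2 m (hf.1.toLp f) ≠ ∞ := by
    rw [gcd_l_ChL2_eq hS hf]
    exact ENNReal.ofReal_ne_top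
  have h2 := (ENNReal.tendsto_toReal hfin).comp h1
  rw [gcd_l_ChL2_toReal hS hf] at h2
  have h3 : Tendsto (fun t : ℝ => energy m (heatF m t f) / 2) (𝓝[>] 0) (𝓝 (energy m f / 2)) := by
    refine h2.congr' ?_
    filter_upwards [self_mem_nhdsWithin] with t ht
    have ht' : (0 : ℝ) < t := ht
    show (ChL2 m (flow (ChL2 m) t (hf.1.toLp f))).toReal = energy m (heatF m t f) / 2
    rw [gcd_l_aux_Q_flow_eq hS hf.1 (gcd_l_heatF_sobolev hS ht' hf.1),
      ENNReal.toReal_ofReal (by have := gcd_l_energy_nonneg (m := m) (heatF m t f); linarith)]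
  have h4 := h3.const_mul 2
  have e1 : (fun t : ℝ => 2 * (energy m (heatF m t f) / 2)) =
      fun t : ℝ => energy m (heatF m t f) := by
    funext t
    ring
  have e2 : 2 * (energy m f / 2) = energy m f := by ring
  rw [e1, e2] at h4
  exact h4

theorem gcd_l_heatF_tendsto_energy (hS : Std m K N) {f : X → ℝ} (hf : Sobolev m f) :
    Tendsto (fun t : ℝ => energy m (fun x => heatF m t f x - f x)) (𝓝[>] 0) (𝓝 0) := by
  have hfin : ChL2 m (hf.1.toLp f) < ∞ := (gcd_l_sobolev_iff_ChL2 hS hf.1).1 hf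
  have h1 := gcd_need_hs_flow_tendsto_Q (gcd_need_qform hS) hfin
  have hF : ∀ t : ℝ, MemLp (fun x => heatF m t f x - f x) 2 m := fun t =>
    gcd_l_memLp_sub (gcd_l_heatF_memLp t f) hf.1
  have hF' : ∀ t : ℝ, Sobolev m (fun x => heatF m t f x - f x) := fun t =>
    gcd_l_sobolev_sub hS (gcd_l_heatF_sobolev_of_sobolev hS t hf) hf
  refine (gcd_l_tendsto_energy_iff hS (F := fun (t : ℝ) x => heatF m t f x - f x) hF
    (Filter.Eventually.of_forall hF')).1 ?_
  refine h1.congr fun t => ?_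
  congr 1
  rw [gcd_l_toLp_sub (gcd_l_heatF_memLp t f) hf.1, gcd_l_heatF_toLp hf.1 t]

/-- if the energies stay bounded as `t → 0` then `f` is Sobolev. -/
theorem gcd_l_heatF_crit (hS : Std m K N) {f : X → ℝ} (hf : MemLp f 2 m) {C : ℝ}
    (h : ∃ᶠ t : ℝ in 𝓝[>] 0, energy m (heatF m t f) ≤ C) :
    Sobolev m f ∧ energy m f ≤ C := by
  have h1 := gcd_need_hs_flow_Q_tendsto (gcd_need_qform hS) (hf.toLp f)
  have hC : 0 ≤ C := by
    obtain ⟨t, ht⟩ := h.exists
    exact (gcd_l_energy_nonneg (m := m) (heatF m t f)).trans ht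
  have h2 : ∃ᶠ t : ℝ in 𝓝[>] 0,
      ChL2 m (flow (ChL2 m) t (hf.toLp f)) ≤ ENNReal.ofReal (C / 2) := by
    refine (h.and_eventually self_mem_nhdsWithin).mono ?_
    rintro t ⟨ht, ht0⟩
    have ht' : (0 : ℝ) < t := ht0
    rw [gcd_l_aux_Q_flow_eq hS hf (gcd_l_heatF_sobolev hS ht' hf)]
    exact ENNReal.ofReal_le_ofReal (by linarith)
  have h3 : ChL2 m (hf.toLp f) ≤ ENNReal.ofReal (C / 2) := le_of_tendsto_of_frequently h1 h2
  have hs : Sobolev m f :=
    (gcd_l_sobolev_iff_ChL2 hS hf).2 (lt_of_le_of_lt h3 ENNReal.ofReal_lt_top)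
  refine ⟨hs, ?_⟩
  have h4 : ChL2 m (hs.1.toLp f) ≤ ENNReal.ofReal (C / 2) := h3
  rw [gcd_l_ChL2_eq hS hs, ENNReal.ofReal_le_ofReal_iff (by linarith)] at h4
  linarith

/-! ### D. commutation, difference quotients at `t = 0` -/

theorem gcd_l_heatF_resF_comm (hS : Std m K N) {δ : ℝ} (hδ : 0 < δ) (t : ℝ) {f : X → ℝ}
    (hf : MemLp f 2 m) : heatF m t (resF m δ f) = resF m δ (heatF m t f) := by
  rw [gcd_l_heatF_eq (gcd_l_resF_memLp δ f) t, gcd_l_resF_eq (gcd_l_heatF_memLp t f) δ,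
    gcd_l_resF_toLp hf δ, gcd_l_heatF_toLp hf t,
    gcd_need_hs_flow_prox_comm (gcd_need_qform hS) hδ t]

theorem gcd_l_heatF_lap (hS : Std m K N) (t : ℝ) {u L : X → ℝ} (h : IsLaplacian m u L) :
    IsLaplacian m (heatF m t u) (heatF m t L) := by
  have hu : MemLp u 2 m := h.1.1
  have hL : MemLp L 2 m := h.2.1
  have h1 := (gcd_l_isLaplacian_iff_isGen hS hu hL).1 h
  have h2 := gcd_need_hs_flow_gen_comm (gcd_need_qform hS) t h1
  rw [gcd_l_isLaplacian_iff_isGen hS (gcd_l_heatF_memLp t u) (gcd_l_heatF_memLp t L),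
    gcd_l_heatF_toLp hu t, gcd_l_heatF_toLp hL t]
  exact h2

theorem gcd_l_aux_quot_toLp {f : X → ℝ} (hf : MemLp f 2 m) (t : ℝ) :
    (gcd_l_memLp_div t (gcd_l_memLp_sub (gcd_l_heatF_memLp t f) hf)).toLp
        (fun x => (heatF m t f x - f x) / t) =
      t⁻¹ • (flow (ChL2 m) t (hf.toLp f) - hf.toLp f) := by
  rw [gcd_l_toLp_div t (gcd_l_memLp_sub (gcd_l_heatF_memLp t f) hf),
    gcd_l_toLp_sub (gcd_l_heatF_memLp t f) hf, gcd_l_heatF_toLp hf t]

theorem gcd_l_heatF_quot_L2 (hS : Std m K N) {f L : X → ℝ} (h : IsLaplacian m f L) :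
    Tendsto (fun t : ℝ => eLpNorm (fun x => (heatF m t f x - f x) / t - L x) 2 m) (𝓝[>] 0)
      (𝓝 0) := by
  have hf : MemLp f 2 m := h.1.1
  have hL : MemLp L 2 m := h.2.1
  have h1 := (gcd_l_isLaplacian_iff_isGen hS hf hL).1 h
  have h2 := gcd_need_hs_flow_quot (gcd_need_qform hS) h1
  have hF : ∀ t : ℝ, MemLp (fun x => (heatF m t f x - f x) / t) 2 m := fun t =>
    gcd_l_memLp_div t (gcd_l_memLp_sub (gcd_l_heatF_memLp t f) hf)
  refine (gcd_l_tendsto_toLp_iff (F := fun (t : ℝ) x => (heatF m t f x - f x) / t) hF hL).1 ?_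
  refine h2.congr fun t => ?_
  exact (gcd_l_aux_quot_toLp hf t).symm

theorem gcd_l_heatF_quot_energy (hS : Std m K N) {f L : X → ℝ} (h : IsLaplacian m f L)
    (hL : Sobolev m L) :
    Tendsto (fun t : ℝ => energy m (fun x => (heatF m t f x - f x) / t - L x)) (𝓝[>] 0)
      (𝓝 0) := by
  have hf : MemLp f 2 m := h.1.1
  have hL2 : MemLp L 2 m := h.2.1
  have h1 := (gcd_l_isLaplacian_iff_isGen hS hf hL2).1 h
  have hw : ChL2 m (hL2.toLp L) < ∞ := (gcd_l_sobolev_iff_ChL2 hS hL2).1 hL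
  have h2 := gcd_need_hs_flow_quot_Q (gcd_need_qform hS) h1 hw
  have hF : ∀ t : ℝ, MemLp (fun x => (heatF m t f x - f x) / t - L x) 2 m := fun t =>
    gcd_l_memLp_sub (gcd_l_memLp_div t (gcd_l_memLp_sub (gcd_l_heatF_memLp t f) hf)) hL2
  have hF' : ∀ t : ℝ, Sobolev m (fun x => (heatF m t f x - f x) / t - L x) := by
    intro t
    have e1 : Sobolev m (fun x => heatF m t f x - f x) :=
      gcd_l_sobolev_sub hS (gcd_l_heatF_sobolev_of_sobolev hS t h.1) h.1
    have e2 : Sobolev m (fun x => t⁻¹ * (heatF m t f x - f x)) := gcd_l_sobolev_smul hS t⁻¹ e1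
    have e3 : (fun x => (heatF m t f x - f x) / t) = fun x => t⁻¹ * (heatF m t f x - f x) := by
      funext x
      rw [div_eq_inv_mul]
    have e4 : Sobolev m (fun x => (heatF m t f x - f x) / t) := by
      rw [e3]; exact e2
    exact gcd_l_sobolev_sub hS e4 hL
  refine (gcd_l_tendsto_energy_iff hS
    (F := fun (t : ℝ) x => (heatF m t f x - f x) / t - L x) hF
    (Filter.Eventually.of_forall hF')).1 ?_
  refine h2.congr fun t => ?_
  congr 1
  rw [gcd_l_toLp_sub (gcd_l_memLp_div t (gcd_l_memLp_sub (gcd_l_heatF_memLp t f) hf)) hL2,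
    gcd_l_aux_quot_toLp hf t]

/-- `H_t f - f = ∫_0^t H_s Δf ds`, tested. -/
theorem gcd_l_heatF_sub_eq_integral (hS : Std m K N) {t : ℝ} (ht : 0 ≤ t) {f L h : X → ℝ}
    (hfL : IsLaplacian m f L) (hh : MemLp h 2 m) :
    ∫ x, (heatF m t f x - f x) * h x ∂m = ∫ s in (0 : ℝ)..t, ∫ x, heatF m s L x * h x ∂m := by
  have hf : MemLp f 2 m := hfL.1.1
  have hL : MemLp L 2 m := hfL.2.1
  have hc : Continuous (fun s : ℝ => ∫ x, heatF m s f x * h x ∂m) :=
    gcd_l_heatF_continuous_inner hS hf hh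
  have hc' : Continuous (fun s : ℝ => ∫ x, heatF m s L x * h x ∂m) :=
    gcd_l_heatF_continuous_inner hS hL hh
  have hd : ∀ s ∈ Ioo (0 : ℝ) t, HasDerivAt (fun s : ℝ => ∫ x, heatF m s f x * h x ∂m)
      (∫ x, heatF m s L x * h x ∂m) s := by
    intro s hs
    have h1 := gcd_l_heatF_hasDerivAt_inner hS hs.1 hf hh
    have h2 : ∫ x, laplacian m (heatF m s f) x * h x ∂m = ∫ x, heatF m s L x * h x ∂m := by
      refine integral_congr_ae ?_
      filter_upwards [gcd_l_laplacian_eq hS (gcd_l_heatF_lap hS s hfL)] with x hx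
      rw [hx]
    rwa [h2] at h1
  have key := intervalIntegral.integral_eq_sub_of_hasDerivAt_of_le ht hc.continuousOn hd
    (hc'.intervalIntegrable 0 t)
  rw [key]
  have h0 : ∫ x, heatF m 0 f x * h x ∂m = ∫ x, f x * h x ∂m := by
    refine integral_congr_ae ?_
    filter_upwards [gcd_l_heatF_of_nonpos le_rfl hf] with x hx
    rw [hx]
  rw [h0, ← integral_sub (gcd_l_integrable_mul (gcd_l_heatF_memLp t f) hh)
    (gcd_l_integrable_mul hf hh)]
  refine integral_congr_ae (Eventually.of_forall fun x => ?_)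
  simp only []
  ring

/-- sub-Markov bound (local copy, the official statement stands in section F). -/
theorem gcd_l_aux_heatF_abs_le (hS : Std m K N) (t : ℝ) {B : ℝ} (hB : 0 ≤ B) {f : X → ℝ}
    (hf : MemLp f 2 m) (h : ∀ᵐ x ∂m, |f x| ≤ B) : ∀ᵐ x ∂m, |heatF m t f x| ≤ B := by
  have h1 : ∀ᵐ x ∂m, f x ≤ B := by
    filter_upwards [h] with x hx
    exact (abs_le.1 hx).2
  have h2 : ∀ᵐ x ∂m, (-1 : ℝ) * f x ≤ B := by
    filter_upwards [h] with x hx
    have := (abs_le.1 hx).1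
    linarith
  have h3 := gcd_need_hf_heat_le (t := t) hS hB hf h1
  have h4 := gcd_need_hf_heat_le (t := t) hS hB (gcd_l_memLp_smul (-1) hf) h2
  filter_upwards [h3, h4, gcd_l_heatF_smul hS t (-1) hf] with x hx3 hx4 hx'
  rw [hx'] at hx4
  exact abs_le.2 ⟨by linarith, hx3⟩

/-- `|Δf| ≤ B` implies `|H_t f - f| ≤ B t`. -/
theorem gcd_l_heatF_quot_aebdd (hS : Std m K N) {t B : ℝ} (ht : 0 < t) {f L : X → ℝ}
    (h : IsLaplacian m f L) (hB : AEBdd m L B) :
    AEBdd m (fun x => (heatF m t f x - f x) / t) B := by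
  unfold AEBdd at hB ⊢
  by_cases hB0 : 0 ≤ B
  swap
  · filter_upwards [hB] with x hx
    exact absurd ((abs_nonneg _).trans hx) hB0
  haveI := gcd_l_sigmaFinite hS
  have hf : MemLp f 2 m := h.1.1
  have hL : MemLp L 2 m := h.2.1
  set q : X → ℝ := fun x => (heatF m t f x - f x) / t with hq
  have hq2 : MemLp q 2 m := by
    have h1 : MemLp (fun x => heatF m t f x - f x) 2 m := gcd_l_memLp_sub (gcd_l_heatF_memLp t f) hf
    have h2 := gcd_l_memLp_smul t⁻¹ h1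
    refine h2.ae_eq (Eventually.of_forall fun x => ?_)
    simp only [hq]
    rw [div_eq_inv_mul]
  -- facts on a set of finite measure
  have hA : ∀ A : Set X, MeasurableSet A → m A < ∞ →
      IntegrableOn q A m ∧ |∫ x in A, q x ∂m| ≤ B * (m A).toReal := by
    intro A hAm hAf
    set e : X → ℝ := A.indicator (fun _ => (1 : ℝ)) with he
    have he2 : MemLp e 2 m := memLp_indicator_const 2 hAm 1 (Or.inr hAf.ne)
    have he1 : Integrable e m := (integrable_indicator_iff hAm).2 (integrableOn_const hAf.ne)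
    have hInt_e : ∫ x, e x ∂m = (m A).toReal := by
      rw [he, integral_indicator hAm, setIntegral_const]
      simp [Measure.real]
    have hqe : (fun x => q x * e x) = A.indicator q := by
      funext x
      by_cases hx : x ∈ A
      · simp [he, hx]
      · simp [he, hx]
    have hqi : Integrable (A.indicator q) m := hqe ▸ gcd_l_integrable_mul hq2 he2
    refine ⟨(integrable_indicator_iff hAm).1 hqi, ?_⟩
    have h1 : ∫ x in A, q x ∂m = t⁻¹ * ∫ s in (0 : ℝ)..t, ∫ x, heatF m s L x * e x ∂m := by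
      rw [← gcd_l_heatF_sub_eq_integral hS ht.le h he2, ← integral_indicator hAm, ← hqe,
        ← integral_const_mul]
      refine integral_congr_ae (Eventually.of_forall fun x => ?_)
      simp only [hq]
      rw [div_eq_inv_mul]; ring
    have h2 : ∀ s : ℝ, ‖∫ x, heatF m s L x * e x ∂m‖ ≤ B * (m A).toReal := by
      intro s
      have hb : ∀ᵐ x ∂m, ‖heatF m s L x * e x‖ ≤ B * e x := by
        filter_upwards [gcd_l_aux_heatF_abs_le hS s hB0 hL hB] with x hx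
        have he0 : 0 ≤ e x := by
          by_cases hx : x ∈ A
          · simp [he, hx]
          · simp [he, hx]
        rw [norm_mul, Real.norm_eq_abs, Real.norm_eq_abs, abs_of_nonneg he0]
        gcongr
      refine (norm_integral_le_of_norm_le (he1.const_mul B) hb).trans (le_of_eq ?_)
      rw [integral_const_mul, hInt_e]
    have h3 := intervalIntegral.norm_integral_le_of_norm_le_const (a := (0 : ℝ)) (b := t)
      (f := fun s => ∫ x, heatF m s L x * e x ∂m) (C := B * (m A).toReal) (fun s _ => h2 s)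
    rw [sub_zero, abs_of_pos ht, Real.norm_eq_abs] at h3
    rw [h1, abs_mul, abs_of_pos (inv_pos.2 ht)]
    calc t⁻¹ * |∫ s in (0 : ℝ)..t, ∫ x, heatF m s L x * e x ∂m|
        ≤ t⁻¹ * (B * (m A).toReal * t) := by gcongr
      _ = B * (m A).toReal := by field_simp
  have hconst : ∀ A : Set X, MeasurableSet A → m A < ∞ →
      IntegrableOn (fun _ : X => B) A m ∧ ∫ x in A, B ∂m = B * (m A).toReal := by
    intro A hAm hAf
    refine ⟨integrableOn_const hAf.ne, ?_⟩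
    rw [setIntegral_const]
    simp [Measure.real, mul_comm]
  have hp : 0 ≤ᵐ[m] fun x => B - q x := by
    refine ae_nonneg_of_forall_setIntegral_nonneg_of_sigmaFinite
      (fun A hAm hAf => (hconst A hAm hAf).1.sub (hA A hAm hAf).1) (fun A hAm hAf => ?_)
    rw [integral_sub (hconst A hAm hAf).1 (hA A hAm hAf).1, (hconst A hAm hAf).2]
    have := (abs_le.1 (hA A hAm hAf).2).2
    linarith
  have hn : 0 ≤ᵐ[m] fun x => B + q x := by
    refine ae_nonneg_of_forall_setIntegral_nonneg_of_sigmaFinite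
      (fun A hAm hAf => (hconst A hAm hAf).1.add (hA A hAm hAf).1) (fun A hAm hAf => ?_)
    rw [integral_add (hconst A hAm hAf).1 (hA A hAm hAf).1, (hconst A hAm hAf).2]
    have := (abs_le.1 (hA A hAm hAf).2).1
    linarith
  filter_upwards [hp, hn] with x hx1 hx2
  simp only [Pi.zero_apply] at hx1 hx2
  exact abs_le.2 ⟨by linarith, by linarith⟩

/-! ### E. Laplace transform (HS4) -/

theorem gcd_l_laplace (hS : Std m K N) {δ : ℝ} (hδ : 0 < δ) {f h : X → ℝ} (hf : MemLp f 2 m)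
    (hh : MemLp h 2 m) :
    ∫ x, resF m δ f x * h x ∂m =
      ∫ t in Ioi (0 : ℝ), δ⁻¹ * Real.exp (-t / δ) * ∫ x, heatF m t f x * h x ∂m := by
  have h1 := gcd_need_hs_laplace (gcd_need_qform hS) hδ (hf.toLp f) (hh.toLp h)
  rw [← gcd_l_resF_toLp hf δ, gcd_l_inner_toLp (gcd_l_resF_memLp δ f) hh] at h1
  rw [h1]
  refine integral_congr_ae (Filter.Eventually.of_forall fun t => ?_)
  show δ⁻¹ * Real.exp (-t / δ) * ⟪flow (ChL2 m) t (hf.toLp f), hh.toLp h⟫ = _
  rw [← gcd_l_heatF_toLp hf t, gcd_l_inner_toLp (gcd_l_heatF_memLp t f) hh]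

/-! ### F. sub-Markov property and nice densities (from HF1, HF2, HF3) -/

theorem gcd_l_heatF_le (hS : Std m K N) (t : ℝ) {C : ℝ} (hC : 0 ≤ C) {f : X → ℝ}
    (hf : MemLp f 2 m) (h : ∀ᵐ x ∂m, f x ≤ C) : ∀ᵐ x ∂m, heatF m t f x ≤ C :=
  gcd_need_hf_heat_le hS hC hf h

theorem gcd_l_heatF_L1 (hS : Std m K N) (t : ℝ) {f : X → ℝ}
    (hf : MemLp f 2 m) (hf1 : Integrable f m) :
    Integrable (heatF m t f) m ∧ ∫ x, |heatF m t f x| ∂m ≤ ∫ x, |f x| ∂m :=
  gcd_need_hf_heat_L1 hS hf hf1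

theorem gcd_l_heatF_weight (hS : Std m K N) (o : X) {a t : ℝ} (ha : 0 ≤ a) (ht : 0 ≤ t)
    {f : X → ℝ} (hf : MemLp f 2 m)
    (hw : Integrable (fun x => Real.exp (2 * a * dist x o) * f x ^ 2) m) :
    Integrable (fun x => Real.exp (2 * a * dist x o) * heatF m t f x ^ 2) m ∧
      ∫ x, Real.exp (2 * a * dist x o) * heatF m t f x ^ 2 ∂m ≤
        Real.exp (8 * a ^ 2 * t) * ∫ x, Real.exp (2 * a * dist x o) * f x ^ 2 ∂m :=
  gcd_need_hf_heat_weight hS o ha ht hf hw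

theorem gcd_l_heatF_mass (hS : Std m K N) (o : X) {a t : ℝ} (ha : GoodExp m o a)
    (ht : 0 ≤ t) {f : X → ℝ} (hf : MemLp f 2 m)
    (hw : Integrable (fun x => Real.exp (2 * a * dist x o) * f x ^ 2) m) :
    Integrable f m ∧ Integrable (heatF m t f) m ∧ ∫ x, heatF m t f x ∂m = ∫ x, f x ∂m :=
  gcd_need_hf_heat_mass hS o ha ht hf hw

theorem gcd_l_heatF_nonneg (hS : Std m K N) (t : ℝ) {f : X → ℝ}
    (hf : MemLp f 2 m) (h : ∀ᵐ x ∂m, 0 ≤ f x) : ∀ᵐ x ∂m, 0 ≤ heatF m t f x := by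
  have h1 : ∀ᵐ x ∂m, (-1 : ℝ) * f x ≤ 0 := by
    filter_upwards [h] with x hx
    linarith
  have h2 := gcd_l_heatF_le hS t le_rfl (gcd_l_memLp_smul (-1) hf) h1
  filter_upwards [h2, gcd_l_heatF_smul hS t (-1) hf] with x hx hx'
  rw [hx'] at hx
  linarith

theorem gcd_l_heatF_mono (hS : Std m K N) (t : ℝ) {f g : X → ℝ}
    (hf : MemLp f 2 m) (hg : MemLp g 2 m) (h : ∀ᵐ x ∂m, f x ≤ g x) :
    ∀ᵐ x ∂m, heatF m t f x ≤ heatF m t g x := by
  have h1 : ∀ᵐ x ∂m, 0 ≤ g x - f x := by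
    filter_upwards [h] with x hx
    linarith
  have h2 := gcd_l_heatF_nonneg hS t (gcd_l_memLp_sub hg hf) h1
  filter_upwards [h2, gcd_l_heatF_sub hS t hg hf] with x hx hx'
  rw [hx'] at hx
  linarith

theorem gcd_l_heatF_aebdd (hS : Std m K N) (t : ℝ) {B : ℝ} {f : X → ℝ}
    (hf : MemLp f 2 m) (h : AEBdd m f B) : AEBdd m (heatF m t f) B := by
  unfold AEBdd at h ⊢
  by_cases hB : 0 ≤ B
  · have h1 : ∀ᵐ x ∂m, f x ≤ B := by
      filter_upwards [h] with x hx
      exact (abs_le.1 hx).2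
    have h2 : ∀ᵐ x ∂m, (-1 : ℝ) * f x ≤ B := by
      filter_upwards [h] with x hx
      have := (abs_le.1 hx).1
      linarith
    have h3 := gcd_l_heatF_le hS t hB hf h1
    have h4 := gcd_l_heatF_le hS t hB (gcd_l_memLp_smul (-1) hf) h2
    filter_upwards [h3, h4, gcd_l_heatF_smul hS t (-1) hf] with x hx3 hx4 hx'
    rw [hx'] at hx4
    exact abs_le.2 ⟨by linarith, hx3⟩
  · filter_upwards [h] with x hx
    exact absurd ((abs_nonneg _).trans hx) hB

theorem gcd_l_heatF_niceDens (hS : Std m K N) (o : X) {a t B : ℝ} (ha : GoodExp m o a)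
    (ht : 0 ≤ t) {ρ : X → ℝ} (hρ : NiceDens m o a B ρ) :
    NiceDens m o a B (heatF m t ρ) := by
  have hρ2 : MemLp ρ 2 m := gcd_l_niceDens_memLp hρ
  have hm : m ≠ 0 := by
    intro h0
    have h1 := hρ.mass
    rw [h0] at h1
    simp at h1
  have hne : (ae m).NeBot := ae_neBot.2 hm
  obtain ⟨x, hx0, hxB⟩ := (hρ.nonneg.and hρ.le).exists
  have hB : 0 ≤ B := hx0.trans hxB
  have hmass := gcd_l_heatF_mass hS o ha ht hρ2 hρ.tail
  exact
    { meas := (gcd_l_heatF_memLp t ρ).1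
      nonneg := gcd_l_heatF_nonneg hS t hρ2 hρ.nonneg
      le := gcd_l_heatF_le hS t hB hρ2 hρ.le
      int := hmass.2.1
      mass := hmass.2.2.trans hρ.mass
      tail := (gcd_l_heatF_weight hS o ha.1.le ht hρ2 hρ.tail).1 }

/-! ### G. continuity in the datum -/

theorem gcd_l_heatF_tendsto_datum (hS : Std m K N) (t : ℝ) {ι : Type*}
    {l : Filter ι} {F : ι → X → ℝ} {f : X → ℝ} (hF : ∀ i, MemLp (F i) 2 m) (hf : MemLp f 2 m)
    (h : Tendsto (fun i => eLpNorm (fun x => F i x - f x) 2 m) l (𝓝 0)) :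
    Tendsto (fun i => eLpNorm (fun x => heatF m t (F i) x - heatF m t f x) 2 m) l (𝓝 0) := by
  refine tendsto_of_tendsto_of_tendsto_of_le_of_le tendsto_const_nhds h (fun _ => bot_le) ?_
  intro i
  have hd : MemLp (fun x => F i x - f x) 2 m := (hF i).sub hf
  have e := gcd_l_heatF_sub hS t (hF i) hf
  show eLpNorm (fun x => heatF m t (F i) x - heatF m t f x) 2 m ≤ eLpNorm (fun x => F i x - f x) 2 m
  rw [← eLpNorm_congr_ae e]
  exact gcd_l_heatF_eLpNorm_le hS t hd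

theorem gcd_l_heatF_tendsto_datum_energy (hS : Std m K N) {t : ℝ} (ht : 0 < t) {ι : Type*}
    {l : Filter ι} {F : ι → X → ℝ} {f : X → ℝ} (hF : ∀ i, MemLp (F i) 2 m) (hf : MemLp f 2 m)
    (h : Tendsto (fun i => eLpNorm (fun x => F i x - f x) 2 m) l (𝓝 0)) :
    Tendsto (fun i => energy m (fun x => heatF m t (F i) x - heatF m t f x)) l (𝓝 0) := by
  have hd : ∀ i, MemLp (fun x => F i x - f x) 2 m := fun i => (hF i).sub hf
  have h2 : Tendsto (fun i => ∫ x, (F i x - f x) ^ 2 ∂m) l (𝓝 0) := (gcd_l_tendsto_L2_iff hd).1 h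
  have h3 : Tendsto (fun i => (∫ x, (F i x - f x) ^ 2 ∂m) / t) l (𝓝 0) := by
    simpa using h2.div_const t
  refine tendsto_of_tendsto_of_tendsto_of_le_of_le tendsto_const_nhds h3
    (fun _ => gcd_l_energy_nonneg _) ?_
  intro i
  show energy m (fun x => heatF m t (F i) x - heatF m t f x) ≤ (∫ x, (F i x - f x) ^ 2 ∂m) / t
  rw [← gcd_l_energy_congr (gcd_l_heatF_sub hS t (hF i) hf)]
  exact gcd_l_heatF_energy_bound hS ht (hd i)

/-- the heat flow is continuous for the `W^{1,2}` norm. -/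
theorem gcd_l_heatF_tendsto_datum_sobolev (hS : Std m K N) (t : ℝ) {ι : Type*}
    {l : Filter ι} {F : ι → X → ℝ} {f : X → ℝ} (hF : ∀ i, Sobolev m (F i)) (hf : Sobolev m f)
    (h : Tendsto (fun i => energy m (fun x => F i x - f x)) l (𝓝 0)) :
    Tendsto (fun i => energy m (fun x => heatF m t (F i) x - heatF m t f x)) l (𝓝 0) := by
  refine tendsto_of_tendsto_of_tendsto_of_le_of_le tendsto_const_nhds h
    (fun _ => gcd_l_energy_nonneg _) ?_
  intro i
  show energy m (fun x => heatF m t (F i) x - heatF m t f x) ≤ energy m (fun x => F i x - f x)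
  rw [← gcd_l_energy_congr (gcd_l_heatF_sub hS t (hF i).1 hf.1)]
  exact gcd_l_heatF_energy_le hS t (gcd_l_sobolev_sub hS (hF i) hf)

end

end Claimed.Agent.R210.GCD.Heat
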