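/-
Row 210 (S0432), layer GCD = section GC-D of `docs/R210_wave2.md` (architect helper250).
THE INTERFACE: consumers import this file only and cite only the names `gcd_*` below
(namespace `Claimed.Agent.R210.GCD.Ifc`).
Contents: 1 dictionary functions <-> `Lp ℝ 2 m` ; 2 frozen Laplacian versus `HS.IsGen (ChL2 m)` ;
3 resolvent `resF` ; 4 heat flow `heatF` ; 5 chain and Leibniz rule for the Laplacian.
Every statement is proved here from the leaf of the same name (`gcd_l_*`) in `GCD/{Dict,Lap,Res,Heat,Chain}.lean`.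
This file is GENERATED from the leaf files: do not edit by hand; ask helper250 for changes.
Conventions: `L²` convergence = `eLpNorm (difference) 2 m → 0` (see `gcd_tendsto_L2_iff` for the integral form);
`energy m f = ∫|Df|²`, `form m f g = ∫Γ(f,g)`; `heatF m t f = f` a.e. for `t ≤ 0`.
-/
import Claimed.Agent.R210.GCD.Heat
import Claimed.Agent.R210.GCD.Chain

set_option autoImplicit false
set_option linter.unusedSectionVars false
set_option linter.unusedVariables false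

open Claims.C0366 Claims.C0366.WeakHessian
open Set Filter MeasureTheory
open scoped ENNReal NNReal Topology RealInnerProductSpace

namespace Claimed.Agent.R210.GCD.Ifc

open Claimed.Agent.R210.Defs Claimed.Agent.R210.Defs2 Claimed.Agent.R210.HS.Defs

noncomputable section

variable {X : Type*} [MetricSpace X] [MeasurableSpace X] [BorelSpace X] [CompleteSpace X]
  [TopologicalSpace.SeparableSpace X] [ProperSpace X] {m : Measure X} {K N : ℝ}

/-- RS6, re-exported for convenience. -/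
theorem gcd_qform (hS : Std m K N) : QForm (ChL2 m) := Need.gcd_need_qform hS

/-! ## 1. Dictionary -/

/-! ### 0. `toLp` algebra for functions written as `fun x => ...` -/

theorem gcd_memLp_add {f g : X → ℝ} (hf : MemLp f 2 m) (hg : MemLp g 2 m) :
    MemLp (fun x => f x + g x) 2 m :=
  Dict.gcd_l_memLp_add hf hg

theorem gcd_memLp_sub {f g : X → ℝ} (hf : MemLp f 2 m) (hg : MemLp g 2 m) :
    MemLp (fun x => f x - g x) 2 m :=
  Dict.gcd_l_memLp_sub hf hg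

theorem gcd_memLp_smul (c : ℝ) {f : X → ℝ} (hf : MemLp f 2 m) :
    MemLp (fun x => c * f x) 2 m :=
  Dict.gcd_l_memLp_smul c hf

theorem gcd_memLp_div (c : ℝ) {f : X → ℝ} (hf : MemLp f 2 m) :
    MemLp (fun x => f x / c) 2 m :=
  Dict.gcd_l_memLp_div c hf

theorem gcd_toLp_add {f g : X → ℝ} (hf : MemLp f 2 m) (hg : MemLp g 2 m) :
    (gcd_memLp_add hf hg).toLp (fun x => f x + g x) = hf.toLp f + hg.toLp g :=
  Dict.gcd_l_toLp_add hf hg

theorem gcd_toLp_sub {f g : X → ℝ} (hf : MemLp f 2 m) (hg : MemLp g 2 m) :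
    (gcd_memLp_sub hf hg).toLp (fun x => f x - g x) = hf.toLp f - hg.toLp g :=
  Dict.gcd_l_toLp_sub hf hg

theorem gcd_toLp_smul (c : ℝ) {f : X → ℝ} (hf : MemLp f 2 m) :
    (gcd_memLp_smul c hf).toLp (fun x => c * f x) = c • hf.toLp f :=
  Dict.gcd_l_toLp_smul c hf

theorem gcd_toLp_div (c : ℝ) {f : X → ℝ} (hf : MemLp f 2 m) :
    (gcd_memLp_div c hf).toLp (fun x => f x / c) = c⁻¹ • hf.toLp f :=
  Dict.gcd_l_toLp_div c hf

theorem gcd_toLp_eq_iff {f g : X → ℝ} (hf : MemLp f 2 m) (hg : MemLp g 2 m) :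
    hf.toLp f = hg.toLp g ↔ f =ᵐ[m] g :=
  Dict.gcd_l_toLp_eq_iff hf hg

theorem gcd_toLp_coe (u : Lp ℝ 2 m) (h : MemLp (u : X → ℝ) 2 m) : h.toLp (u : X → ℝ) = u :=
  Dict.gcd_l_toLp_coe u h

theorem gcd_coe_toLp {f : X → ℝ} (hf : MemLp f 2 m) : ((hf.toLp f : Lp ℝ 2 m) : X → ℝ) =ᵐ[m] f :=
  Dict.gcd_l_coe_toLp hf

theorem gcd_sigmaFinite (hS : Std m K N) : SigmaFinite m :=
  Dict.gcd_l_sigmaFinite hS

/-! ### A. `L²` : inner product, norm, convergence -/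

theorem gcd_inner_coe (u v : Lp ℝ 2 m) : ⟪u, v⟫ = ∫ x, u x * v x ∂m :=
  Dict.gcd_l_inner_coe u v

theorem gcd_inner_toLp {f g : X → ℝ} (hf : MemLp f 2 m) (hg : MemLp g 2 m) :
    ⟪hf.toLp f, hg.toLp g⟫ = ∫ x, f x * g x ∂m :=
  Dict.gcd_l_inner_toLp hf hg

theorem gcd_norm_sq_toLp {f : X → ℝ} (hf : MemLp f 2 m) :
    ‖hf.toLp f‖ ^ 2 = ∫ x, f x ^ 2 ∂m :=
  Dict.gcd_l_norm_sq_toLp hf

theorem gcd_integrable_mul {f g : X → ℝ} (hf : MemLp f 2 m) (hg : MemLp g 2 m) :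
    Integrable (fun x => f x * g x) m :=
  Dict.gcd_l_integrable_mul hf hg

theorem gcd_integrable_sq {f : X → ℝ} (hf : MemLp f 2 m) :
    Integrable (fun x => f x ^ 2) m :=
  Dict.gcd_l_integrable_sq hf

/-- `L²` convergence to `0`: `eLpNorm` form versus real integral form. -/
theorem gcd_tendsto_L2_iff {ι : Type*} {l : Filter ι} {F : ι → X → ℝ}
    (hF : ∀ i, MemLp (F i) 2 m) :
    Tendsto (fun i => eLpNorm (F i) 2 m) l (𝓝 0) ↔
      Tendsto (fun i => ∫ x, F i x ^ 2 ∂m) l (𝓝 0) :=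
  Dict.gcd_l_tendsto_L2_iff hF

/-- convergence in the Hilbert space `Lp ℝ 2 m` versus `eLpNorm` of the difference. -/
theorem gcd_tendsto_toLp_iff {ι : Type*} {l : Filter ι} {F : ι → X → ℝ} {f : X → ℝ}
    (hF : ∀ i, MemLp (F i) 2 m) (hf : MemLp f 2 m) :
    Tendsto (fun i => (hF i).toLp (F i)) l (𝓝 (hf.toLp f)) ↔
      Tendsto (fun i => eLpNorm (fun x => F i x - f x) 2 m) l (𝓝 0) :=
  Dict.gcd_l_tendsto_toLp_iff hF hf

/-- `L²` convergence implies convergence of the pairings. -/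
theorem gcd_tendsto_integral_mul {ι : Type*} {l : Filter ι} {F : ι → X → ℝ} {f g : X → ℝ}
    (hF : ∀ i, MemLp (F i) 2 m) (hf : MemLp f 2 m) (hg : MemLp g 2 m)
    (h : Tendsto (fun i => eLpNorm (fun x => F i x - f x) 2 m) l (𝓝 0)) :
    Tendsto (fun i => ∫ x, F i x * g x ∂m) l (𝓝 (∫ x, f x * g x ∂m)) :=
  Dict.gcd_l_tendsto_integral_mul hF hf hg h

/-! ### B. congruence under a.e. equality -/

theorem gcd_ChL2_toLp {f : X → ℝ} (hf : MemLp f 2 m) :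
    ChL2 m (hf.toLp f) = cheegerEnergy m f :=
  Dict.gcd_l_ChL2_toLp hf

theorem gcd_energy_congr {f g : X → ℝ} (h : f =ᵐ[m] g) : energy m f = energy m g :=
  Dict.gcd_l_energy_congr h

theorem gcd_gamma_congr {f f' g g' : X → ℝ} (hf : f =ᵐ[m] f') (hg : g =ᵐ[m] g') :
    gamma m f g = gamma m f' g' :=
  Dict.gcd_l_gamma_congr hf hg

theorem gcd_form_congr {f f' g g' : X → ℝ} (hf : f =ᵐ[m] f') (hg : g =ᵐ[m] g') :
    form m f g = form m f' g' :=
  Dict.gcd_l_form_congr hf hg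

theorem gcd_sobolev_congr (hS : Std m K N) {f g : X → ℝ} (h : f =ᵐ[m] g) :
    Sobolev m f ↔ Sobolev m g :=
  Dict.gcd_l_sobolev_congr hS h

theorem gcd_energy_nonneg (f : X → ℝ) : 0 ≤ energy m f :=
  Dict.gcd_l_energy_nonneg f

/-! ### C. Sobolev space = form domain, energy, form -/

theorem gcd_sobolev_iff_ChL2 (hS : Std m K N) {f : X → ℝ} (hf : MemLp f 2 m) :
    Sobolev m f ↔ ChL2 m (hf.toLp f) < ∞ :=
  Dict.gcd_l_sobolev_iff_ChL2 hS hf

theorem gcd_sobolev_coe (hS : Std m K N) (u : Lp ℝ 2 m) :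
    Sobolev m (u : X → ℝ) ↔ ChL2 m u < ∞ :=
  Dict.gcd_l_sobolev_coe hS u

theorem gcd_ChL2_eq (hS : Std m K N) {f : X → ℝ} (hf : Sobolev m f) :
    ChL2 m (hf.1.toLp f) = ENNReal.ofReal (energy m f / 2) :=
  Dict.gcd_l_ChL2_eq hS hf

theorem gcd_ChL2_toReal (hS : Std m K N) {f : X → ℝ} (hf : Sobolev m f) :
    (ChL2 m (hf.1.toLp f)).toReal = energy m f / 2 :=
  Dict.gcd_l_ChL2_toReal hS hf

theorem gcd_sobolev_zero (hS : Std m K N) : Sobolev m (fun _ : X => (0 : ℝ)) :=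
  Dict.gcd_l_sobolev_zero hS

theorem gcd_sobolev_add (hS : Std m K N) {u v : X → ℝ} (hu : Sobolev m u) (hv : Sobolev m v) :
    Sobolev m (fun x => u x + v x) :=
  Dict.gcd_l_sobolev_add hS hu hv

theorem gcd_sobolev_sub (hS : Std m K N) {u v : X → ℝ} (hu : Sobolev m u) (hv : Sobolev m v) :
    Sobolev m (fun x => u x - v x) :=
  Dict.gcd_l_sobolev_sub hS hu hv

theorem gcd_sobolev_smul (hS : Std m K N) (c : ℝ) {u : X → ℝ} (hu : Sobolev m u) :
    Sobolev m (fun x => c * u x) :=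
  Dict.gcd_l_sobolev_smul hS c hu

theorem gcd_gamma_integrable (hS : Std m K N) {u v : X → ℝ} (hu : Sobolev m u)
    (hv : Sobolev m v) : Integrable (gamma m u v) m :=
  Dict.gcd_l_gamma_integrable hS hu hv

theorem gcd_form_eq_bil (hS : Std m K N) {u v : X → ℝ} (hu : Sobolev m u) (hv : Sobolev m v) :
    form m u v = bil (ChL2 m) (hu.1.toLp u) (hv.1.toLp v) :=
  Dict.gcd_l_form_eq_bil hS hu hv

theorem gcd_energy_eq_bil (hS : Std m K N) {u : X → ℝ} (hu : Sobolev m u) :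
    energy m u = bil (ChL2 m) (hu.1.toLp u) (hu.1.toLp u) :=
  Dict.gcd_l_energy_eq_bil hS hu

theorem gcd_form_self (hS : Std m K N) {u : X → ℝ} (hu : Sobolev m u) :
    form m u u = energy m u :=
  Dict.gcd_l_form_self hS hu

theorem gcd_form_comm (hS : Std m K N) {u v : X → ℝ} (hu : Sobolev m u) (hv : Sobolev m v) :
    form m u v = form m v u :=
  Dict.gcd_l_form_comm hS hu hv

theorem gcd_form_add_left (hS : Std m K N) {u u' v : X → ℝ} (hu : Sobolev m u)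
    (hu' : Sobolev m u') (hv : Sobolev m v) :
    form m (fun x => u x + u' x) v = form m u v + form m u' v :=
  Dict.gcd_l_form_add_left hS hu hu' hv

theorem gcd_form_smul_left (hS : Std m K N) (c : ℝ) {u v : X → ℝ} (hu : Sobolev m u)
    (hv : Sobolev m v) : form m (fun x => c * u x) v = c * form m u v :=
  Dict.gcd_l_form_smul_left hS c hu hv

theorem gcd_form_cs (hS : Std m K N) {u v : X → ℝ} (hu : Sobolev m u) (hv : Sobolev m v) :
    form m u v ^ 2 ≤ energy m u * energy m v :=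
  Dict.gcd_l_form_cs hS hu hv

/-- convergence to `0` in energy: `ChL2` form versus `energy` form. -/
theorem gcd_tendsto_energy_iff (hS : Std m K N) {ι : Type*} {l : Filter ι} {F : ι → X → ℝ}
    (hF : ∀ i, MemLp (F i) 2 m) (hF' : ∀ᶠ i in l, Sobolev m (F i)) :
    Tendsto (fun i => ChL2 m ((hF i).toLp (F i))) l (𝓝 0) ↔
      Tendsto (fun i => energy m (F i)) l (𝓝 0) :=
  Dict.gcd_l_tendsto_energy_iff hS hF hF'

/-- `v ↦ form m u v` is continuous for convergence in energy. -/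
theorem gcd_tendsto_form (hS : Std m K N) {ι : Type*} {l : Filter ι} {F : ι → X → ℝ}
    {u v : X → ℝ} (hu : Sobolev m u) (hF : ∀ᶠ i in l, Sobolev m (F i)) (hv : Sobolev m v)
    (h : Tendsto (fun i => energy m (fun x => F i x - v x)) l (𝓝 0)) :
    Tendsto (fun i => form m u (F i)) l (𝓝 (form m u v)) :=
  Dict.gcd_l_tendsto_form hS hu hF hv h

/-! ### D. `resF`, `heatF` as elements of `Lp ℝ 2 m` -/

theorem gcd_resF_eq {f : X → ℝ} (hf : MemLp f 2 m) (δ : ℝ) :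
    resF m δ f = ((prox (ChL2 m) δ (hf.toLp f) : Lp ℝ 2 m) : X → ℝ) :=
  Dict.gcd_l_resF_eq hf δ

theorem gcd_heatF_eq {f : X → ℝ} (hf : MemLp f 2 m) (t : ℝ) :
    heatF m t f = ((flow (ChL2 m) t (hf.toLp f) : Lp ℝ 2 m) : X → ℝ) :=
  Dict.gcd_l_heatF_eq hf t

theorem gcd_resF_memLp (δ : ℝ) (f : X → ℝ) : MemLp (resF m δ f) 2 m :=
  Dict.gcd_l_resF_memLp δ f

theorem gcd_heatF_memLp (t : ℝ) (f : X → ℝ) : MemLp (heatF m t f) 2 m :=
  Dict.gcd_l_heatF_memLp t f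

theorem gcd_resF_toLp {f : X → ℝ} (hf : MemLp f 2 m) (δ : ℝ) :
    (gcd_resF_memLp δ f).toLp (resF m δ f) = prox (ChL2 m) δ (hf.toLp f) :=
  Dict.gcd_l_resF_toLp hf δ

theorem gcd_heatF_toLp {f : X → ℝ} (hf : MemLp f 2 m) (t : ℝ) :
    (gcd_heatF_memLp t f).toLp (heatF m t f) = flow (ChL2 m) t (hf.toLp f) :=
  Dict.gcd_l_heatF_toLp hf t

theorem gcd_resF_congr {f g : X → ℝ} (h : f =ᵐ[m] g) (δ : ℝ) : resF m δ f = resF m δ g :=
  Dict.gcd_l_resF_congr h δ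

theorem gcd_heatF_congr {f g : X → ℝ} (h : f =ᵐ[m] g) (t : ℝ) :
    heatF m t f = heatF m t g :=
  Dict.gcd_l_heatF_congr h t

/-! ## 2. Laplacian -/

/-! ### A. the bridge -/

theorem gcd_isLaplacian_iff_isGen (hS : Std m K N) {u L : X → ℝ} (hu : MemLp u 2 m)
    (hL : MemLp L 2 m) :
    IsLaplacian m u L ↔ IsGen (ChL2 m) (hu.toLp u) (hL.toLp L) :=
  Lap.gcd_l_isLaplacian_iff_isGen hS hu hL

theorem gcd_isLaplacian_coe (hS : Std m K N) (u w : Lp ℝ 2 m) :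
    IsLaplacian m (u : X → ℝ) (w : X → ℝ) ↔ IsGen (ChL2 m) u w :=
  Lap.gcd_l_isLaplacian_coe hS u w

theorem gcd_isLaplacian_congr (hS : Std m K N) {u u' L L' : X → ℝ} (hu : u =ᵐ[m] u')
    (hL : L =ᵐ[m] L') (h : IsLaplacian m u L) : IsLaplacian m u' L' :=
  Lap.gcd_l_isLaplacian_congr hS hu hL h

theorem gcd_isLaplacian_unique (hS : Std m K N) {u L L' : X → ℝ} (h : IsLaplacian m u L)
    (h' : IsLaplacian m u L') : L =ᵐ[m] L' :=
  Lap.gcd_l_isLaplacian_unique hS h h'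

/-! ### B. `laplacian` -/

theorem gcd_laplacian_spec {u : X → ℝ} (hu : InLaplacianDomain m u) :
    IsLaplacian m u (laplacian m u) :=
  Lap.gcd_l_laplacian_spec hu

theorem gcd_laplacian_eq (hS : Std m K N) {u L : X → ℝ} (h : IsLaplacian m u L) :
    laplacian m u =ᵐ[m] L :=
  Lap.gcd_l_laplacian_eq hS h

theorem gcd_laplacian_congr (hS : Std m K N) {u u' : X → ℝ} (hu : u =ᵐ[m] u') :
    laplacian m u = laplacian m u' :=
  Lap.gcd_l_laplacian_congr hS hu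

theorem gcd_laplacian_memLp (u : X → ℝ) : MemLp (laplacian m u) 2 m :=
  Lap.gcd_l_laplacian_memLp u

theorem gcd_ibp {u v : X → ℝ} (hu : InLaplacianDomain m u) (hv : Sobolev m v) :
    ∫ x, gamma m u v x ∂m = -∫ x, laplacian m u x * v x ∂m :=
  Lap.gcd_l_ibp hu hv

/-! ### C. linearity -/

theorem gcd_isLaplacian_zero (hS : Std m K N) :
    IsLaplacian m (fun _ : X => (0 : ℝ)) (fun _ => 0) :=
  Lap.gcd_l_isLaplacian_zero hS

theorem gcd_isLaplacian_add (hS : Std m K N) {u v L M : X → ℝ} (hu : IsLaplacian m u L)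
    (hv : IsLaplacian m v M) :
    IsLaplacian m (fun x => u x + v x) (fun x => L x + M x) :=
  Lap.gcd_l_isLaplacian_add hS hu hv

theorem gcd_isLaplacian_sub (hS : Std m K N) {u v L M : X → ℝ} (hu : IsLaplacian m u L)
    (hv : IsLaplacian m v M) :
    IsLaplacian m (fun x => u x - v x) (fun x => L x - M x) :=
  Lap.gcd_l_isLaplacian_sub hS hu hv

theorem gcd_isLaplacian_smul (hS : Std m K N) (c : ℝ) {u L : X → ℝ} (hu : IsLaplacian m u L) :
    IsLaplacian m (fun x => c * u x) (fun x => c * L x) :=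
  Lap.gcd_l_isLaplacian_smul hS c hu

theorem gcd_laplacian_add (hS : Std m K N) {u v : X → ℝ} (hu : InLaplacianDomain m u)
    (hv : InLaplacianDomain m v) :
    laplacian m (fun x => u x + v x) =ᵐ[m] fun x => laplacian m u x + laplacian m v x :=
  Lap.gcd_l_laplacian_add hS hu hv

theorem gcd_laplacian_sub (hS : Std m K N) {u v : X → ℝ} (hu : InLaplacianDomain m u)
    (hv : InLaplacianDomain m v) :
    laplacian m (fun x => u x - v x) =ᵐ[m] fun x => laplacian m u x - laplacian m v x :=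
  Lap.gcd_l_laplacian_sub hS hu hv

theorem gcd_laplacian_smul (hS : Std m K N) (c : ℝ) {u : X → ℝ} (hu : InLaplacianDomain m u) :
    laplacian m (fun x => c * u x) =ᵐ[m] fun x => c * laplacian m u x :=
  Lap.gcd_l_laplacian_smul hS c hu

/-! ### D. symmetry, energy identity, closedness, reduced classes of test functions -/

theorem gcd_lap_symm (hS : Std m K N) {u v L M : X → ℝ} (hu : IsLaplacian m u L)
    (hv : IsLaplacian m v M) : ∫ x, L x * v x ∂m = ∫ x, u x * M x ∂m :=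
  Lap.gcd_l_lap_symm hS hu hv

theorem gcd_lap_energy (hS : Std m K N) {u L : X → ℝ} (hu : IsLaplacian m u L) :
    energy m u = -∫ x, L x * u x ∂m :=
  Lap.gcd_l_lap_energy hS hu

/-- it is enough to test with Lipschitz functions with compact support. -/
theorem gcd_isLaplacian_of_lipC (hS : Std m K N) {u L : X → ℝ} (hu : Sobolev m u)
    (hL : MemLp L 2 m)
    (h : ∀ v : X → ℝ, LipC v → ∫ x, gamma m u v x ∂m = -∫ x, L x * v x ∂m) :
    IsLaplacian m u L :=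
  Lap.gcd_l_isLaplacian_of_lipC hS hu hL h

/-- the Laplacian is a closed operator. -/
theorem gcd_isLaplacian_closed (hS : Std m K N) {ι : Type*} {l : Filter ι} [l.NeBot]
    {u L : ι → X → ℝ} {u' L' : X → ℝ} (h : ∀ᶠ i in l, IsLaplacian m (u i) (L i))
    (hu' : MemLp u' 2 m) (hL' : MemLp L' 2 m)
    (hu : Tendsto (fun i => eLpNorm (fun x => u i x - u' x) 2 m) l (𝓝 0))
    (hL : Tendsto (fun i => eLpNorm (fun x => L i x - L' x) 2 m) l (𝓝 0)) :
    IsLaplacian m u' L' :=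
  Lap.gcd_l_isLaplacian_closed hS h hu' hL' hu hL

/-- graph convergence implies convergence in energy. -/
theorem gcd_isLaplacian_tendsto_energy (hS : Std m K N) {ι : Type*} {l : Filter ι}
    {u L : ι → X → ℝ} {u' L' : X → ℝ} (h : ∀ᶠ i in l, IsLaplacian m (u i) (L i))
    (h' : IsLaplacian m u' L')
    (hu : Tendsto (fun i => eLpNorm (fun x => u i x - u' x) 2 m) l (𝓝 0))
    (hL : Tendsto (fun i => eLpNorm (fun x => L i x - L' x) 2 m) l (𝓝 0)) :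
    Tendsto (fun i => energy m (fun x => u i x - u' x)) l (𝓝 0) :=
  Lap.gcd_l_isLaplacian_tendsto_energy hS h h' hu hL

/-- integration by parts against a bounded Lipschitz function (not in `L²`), when `|Du|` and `Δu` are integrable. -/
theorem gcd_ibp_lipB (hS : Std m K N) {u L v : X → ℝ} (hu : IsLaplacian m u L)
    (hD1 : Integrable (weakGradient m u) m) (hL1 : Integrable L m) (hv : LipB v) :
    Integrable (gamma m u v) m ∧ ∫ x, gamma m u v x ∂m = -∫ x, L x * v x ∂m :=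
  Lap.gcd_l_ibp_lipB hS hu hD1 hL1 hv

/-! ## 3. Resolvent -/

/-! ### A. spec and uniqueness -/

theorem gcd_resF_spec (hS : Std m K N) {δ : ℝ} (hδ : 0 < δ) {f : X → ℝ} (hf : MemLp f 2 m) :
    IsLaplacian m (resF m δ f) (fun x => (resF m δ f x - f x) / δ) :=
  Res.gcd_l_resF_spec hS hδ hf

theorem gcd_resF_sobolev (hS : Std m K N) {δ : ℝ} (hδ : 0 < δ) {f : X → ℝ}
    (hf : MemLp f 2 m) : Sobolev m (resF m δ f) :=
  Res.gcd_l_resF_sobolev hS hδ hf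

theorem gcd_resF_laplacian (hS : Std m K N) {δ : ℝ} (hδ : 0 < δ) {f : X → ℝ}
    (hf : MemLp f 2 m) :
    laplacian m (resF m δ f) =ᵐ[m] fun x => (resF m δ f x - f x) / δ :=
  Res.gcd_l_resF_laplacian hS hδ hf

/-- weak formulation of `u - δΔu = f`. -/
theorem gcd_resF_weak (hS : Std m K N) {δ : ℝ} (hδ : 0 < δ) {f v : X → ℝ} (hf : MemLp f 2 m)
    (hv : Sobolev m v) :
    ∫ x, resF m δ f x * v x ∂m + δ * form m (resF m δ f) v = ∫ x, f x * v x ∂m :=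
  Res.gcd_l_resF_weak hS hδ hf hv

theorem gcd_resF_unique (hS : Std m K N) {δ : ℝ} (hδ : 0 < δ) {f u L : X → ℝ}
    (h : IsLaplacian m u L) (he : ∀ᵐ x ∂m, u x - δ * L x = f x) : u =ᵐ[m] resF m δ f :=
  Res.gcd_l_resF_unique hS hδ h he

/-- uniqueness from the weak formulation, tested with `LipC` only. -/
theorem gcd_resF_unique_weak (hS : Std m K N) {δ : ℝ} (hδ : 0 < δ) {f u : X → ℝ}
    (hf : MemLp f 2 m) (hu : Sobolev m u)
    (h : ∀ v : X → ℝ, LipC v → ∫ x, u x * v x ∂m + δ * form m u v = ∫ x, f x * v x ∂m) :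
    u =ᵐ[m] resF m δ f :=
  Res.gcd_l_resF_unique_weak hS hδ hf hu h

/-! ### B. linearity, symmetry, contraction -/

theorem gcd_resF_add (hS : Std m K N) {δ : ℝ} (hδ : 0 < δ) {f g : X → ℝ} (hf : MemLp f 2 m)
    (hg : MemLp g 2 m) :
    resF m δ (fun x => f x + g x) =ᵐ[m] fun x => resF m δ f x + resF m δ g x :=
  Res.gcd_l_resF_add hS hδ hf hg

theorem gcd_resF_sub (hS : Std m K N) {δ : ℝ} (hδ : 0 < δ) {f g : X → ℝ} (hf : MemLp f 2 m)
    (hg : MemLp g 2 m) :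
    resF m δ (fun x => f x - g x) =ᵐ[m] fun x => resF m δ f x - resF m δ g x :=
  Res.gcd_l_resF_sub hS hδ hf hg

theorem gcd_resF_smul (hS : Std m K N) {δ : ℝ} (hδ : 0 < δ) (c : ℝ) {f : X → ℝ}
    (hf : MemLp f 2 m) :
    resF m δ (fun x => c * f x) =ᵐ[m] fun x => c * resF m δ f x :=
  Res.gcd_l_resF_smul hS hδ c hf

theorem gcd_resF_symm (hS : Std m K N) {δ : ℝ} (hδ : 0 < δ) {f g : X → ℝ} (hf : MemLp f 2 m)
    (hg : MemLp g 2 m) : ∫ x, resF m δ f x * g x ∂m = ∫ x, f x * resF m δ g x ∂m :=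
  Res.gcd_l_resF_symm hS hδ hf hg

theorem gcd_resF_eLpNorm_le (hS : Std m K N) {δ : ℝ} (hδ : 0 < δ) {f : X → ℝ}
    (hf : MemLp f 2 m) : eLpNorm (resF m δ f) 2 m ≤ eLpNorm f 2 m :=
  Res.gcd_l_resF_eLpNorm_le hS hδ hf

theorem gcd_resF_sq_le (hS : Std m K N) {δ : ℝ} (hδ : 0 < δ) {f : X → ℝ}
    (hf : MemLp f 2 m) : ∫ x, resF m δ f x ^ 2 ∂m ≤ ∫ x, f x ^ 2 ∂m :=
  Res.gcd_l_resF_sq_le hS hδ hf

/-- `∫u² + δ E(u) = ∫ f u`, hence `δ E(u) ≤ ∫ f²`. -/
theorem gcd_resF_energy_bound (hS : Std m K N) {δ : ℝ} (hδ : 0 < δ) {f : X → ℝ}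
    (hf : MemLp f 2 m) : δ * energy m (resF m δ f) ≤ ∫ x, f x ^ 2 ∂m :=
  Res.gcd_l_resF_energy_bound hS hδ hf

theorem gcd_resF_energy_le (hS : Std m K N) {δ : ℝ} (hδ : 0 < δ) {f : X → ℝ}
    (hf : Sobolev m f) : energy m (resF m δ f) ≤ energy m f :=
  Res.gcd_l_resF_energy_le hS hδ hf

/-! ### C. convergence as `δ → 0`, form domain criterion -/

theorem gcd_resF_tendsto_L2 (hS : Std m K N) {f : X → ℝ} (hf : MemLp f 2 m) :
    Tendsto (fun δ : ℝ => eLpNorm (fun x => resF m δ f x - f x) 2 m) (𝓝[>] 0) (𝓝 0) :=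
  Res.gcd_l_resF_tendsto_L2 hS hf

theorem gcd_resF_tendsto_energy (hS : Std m K N) {f : X → ℝ} (hf : Sobolev m f) :
    Tendsto (fun δ : ℝ => energy m (fun x => resF m δ f x - f x)) (𝓝[>] 0) (𝓝 0) :=
  Res.gcd_l_resF_tendsto_energy hS hf

theorem gcd_resF_quot_le (hS : Std m K N) {δ : ℝ} (hδ : 0 < δ) {f : X → ℝ}
    (hf : Sobolev m f) : δ⁻¹ * ∫ x, (f x - resF m δ f x) * f x ∂m ≤ energy m f :=
  Res.gcd_l_resF_quot_le hS hδ hf

theorem gcd_resF_quot_tendsto (hS : Std m K N) {f : X → ℝ} (hf : Sobolev m f) :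
    Tendsto (fun δ : ℝ => δ⁻¹ * ∫ x, (f x - resF m δ f x) * f x ∂m) (𝓝[>] 0)
      (𝓝 (energy m f)) :=
  Res.gcd_l_resF_quot_tendsto hS hf

/-- form domain criterion. -/
theorem gcd_resF_crit (hS : Std m K N) {f : X → ℝ} (hf : MemLp f 2 m) {C : ℝ}
    (h : ∀ᶠ δ : ℝ in 𝓝[>] 0, δ⁻¹ * ∫ x, (f x - resF m δ f x) * f x ∂m ≤ C) :
    Sobolev m f ∧ energy m f ≤ C :=
  Res.gcd_l_resF_crit hS hf h

/-! ### D. commutation -/

theorem gcd_resF_comm (hS : Std m K N) {δ δ' : ℝ} (hδ : 0 < δ) (hδ' : 0 < δ') {f : X → ℝ}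
    (hf : MemLp f 2 m) : resF m δ (resF m δ' f) = resF m δ' (resF m δ f) :=
  Res.gcd_l_resF_comm hS hδ hδ' hf

theorem gcd_resF_lap (hS : Std m K N) {δ : ℝ} (hδ : 0 < δ) {u L : X → ℝ}
    (h : IsLaplacian m u L) : IsLaplacian m (resF m δ u) (resF m δ L) :=
  Res.gcd_l_resF_lap hS hδ h

/-! ### E. sub-Markov property (from HF1) -/

theorem gcd_resF_le (hS : Std m K N) {δ C : ℝ} (hδ : 0 < δ) (hC : 0 ≤ C) {f : X → ℝ}
    (hf : MemLp f 2 m) (h : ∀ᵐ x ∂m, f x ≤ C) : ∀ᵐ x ∂m, resF m δ f x ≤ C :=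
  Res.gcd_l_resF_le hS hδ hC hf h

theorem gcd_resF_L1 (hS : Std m K N) {δ : ℝ} (hδ : 0 < δ) {f : X → ℝ}
    (hf : MemLp f 2 m) (hf1 : Integrable f m) :
    Integrable (resF m δ f) m ∧ ∫ x, |resF m δ f x| ∂m ≤ ∫ x, |f x| ∂m :=
  Res.gcd_l_resF_L1 hS hδ hf hf1

theorem gcd_resF_nonneg (hS : Std m K N) {δ : ℝ} (hδ : 0 < δ) {f : X → ℝ}
    (hf : MemLp f 2 m) (h : ∀ᵐ x ∂m, 0 ≤ f x) : ∀ᵐ x ∂m, 0 ≤ resF m δ f x :=
  Res.gcd_l_resF_nonneg hS hδ hf h

theorem gcd_resF_mono (hS : Std m K N) {δ : ℝ} (hδ : 0 < δ) {f g : X → ℝ}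
    (hf : MemLp f 2 m) (hg : MemLp g 2 m) (h : ∀ᵐ x ∂m, f x ≤ g x) :
    ∀ᵐ x ∂m, resF m δ f x ≤ resF m δ g x :=
  Res.gcd_l_resF_mono hS hδ hf hg h

theorem gcd_resF_aebdd (hS : Std m K N) {δ B : ℝ} (hδ : 0 < δ) {f : X → ℝ}
    (hf : MemLp f 2 m) (h : AEBdd m f B) : AEBdd m (resF m δ f) B :=
  Res.gcd_l_resF_aebdd hS hδ hf h

/-! ### F. weighted bounds, mass, nice densities (from HF1, HF2, HF3) -/

theorem gcd_resF_weight (hS : Std m K N) (o : X) {a δ : ℝ} (ha : 0 ≤ a) (hδ : 0 < δ)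
    (hδa : 4 * δ * a ^ 2 ≤ 1) {f : X → ℝ} (hf : MemLp f 2 m)
    (hw : Integrable (fun x => Real.exp (2 * a * dist x o) * f x ^ 2) m) :
    Integrable (fun x => Real.exp (2 * a * dist x o) * resF m δ f x ^ 2) m ∧
      ∫ x, Real.exp (2 * a * dist x o) * resF m δ f x ^ 2 ∂m ≤
        Real.exp (8 * a ^ 2 * δ) * ∫ x, Real.exp (2 * a * dist x o) * f x ^ 2 ∂m :=
  Res.gcd_l_resF_weight hS o ha hδ hδa hf hw

theorem gcd_resF_weight_grad (hS : Std m K N) (o : X) {a δ : ℝ} (ha : 0 ≤ a)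
    (hδ : 0 < δ) (hδa : 4 * δ * a ^ 2 ≤ 1) {f : X → ℝ} (hf : MemLp f 2 m)
    (hw : Integrable (fun x => Real.exp (2 * a * dist x o) * f x ^ 2) m) :
    Integrable (fun x => Real.exp (2 * a * dist x o) * weakGradient m (resF m δ f) x ^ 2) m ∧
      δ * ∫ x, Real.exp (2 * a * dist x o) * weakGradient m (resF m δ f) x ^ 2 ∂m ≤
        4 * ∫ x, Real.exp (2 * a * dist x o) * f x ^ 2 ∂m :=
  Res.gcd_l_resF_weight_grad hS o ha hδ hδa hf hw

theorem gcd_resF_mass (hS : Std m K N) (o : X) {a δ : ℝ} (ha : GoodExp m o a)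
    (hδ : 0 < δ) (hδa : 4 * δ * a ^ 2 ≤ 1) {f : X → ℝ} (hf : MemLp f 2 m)
    (hw : Integrable (fun x => Real.exp (2 * a * dist x o) * f x ^ 2) m) :
    Integrable f m ∧ Integrable (resF m δ f) m ∧ ∫ x, resF m δ f x ∂m = ∫ x, f x ∂m :=
  Res.gcd_l_resF_mass hS o ha hδ hδa hf hw

theorem gcd_niceDens_memLp {o : X} {a B : ℝ} {ρ : X → ℝ} (hρ : NiceDens m o a B ρ) :
    MemLp ρ 2 m :=
  Res.gcd_l_niceDens_memLp hρ

theorem gcd_resF_niceDens (hS : Std m K N) (o : X) {a δ B : ℝ} (ha : GoodExp m o a)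
    (hδ : 0 < δ) (hδa : 4 * δ * a ^ 2 ≤ 1) {ρ : X → ℝ} (hρ : NiceDens m o a B ρ) :
    NiceDens m o a B (resF m δ ρ) :=
  Res.gcd_l_resF_niceDens hS o ha hδ hδa hρ

/-! ### G. continuity in the datum; integration by parts against bounded Lipschitz functions -/

theorem gcd_resF_tendsto_datum (hS : Std m K N) {δ : ℝ} (hδ : 0 < δ) {ι : Type*}
    {l : Filter ι} {F : ι → X → ℝ} {f : X → ℝ} (hF : ∀ i, MemLp (F i) 2 m) (hf : MemLp f 2 m)
    (h : Tendsto (fun i => eLpNorm (fun x => F i x - f x) 2 m) l (𝓝 0)) :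
    Tendsto (fun i => eLpNorm (fun x => resF m δ (F i) x - resF m δ f x) 2 m) l (𝓝 0) :=
  Res.gcd_l_resF_tendsto_datum hS hδ hF hf h

theorem gcd_resF_tendsto_datum_energy (hS : Std m K N) {δ : ℝ} (hδ : 0 < δ) {ι : Type*}
    {l : Filter ι} {F : ι → X → ℝ} {f : X → ℝ} (hF : ∀ i, MemLp (F i) 2 m) (hf : MemLp f 2 m)
    (h : Tendsto (fun i => eLpNorm (fun x => F i x - f x) 2 m) l (𝓝 0)) :
    Tendsto (fun i => energy m (fun x => resF m δ (F i) x - resF m δ f x)) l (𝓝 0) :=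
  Res.gcd_l_resF_tendsto_datum_energy hS hδ hF hf h

theorem gcd_resF_grad_L1 (hS : Std m K N) (o : X) {a δ : ℝ} (ha : GoodExp m o a)
    (hδ : 0 < δ) (hδa : 4 * δ * a ^ 2 ≤ 1) {f : X → ℝ} (hf : MemLp f 2 m)
    (hw : Integrable (fun x => Real.exp (2 * a * dist x o) * f x ^ 2) m) :
    Integrable (weakGradient m (resF m δ f)) m :=
  Res.gcd_l_resF_grad_L1 hS o ha hδ hδa hf hw

/-- weak formulation of `u - δΔu = f` tested with a bounded Lipschitz function. -/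
theorem gcd_resF_weak_lipB (hS : Std m K N) (o : X) {a δ : ℝ} (ha : GoodExp m o a)
    (hδ : 0 < δ) (hδa : 4 * δ * a ^ 2 ≤ 1) {f v : X → ℝ} (hf : MemLp f 2 m)
    (hw : Integrable (fun x => Real.exp (2 * a * dist x o) * f x ^ 2) m) (hv : LipB v) :
    Integrable (gamma m (resF m δ f) v) m ∧
      ∫ x, resF m δ f x * v x ∂m + δ * ∫ x, gamma m (resF m δ f) v x ∂m =
        ∫ x, f x * v x ∂m :=
  Res.gcd_l_resF_weak_lipB hS o ha hδ hδa hf hw hv

/-! ## 4. Heat flow -/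

/-! ### A. semigroup, linearity, symmetry, contraction, continuity -/

theorem gcd_heatF_of_nonpos {t : ℝ} (ht : t ≤ 0) {f : X → ℝ} (hf : MemLp f 2 m) :
    heatF m t f =ᵐ[m] f :=
  Heat.gcd_l_heatF_of_nonpos ht hf

theorem gcd_heatF_add_time (hS : Std m K N) {s t : ℝ} (hs : 0 ≤ s) (ht : 0 ≤ t) {f : X → ℝ}
    (hf : MemLp f 2 m) : heatF m (s + t) f = heatF m s (heatF m t f) :=
  Heat.gcd_l_heatF_add_time hS hs ht hf

theorem gcd_heatF_add (hS : Std m K N) (t : ℝ) {f g : X → ℝ} (hf : MemLp f 2 m)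
    (hg : MemLp g 2 m) :
    heatF m t (fun x => f x + g x) =ᵐ[m] fun x => heatF m t f x + heatF m t g x :=
  Heat.gcd_l_heatF_add hS t hf hg

theorem gcd_heatF_sub (hS : Std m K N) (t : ℝ) {f g : X → ℝ} (hf : MemLp f 2 m)
    (hg : MemLp g 2 m) :
    heatF m t (fun x => f x - g x) =ᵐ[m] fun x => heatF m t f x - heatF m t g x :=
  Heat.gcd_l_heatF_sub hS t hf hg

theorem gcd_heatF_smul (hS : Std m K N) (t : ℝ) (c : ℝ) {f : X → ℝ} (hf : MemLp f 2 m) :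
    heatF m t (fun x => c * f x) =ᵐ[m] fun x => c * heatF m t f x :=
  Heat.gcd_l_heatF_smul hS t c hf

theorem gcd_heatF_symm (hS : Std m K N) (t : ℝ) {f g : X → ℝ} (hf : MemLp f 2 m)
    (hg : MemLp g 2 m) : ∫ x, heatF m t f x * g x ∂m = ∫ x, f x * heatF m t g x ∂m :=
  Heat.gcd_l_heatF_symm hS t hf hg

theorem gcd_heatF_eLpNorm_le (hS : Std m K N) (t : ℝ) {f : X → ℝ} (hf : MemLp f 2 m) :
    eLpNorm (heatF m t f) 2 m ≤ eLpNorm f 2 m :=
  Heat.gcd_l_heatF_eLpNorm_le hS t hf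

theorem gcd_heatF_sq_le (hS : Std m K N) (t : ℝ) {f : X → ℝ} (hf : MemLp f 2 m) :
    ∫ x, heatF m t f x ^ 2 ∂m ≤ ∫ x, f x ^ 2 ∂m :=
  Heat.gcd_l_heatF_sq_le hS t hf

/-- strong continuity in `L²` at every time. -/
theorem gcd_heatF_continuous (hS : Std m K N) {f : X → ℝ} (hf : MemLp f 2 m) (t₀ : ℝ) :
    Tendsto (fun t : ℝ => eLpNorm (fun x => heatF m t f x - heatF m t₀ f x) 2 m) (𝓝 t₀)
      (𝓝 0) :=
  Heat.gcd_l_heatF_continuous hS hf t₀

theorem gcd_heatF_tendsto_zero (hS : Std m K N) {f : X → ℝ} (hf : MemLp f 2 m) :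
    Tendsto (fun t : ℝ => eLpNorm (fun x => heatF m t f x - f x) 2 m) (𝓝 0) (𝓝 0) :=
  Heat.gcd_l_heatF_tendsto_zero hS hf

/-- weak continuity: `t ↦ ∫ H_t f · h` is continuous. -/
theorem gcd_heatF_continuous_inner (hS : Std m K N) {f h : X → ℝ} (hf : MemLp f 2 m)
    (hh : MemLp h 2 m) : Continuous (fun t : ℝ => ∫ x, heatF m t f x * h x ∂m) :=
  Heat.gcd_l_heatF_continuous_inner hS hf hh

/-! ### B. regularisation and time derivative -/

theorem gcd_heatF_inDomain (hS : Std m K N) {t : ℝ} (ht : 0 < t) {f : X → ℝ}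
    (hf : MemLp f 2 m) : InLaplacianDomain m (heatF m t f) :=
  Heat.gcd_l_heatF_inDomain hS ht hf

theorem gcd_heatF_sobolev (hS : Std m K N) {t : ℝ} (ht : 0 < t) {f : X → ℝ}
    (hf : MemLp f 2 m) : Sobolev m (heatF m t f) :=
  Heat.gcd_l_heatF_sobolev hS ht hf

theorem gcd_heatF_sobolev_of_sobolev (hS : Std m K N) (t : ℝ) {f : X → ℝ}
    (hf : Sobolev m f) : Sobolev m (heatF m t f) :=
  Heat.gcd_l_heatF_sobolev_of_sobolev hS t hf

/-- derivative in the Hilbert space `Lp ℝ 2 m`. -/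
theorem gcd_heatF_hasDerivAt_Lp (hS : Std m K N) {t : ℝ} (ht : 0 < t) {f : X → ℝ}
    (hf : MemLp f 2 m) :
    HasDerivAt (fun s : ℝ => flow (ChL2 m) s (hf.toLp f))
      ((gcd_laplacian_memLp (heatF m t f)).toLp (laplacian m (heatF m t f))) t :=
  Heat.gcd_l_heatF_hasDerivAt_Lp hS ht hf

/-- strong `L²` derivative, function level. -/
theorem gcd_heatF_deriv_L2 (hS : Std m K N) {t : ℝ} (ht : 0 < t) {f : X → ℝ}
    (hf : MemLp f 2 m) :
    Tendsto (fun s : ℝ => eLpNorm (fun x => (heatF m (t + s) f x - heatF m t f x) / s -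
      laplacian m (heatF m t f) x) 2 m) (𝓝[≠] 0) (𝓝 0) :=
  Heat.gcd_l_heatF_deriv_L2 hS ht hf

/-- weak derivative. -/
theorem gcd_heatF_hasDerivAt_inner (hS : Std m K N) {t : ℝ} (ht : 0 < t) {f h : X → ℝ}
    (hf : MemLp f 2 m) (hh : MemLp h 2 m) :
    HasDerivAt (fun s : ℝ => ∫ x, heatF m s f x * h x ∂m)
      (∫ x, laplacian m (heatF m t f) x * h x ∂m) t :=
  Heat.gcd_l_heatF_hasDerivAt_inner hS ht hf hh

/-- weak derivative, tested with a Sobolev function. -/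
theorem gcd_heatF_hasDerivAt_form (hS : Std m K N) {t : ℝ} (ht : 0 < t) {f h : X → ℝ}
    (hf : MemLp f 2 m) (hh : Sobolev m h) :
    HasDerivAt (fun s : ℝ => ∫ x, heatF m s f x * h x ∂m) (-form m (heatF m t f) h) t :=
  Heat.gcd_l_heatF_hasDerivAt_form hS ht hf hh

theorem gcd_heatF_norm_deriv (hS : Std m K N) {t : ℝ} (ht : 0 < t) {f : X → ℝ}
    (hf : MemLp f 2 m) :
    HasDerivAt (fun s : ℝ => (∫ x, heatF m s f x ^ 2 ∂m) / 2) (-energy m (heatF m t f)) t :=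
  Heat.gcd_l_heatF_norm_deriv hS ht hf

theorem gcd_heatF_lap_sq_le (hS : Std m K N) {t : ℝ} (ht : 0 < t) {f : X → ℝ}
    (hf : MemLp f 2 m) :
    ∫ x, laplacian m (heatF m t f) x ^ 2 ∂m ≤ (∫ x, f x ^ 2 ∂m) / t ^ 2 :=
  Heat.gcd_l_heatF_lap_sq_le hS ht hf

theorem gcd_heatF_energy_bound (hS : Std m K N) {t : ℝ} (ht : 0 < t) {f : X → ℝ}
    (hf : MemLp f 2 m) : energy m (heatF m t f) ≤ (∫ x, f x ^ 2 ∂m) / t :=
  Heat.gcd_l_heatF_energy_bound hS ht hf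

/-! ### C. energy along the flow -/

theorem gcd_heatF_energy_antitone (hS : Std m K N) {f : X → ℝ} (hf : MemLp f 2 m) :
    AntitoneOn (fun t : ℝ => energy m (heatF m t f)) (Ioi 0) :=
  Heat.gcd_l_heatF_energy_antitone hS hf

theorem gcd_heatF_energy_le (hS : Std m K N) (t : ℝ) {f : X → ℝ} (hf : Sobolev m f) :
    energy m (heatF m t f) ≤ energy m f :=
  Heat.gcd_l_heatF_energy_le hS t hf

theorem gcd_heatF_energy_tendsto (hS : Std m K N) {f : X → ℝ} (hf : Sobolev m f) :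
    Tendsto (fun t : ℝ => energy m (heatF m t f)) (𝓝[>] 0) (𝓝 (energy m f)) :=
  Heat.gcd_l_heatF_energy_tendsto hS hf

theorem gcd_heatF_tendsto_energy (hS : Std m K N) {f : X → ℝ} (hf : Sobolev m f) :
    Tendsto (fun t : ℝ => energy m (fun x => heatF m t f x - f x)) (𝓝[>] 0) (𝓝 0) :=
  Heat.gcd_l_heatF_tendsto_energy hS hf

/-- if the energies stay bounded as `t → 0` then `f` is Sobolev. -/
theorem gcd_heatF_crit (hS : Std m K N) {f : X → ℝ} (hf : MemLp f 2 m) {C : ℝ}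
    (h : ∃ᶠ t : ℝ in 𝓝[>] 0, energy m (heatF m t f) ≤ C) :
    Sobolev m f ∧ energy m f ≤ C :=
  Heat.gcd_l_heatF_crit hS hf h

/-! ### D. commutation, difference quotients at `t = 0` -/

theorem gcd_heatF_resF_comm (hS : Std m K N) {δ : ℝ} (hδ : 0 < δ) (t : ℝ) {f : X → ℝ}
    (hf : MemLp f 2 m) : heatF m t (resF m δ f) = resF m δ (heatF m t f) :=
  Heat.gcd_l_heatF_resF_comm hS hδ t hf

theorem gcd_heatF_lap (hS : Std m K N) (t : ℝ) {u L : X → ℝ} (h : IsLaplacian m u L) :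
    IsLaplacian m (heatF m t u) (heatF m t L) :=
  Heat.gcd_l_heatF_lap hS t h

theorem gcd_heatF_quot_L2 (hS : Std m K N) {f L : X → ℝ} (h : IsLaplacian m f L) :
    Tendsto (fun t : ℝ => eLpNorm (fun x => (heatF m t f x - f x) / t - L x) 2 m) (𝓝[>] 0)
      (𝓝 0) :=
  Heat.gcd_l_heatF_quot_L2 hS h

theorem gcd_heatF_quot_energy (hS : Std m K N) {f L : X → ℝ} (h : IsLaplacian m f L)
    (hL : Sobolev m L) :
    Tendsto (fun t : ℝ => energy m (fun x => (heatF m t f x - f x) / t - L x)) (𝓝[>] 0)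
      (𝓝 0) :=
  Heat.gcd_l_heatF_quot_energy hS h hL

/-- `H_t f - f = ∫_0^t H_s Δf ds`, tested. -/
theorem gcd_heatF_sub_eq_integral (hS : Std m K N) {t : ℝ} (ht : 0 ≤ t) {f L h : X → ℝ}
    (hfL : IsLaplacian m f L) (hh : MemLp h 2 m) :
    ∫ x, (heatF m t f x - f x) * h x ∂m = ∫ s in (0 : ℝ)..t, ∫ x, heatF m s L x * h x ∂m :=
  Heat.gcd_l_heatF_sub_eq_integral hS ht hfL hh

/-- `|Δf| ≤ B` implies `|H_t f - f| ≤ B t`. -/
theorem gcd_heatF_quot_aebdd (hS : Std m K N) {t B : ℝ} (ht : 0 < t) {f L : X → ℝ}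
    (h : IsLaplacian m f L) (hB : AEBdd m L B) :
    AEBdd m (fun x => (heatF m t f x - f x) / t) B :=
  Heat.gcd_l_heatF_quot_aebdd hS ht h hB

/-! ### E. Laplace transform (HS4) -/

theorem gcd_laplace (hS : Std m K N) {δ : ℝ} (hδ : 0 < δ) {f h : X → ℝ} (hf : MemLp f 2 m)
    (hh : MemLp h 2 m) :
    ∫ x, resF m δ f x * h x ∂m =
      ∫ t in Ioi (0 : ℝ), δ⁻¹ * Real.exp (-t / δ) * ∫ x, heatF m t f x * h x ∂m :=
  Heat.gcd_l_laplace hS hδ hf hh

/-! ### F. sub-Markov property and nice densities (from HF1, HF2, HF3) -/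

theorem gcd_heatF_le (hS : Std m K N) (t : ℝ) {C : ℝ} (hC : 0 ≤ C) {f : X → ℝ}
    (hf : MemLp f 2 m) (h : ∀ᵐ x ∂m, f x ≤ C) : ∀ᵐ x ∂m, heatF m t f x ≤ C :=
  Heat.gcd_l_heatF_le hS t hC hf h

theorem gcd_heatF_L1 (hS : Std m K N) (t : ℝ) {f : X → ℝ}
    (hf : MemLp f 2 m) (hf1 : Integrable f m) :
    Integrable (heatF m t f) m ∧ ∫ x, |heatF m t f x| ∂m ≤ ∫ x, |f x| ∂m :=
  Heat.gcd_l_heatF_L1 hS t hf hf1

theorem gcd_heatF_weight (hS : Std m K N) (o : X) {a t : ℝ} (ha : 0 ≤ a) (ht : 0 ≤ t)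
    {f : X → ℝ} (hf : MemLp f 2 m)
    (hw : Integrable (fun x => Real.exp (2 * a * dist x o) * f x ^ 2) m) :
    Integrable (fun x => Real.exp (2 * a * dist x o) * heatF m t f x ^ 2) m ∧
      ∫ x, Real.exp (2 * a * dist x o) * heatF m t f x ^ 2 ∂m ≤
        Real.exp (8 * a ^ 2 * t) * ∫ x, Real.exp (2 * a * dist x o) * f x ^ 2 ∂m :=
  Heat.gcd_l_heatF_weight hS o ha ht hf hw

theorem gcd_heatF_mass (hS : Std m K N) (o : X) {a t : ℝ} (ha : GoodExp m o a)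
    (ht : 0 ≤ t) {f : X → ℝ} (hf : MemLp f 2 m)
    (hw : Integrable (fun x => Real.exp (2 * a * dist x o) * f x ^ 2) m) :
    Integrable f m ∧ Integrable (heatF m t f) m ∧ ∫ x, heatF m t f x ∂m = ∫ x, f x ∂m :=
  Heat.gcd_l_heatF_mass hS o ha ht hf hw

theorem gcd_heatF_nonneg (hS : Std m K N) (t : ℝ) {f : X → ℝ}
    (hf : MemLp f 2 m) (h : ∀ᵐ x ∂m, 0 ≤ f x) : ∀ᵐ x ∂m, 0 ≤ heatF m t f x :=
  Heat.gcd_l_heatF_nonneg hS t hf h

theorem gcd_heatF_mono (hS : Std m K N) (t : ℝ) {f g : X → ℝ}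
    (hf : MemLp f 2 m) (hg : MemLp g 2 m) (h : ∀ᵐ x ∂m, f x ≤ g x) :
    ∀ᵐ x ∂m, heatF m t f x ≤ heatF m t g x :=
  Heat.gcd_l_heatF_mono hS t hf hg h

theorem gcd_heatF_aebdd (hS : Std m K N) (t : ℝ) {B : ℝ} {f : X → ℝ}
    (hf : MemLp f 2 m) (h : AEBdd m f B) : AEBdd m (heatF m t f) B :=
  Heat.gcd_l_heatF_aebdd hS t hf h

theorem gcd_heatF_niceDens (hS : Std m K N) (o : X) {a t B : ℝ} (ha : GoodExp m o a)
    (ht : 0 ≤ t) {ρ : X → ℝ} (hρ : NiceDens m o a B ρ) :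
    NiceDens m o a B (heatF m t ρ) :=
  Heat.gcd_l_heatF_niceDens hS o ha ht hρ

/-! ### G. continuity in the datum -/

theorem gcd_heatF_tendsto_datum (hS : Std m K N) (t : ℝ) {ι : Type*}
    {l : Filter ι} {F : ι → X → ℝ} {f : X → ℝ} (hF : ∀ i, MemLp (F i) 2 m) (hf : MemLp f 2 m)
    (h : Tendsto (fun i => eLpNorm (fun x => F i x - f x) 2 m) l (𝓝 0)) :
    Tendsto (fun i => eLpNorm (fun x => heatF m t (F i) x - heatF m t f x) 2 m) l (𝓝 0) :=
  Heat.gcd_l_heatF_tendsto_datum hS t hF hf h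

theorem gcd_heatF_tendsto_datum_energy (hS : Std m K N) {t : ℝ} (ht : 0 < t) {ι : Type*}
    {l : Filter ι} {F : ι → X → ℝ} {f : X → ℝ} (hF : ∀ i, MemLp (F i) 2 m) (hf : MemLp f 2 m)
    (h : Tendsto (fun i => eLpNorm (fun x => F i x - f x) 2 m) l (𝓝 0)) :
    Tendsto (fun i => energy m (fun x => heatF m t (F i) x - heatF m t f x)) l (𝓝 0) :=
  Heat.gcd_l_heatF_tendsto_datum_energy hS ht hF hf h

/-- the heat flow is continuous for the `W^{1,2}` norm. -/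
theorem gcd_heatF_tendsto_datum_sobolev (hS : Std m K N) (t : ℝ) {ι : Type*}
    {l : Filter ι} {F : ι → X → ℝ} {f : X → ℝ} (hF : ∀ i, Sobolev m (F i)) (hf : Sobolev m f)
    (h : Tendsto (fun i => energy m (fun x => F i x - f x)) l (𝓝 0)) :
    Tendsto (fun i => energy m (fun x => heatF m t (F i) x - heatF m t f x)) l (𝓝 0) :=
  Heat.gcd_l_heatF_tendsto_datum_sobolev hS t hF hf h

/-! ## 5. Chain and Leibniz rule -/

/-- chain rule for the Laplacian. -/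
theorem gcd_lap_chain (hS : Std m K N) {u L : X → ℝ} {B B' : ℝ} {φ : ℝ → ℝ}
    (hu : IsLaplacian m u L) (hB : AEBdd m u B) (hB' : AEBdd m (weakGradient m u) B')
    (hφ : ContDiff ℝ 2 φ) (h0 : φ 0 = 0) :
    IsLaplacian m (fun x => φ (u x))
      (fun x => deriv φ (u x) * L x + deriv (deriv φ) (u x) * gamma m u u x) :=
  Chain.gcd_l_lap_chain hS hu hB hB' hφ h0

/-- `Δ(u²) = 2uΔu + 2Γ(u)`. -/
theorem gcd_lap_sq (hS : Std m K N) {u L : X → ℝ} {B B' : ℝ}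
    (hu : IsLaplacian m u L) (hB : AEBdd m u B) (hB' : AEBdd m (weakGradient m u) B') :
    IsLaplacian m (fun x => u x ^ 2) (fun x => 2 * u x * L x + 2 * gamma m u u x) :=
  Chain.gcd_l_lap_sq hS hu hB hB'

/-- Leibniz rule for the Laplacian. -/
theorem gcd_lap_mul (hS : Std m K N) {u v L M : X → ℝ} {B B' : ℝ}
    (hu : IsLaplacian m u L) (hv : IsLaplacian m v M) (hBu : AEBdd m u B) (hBv : AEBdd m v B)
    (hBu' : AEBdd m (weakGradient m u) B') (hBv' : AEBdd m (weakGradient m v) B') :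
    IsLaplacian m (fun x => u x * v x)
      (fun x => u x * M x + v x * L x + 2 * gamma m u v x) :=
  Chain.gcd_l_lap_mul hS hu hv hBu hBv hBu' hBv'

end

end Claimed.Agent.R210.GCD.Ifc
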